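import Vale.Agent.P167.H167.Scale

/-!
# P167, block EQUI: the derivative field is uniformly Hoelder continuous
-/

namespace Vale.Agent.P167.H167

open Finset MeasureTheory ProbabilityTheory
open Vale.Agent.P167.BR
open Vale.Agent.P167.H542 (wp' XT)

variable {D : Finset (ℤ × ℤ)} {p z z' : ℤ × ℤ} {f : ℤ × ℤ → ℝ} {ω ω' : Cfg} {A : Finset Ed}

/-! ### Signs -/

open Classical in
/-- Difference of the separation indicators. -/
noncomputable def sgm (D : Finset (ℤ × ℤ)) (p z z' : ℤ × ℤ) (A : Finset Ed) : ℝ :=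
  (if Sep D A z p then 1 else 0) - (if Sep D A z' p then 1 else 0)

theorem abs_sgm_le (D : Finset (ℤ × ℤ)) (p z z' : ℤ × ℤ) (A : Finset Ed) :
    |sgm D p z z' A| ≤ 1 := by
  unfold sgm
  split_ifs <;> norm_num

theorem sgm_pot (h : sgm D p z z' A ≠ 0) : ∃ u, PotD D A u ∧ u z ≠ u z' := by
  unfold sgm at h
  by_cases h1 : Sep D A z p <;> by_cases h2 : Sep D A z' p
  · exact absurd (by rw [if_pos h1, if_pos h2, sub_self]) h
  · obtain ⟨u, hu, h3⟩ := h1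
    refine ⟨u, hu, fun h4 => h2 ⟨u, hu, ?_⟩⟩
    rwa [← h4]
  · obtain ⟨u, hu, h3⟩ := h2
    refine ⟨u, hu, fun h4 => h1 ⟨u, hu, ?_⟩⟩
    rwa [h4]
  · exact absurd (by rw [if_neg h1, if_neg h2, sub_self]) h

theorem Geo.sgm_near {K m : ℤ} (hG : Geo K m D p) (hA : A ∈ pcs ω D) {s : ℤ} (hs1 : 1 ≤ s)
    (hsm : s ≤ m) (hs : Small (s : ℝ) A) (hz : z ∈ sites D) (hz' : z' ∈ sites D)
    (hne : sgm D p z z' A ≠ 0) :
    (∀ e ∈ A, nm (hdv e - z) ≤ (K + 1) * s) ∨ (∀ e ∈ A, nm (hdv e - z') ≤ (K + 1) * s) := by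
  obtain ⟨e0, he0⟩ := pcs_nonempty hA
  obtain ⟨u, hu, h⟩ := sgm_pot hne
  have hW : Wi (hdv e0) s A := fun e he => by
    have := hs _ (Finset.mem_image_of_mem hdv he) _ (Finset.mem_image_of_mem hdv he0)
    have h2 : nm (hdv e - hdv e0) < s := by exact_mod_cast this
    exact h2.le
  have key : ∀ y : ℤ × ℤ, nm (y - hdv e0) ≤ K * s → ∀ e ∈ A, nm (hdv e - y) ≤ (K + 1) * s := by
    intro y hy e he
    have h1 := H45.nm_sub_le (hdv e) (hdv e0) y
    rw [H45.nm_sub_comm (hdv e0) y] at h1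
    have h2 := hW e he
    linarith
  by_cases h1 : nm (z - hdv e0) ≤ K * s
  · exact Or.inl (key z h1)
  · by_cases h2 : nm (z' - hdv e0) ≤ K * s
    · exact Or.inr (key z' h2)
    · exact absurd (hG.pot_far hs1 hsm hW hu hz hz' (not_le.1 h1) (not_le.1 h2)) h

theorem Geo.sgm_visit {K m : ℤ} (hG : Geo K m D p) {r : ℤ} (hr1 : 1 ≤ r) (hrm : r ≤ m)
    (hz : z ∈ sites D) (hz' : z' ∈ sites D) (hzz : nm (z - z') ≤ r)
    (hne : sgm D p z z' A ≠ 0) : ∃ e ∈ A, nm (hdv e - z) ≤ K * r := by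
  obtain ⟨u, hu, h⟩ := sgm_pot hne
  by_contra hcon
  push Not at hcon
  exact h (pot_jn hu (fun e he => not_le.2 (hcon e he)) (hG.near z hz z' hz' r hr1 hrm hzz))

/-! ### The terms -/

/-- The term of the piece `A`. -/
noncomputable def trm (D : Finset (ℤ × ℤ)) (p : ℤ × ℤ) (f : ℤ × ℤ → ℝ) (A : Finset Ed)
    (s : Finset (Finset Ed)) : ℝ :=
  wp' D A (mass D p f A) * ∏ B ∈ s.erase A, wp D B (mass D p f B)

theorem XT_sub (D : Finset (ℤ × ℤ)) (p : ℤ × ℤ) (f : ℤ × ℤ → ℝ) (z z' : ℤ × ℤ) (ω : Cfg) :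
    XT D p f z ω - XT D p f z' ω = ∑ A ∈ pcs ω D, sgm D p z z' A * trm D p f A (pcs ω D) := by
  classical
  have h : ∀ y, XT D p f y ω = ∑ A ∈ pcs ω D, (if Sep D A y p then 1 else 0) *
      trm D p f A (pcs ω D) := by
    intro y
    unfold XT
    rw [Finset.sum_filter]
    refine Finset.sum_congr rfl fun A _ => ?_
    unfold trm
    split_ifs
    · rw [one_mul]
    · rw [zero_mul]
  rw [h z, h z', ← Finset.sum_sub_distrib]
  refine Finset.sum_congr rfl fun A _ => ?_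
  unfold sgm
  ring

theorem trm_small (hA : A ∈ pcs ω D) (h : wp D A (mass D p f A) ≠ 0) :
    trm D p f A (pcs ω D) = XD D p f ω * bq D A (mass D p f A) := by
  unfold trm XD bq
  rw [← Finset.mul_prod_erase (pcs ω D) (fun B => wp D B (mass D p f B)) hA]
  field_simp

theorem XD_zero (D : Finset (ℤ × ℤ)) (p : ℤ × ℤ) (ω : Cfg) : XD D p 0 ω = 1 := by
  unfold XD
  refine Finset.prod_eq_one fun A _ => ?_
  rw [mass_zero, wp_zero]

/-! ### Decomposition of the small part -/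

/-- The class of a piece. -/
noncomputable def cls (A : Finset Ed) : ℕ := sInf {j : ℕ | Small (2 ^ (j + 1)) A}

theorem cls_spec (hA : A ∈ pcs ω D) {J : ℕ} (h : Small (2 ^ J) A) :
    cls A < J ∧ Small (2 ^ (cls A + 1)) A ∧ ¬ Small (2 ^ (cls A)) A := by
  have hJ : 1 ≤ J := by
    rcases Nat.eq_zero_or_pos J with h0 | h0
    · subst h0
      rw [pow_zero] at h
      exact absurd h (not_small_one hA le_rfl)
    · exact h0
  have hne : {j : ℕ | Small (2 ^ (j + 1)) A}.Nonempty := ⟨J - 1, by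
    show Small (2 ^ (J - 1 + 1)) A
    rwa [Nat.sub_add_cancel hJ]⟩
  have h1 : Small (2 ^ (cls A + 1)) A := Nat.sInf_mem hne
  have h2 : cls A ≤ J - 1 := Nat.sInf_le (by
    show Small (2 ^ (J - 1 + 1)) A
    rwa [Nat.sub_add_cancel hJ])
  refine ⟨by omega, h1, fun h3 => ?_⟩
  rcases Nat.eq_zero_or_pos (cls A) with h0 | h0
  · rw [h0, pow_zero] at h3
    exact not_small_one hA le_rfl h3
  · have h4 : cls A ≤ cls A - 1 := Nat.sInf_le (by
      show Small (2 ^ (cls A - 1 + 1)) A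
      rwa [Nat.sub_add_cancel h0])
    omega

theorem cls_eq (hA : A ∈ pcs ω D) {J j : ℕ} (h : Small (2 ^ J) A) (h1 : Small (2 ^ (j + 1)) A)
    (h2 : ¬ Small (2 ^ j) A) : cls A = j := by
  obtain ⟨-, h3, h4⟩ := cls_spec hA h
  rcases lt_trichotomy (cls A) j with h5 | h5 | h5
  · exact absurd (H45.Small.mono (pow_le_pow_right₀ (by norm_num) (by omega)) h3) h2
  · exact h5
  · exact absurd (H45.Small.mono (pow_le_pow_right₀ (by norm_num) (by omega)) h1) h4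

/-- Pieces of the scale `j` near `z`. -/
def Q1 (K : ℕ) (z : ℤ × ℤ) (j : ℕ) (A : Finset Ed) : Prop :=
  (∀ e ∈ A, nm (hdv e - z) ≤ ((K : ℤ) + 1) * 2 ^ (j + 1)) ∧ Small (2 ^ (j + 1)) A ∧
    ¬ Small (2 ^ j) A

/-- Pieces of the scale `j` near `z'`, not near `z`. -/
def Q2 (K : ℕ) (z z' : ℤ × ℤ) (j : ℕ) (A : Finset Ed) : Prop :=
  Q1 K z' j A ∧ ¬ Q1 K z j A

theorem qs1 (K : ℕ) (z : ℤ × ℤ) (j : ℕ) : QS K j z (Q1 K z j) := fun _ h => h

theorem qs2 (K : ℕ) (z z' : ℤ × ℤ) (j : ℕ) : QS K j z' (Q2 K z z' j) := fun _ h => h.1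

theorem sum_scale {K : ℕ} {m : ℤ} (hG : Geo K m D p) (hz : z ∈ sites D) (hz' : z' ∈ sites D)
    {J : ℕ} (hJ : (2 : ℤ) ^ J ≤ m) {j : ℕ} (hj : j < J) (ω : Cfg) [DecidablePred (Small (2 ^ J))] :
    ∑ A ∈ ((pcs ω D).filter (Small (2 ^ J))).filter (fun A => cls A = j),
      sgm D p z z' A * bq D A (mass D p f A) =
    NQ D p f (Q1 K z j) (sgm D p z z') ω + NQ D p f (Q2 K z z' j) (sgm D p z z') ω := by
  classical
  set F := ((pcs ω D).filter (Small (2 ^ J))).filter (fun A => cls A = j) with hF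
  have hmem : ∀ A, A ∈ F → A ∈ pcs ω D ∧ Small (2 ^ (j + 1)) A ∧ ¬ Small (2 ^ j) A := by
    intro A hA
    obtain ⟨h1, h2⟩ := Finset.mem_filter.1 hA
    obtain ⟨h3, h4⟩ := Finset.mem_filter.1 h1
    obtain ⟨-, h5, h6⟩ := cls_spec h3 h4
    rw [h2] at h5 h6
    exact ⟨h3, h5, h6⟩
  have hmem' : ∀ A, A ∈ pcs ω D → Small (2 ^ (j + 1)) A → ¬ Small (2 ^ j) A → A ∈ F := by
    intro A h1 h2 h3
    have h4 : Small (2 ^ J) A := H45.Small.mono (pow_le_pow_right₀ (by norm_num) (by omega)) h2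
    exact Finset.mem_filter.2 ⟨Finset.mem_filter.2 ⟨h1, h4⟩, cls_eq h1 h4 h2 h3⟩
  have e1 : F.filter (Q1 K z j) = (pcs ω D).filter (Q1 K z j) := by
    ext A
    constructor
    · intro hA
      obtain ⟨h1, h2⟩ := Finset.mem_filter.1 hA
      exact Finset.mem_filter.2 ⟨(hmem A h1).1, h2⟩
    · intro hA
      obtain ⟨h1, h2⟩ := Finset.mem_filter.1 hA
      exact Finset.mem_filter.2 ⟨hmem' A h1 h2.2.1 h2.2.2, h2⟩
  have e2 : (F.filter (fun A => ¬ Q1 K z j A)).filter (Q2 K z z' j) =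
      (pcs ω D).filter (Q2 K z z' j) := by
    ext A
    constructor
    · intro hA
      obtain ⟨h1, h2⟩ := Finset.mem_filter.1 hA
      exact Finset.mem_filter.2 ⟨(hmem A (Finset.mem_filter.1 h1).1).1, h2⟩
    · intro hA
      obtain ⟨h1, h2⟩ := Finset.mem_filter.1 hA
      exact Finset.mem_filter.2 ⟨Finset.mem_filter.2
        ⟨hmem' A h1 h2.1.2.1 h2.1.2.2, h2.2⟩, h2⟩
  have e3 : ∑ A ∈ (F.filter (fun A => ¬ Q1 K z j A)).filter (fun A => ¬ Q2 K z z' j A),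
      sgm D p z z' A * bq D A (mass D p f A) = 0 := by
    refine Finset.sum_eq_zero fun A hA => ?_
    obtain ⟨h1, h2⟩ := Finset.mem_filter.1 hA
    obtain ⟨h3, h4⟩ := Finset.mem_filter.1 h1
    obtain ⟨h5, h6, h7⟩ := hmem A h3
    by_cases hne : sgm D p z z' A = 0
    · rw [hne, zero_mul]
    · exfalso
      have h8 : (2 : ℤ) ^ (j + 1) ≤ m :=
        (pow_le_pow_right₀ (by norm_num) (by omega)).trans hJ
      rcases hG.sgm_near h5 (one_le_pow₀ (by norm_num) : (1 : ℤ) ≤ 2 ^ (j + 1)) h8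
        (by push_cast; exact h6) hz hz' hne with h9 | h9
      · exact h4 ⟨h9, h6, h7⟩
      · exact h2 ⟨⟨h9, h6, h7⟩, h4⟩
  rw [← Finset.sum_filter_add_sum_filter_not F (Q1 K z j), e1,
    ← Finset.sum_filter_add_sum_filter_not (F.filter (fun A => ¬ Q1 K z j A)) (Q2 K z z' j), e2,
    e3, add_zero]
  unfold NQ
  congr 1

open Classical in
/-- The large part. -/
noncomputable def Rl (D : Finset (ℤ × ℤ)) (p : ℤ × ℤ) (f : ℤ × ℤ → ℝ) (z z' : ℤ × ℤ) (J : ℕ)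
    (ω : Cfg) : ℝ :=
  ∑ A ∈ (pcs ω D).filter (fun A => ¬ Small (2 ^ J) A), sgm D p z z' A * trm D p f A (pcs ω D)

theorem fd_Rl (J : ℕ) : Fd (Rl D p f z z' J) := by
  classical
  exact fd_pcs D fun s => ∑ A ∈ s.filter (fun A => ¬ Small (2 ^ J) A),
    sgm D p z z' A * trm D p f A s

theorem fd_XT : Fd (XT D p f z) := by
  classical
  exact fd_pcs D fun s => ∑ A ∈ s.filter (fun A => Sep D A z p), wp' D A (mass D p f A) *
    ∏ B ∈ s.erase A, wp D B (mass D p f B)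

/-- The difference as a sum over the scales. -/
theorem XT_decomp {K : ℕ} {m T : ℤ} {a c : ℝ} (h : Sc K m T D p f a c) (hc : c ≤ 1 / 72)
    (hz : z ∈ sites D) (hz' : z' ∈ sites D) {J : ℕ}
    (hJ : ∀ j < J, 8 * ((K : ℤ) + 1) * 2 ^ j ≤ T) (hJm : (2 : ℤ) ^ J ≤ m) (ω : Cfg) :
    XT D p f z ω - XT D p f z' ω =
      ∑ j ∈ Finset.range J, (XD D p f ω * NQ D p f (Q1 K z j) (sgm D p z z') ω +
        XD D p f ω * NQ D p f (Q2 K z z' j) (sgm D p z z') ω) + Rl D p f z z' J ω := by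
  classical
  rw [XT_sub, ← Finset.sum_filter_add_sum_filter_not (pcs ω D) (Small (2 ^ J))]
  unfold Rl
  congr 1
  have h1 : ∑ A ∈ (pcs ω D).filter (Small (2 ^ J)), sgm D p z z' A * trm D p f A (pcs ω D) =
      XD D p f ω * ∑ A ∈ (pcs ω D).filter (Small (2 ^ J)),
        sgm D p z z' A * bq D A (mass D p f A) := by
    rw [Finset.mul_sum]
    refine Finset.sum_congr rfl fun A hA => ?_
    obtain ⟨h2, h3⟩ := Finset.mem_filter.1 hA
    obtain ⟨h4, h5, h6⟩ := cls_spec h2 h3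
    have h7 := h.wp_le hc (hJ _ h4) h2 h5
    rw [trm_small h2 (by
      intro h0
      rw [h0] at h7
      norm_num at h7)]
    ring
  have h2 : ∑ A ∈ (pcs ω D).filter (Small (2 ^ J)), sgm D p z z' A * bq D A (mass D p f A) =
      ∑ j ∈ Finset.range J, ∑ A ∈ ((pcs ω D).filter (Small (2 ^ J))).filter (fun A => cls A = j),
        sgm D p z z' A * bq D A (mass D p f A) := by
    rw [Finset.sum_fiberwise_of_maps_to]
    intro A hA
    obtain ⟨h2, h3⟩ := Finset.mem_filter.1 hA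
    exact Finset.mem_range.2 (cls_spec h2 h3).1
  rw [h1, h2, Finset.mul_sum]
  refine Finset.sum_congr rfl fun j hj => ?_
  rw [sum_scale h.geo hz hz' hJm (Finset.mem_range.1 hj), mul_add]

/-! ### The large part -/

/-- Dominated moments of the functional. -/
def Mom (D : Finset (ℤ × ℤ)) (p : ℤ × ℤ) (f : ℤ × ℤ → ℝ) (B : ℝ) : Prop :=
  ∃ M : Cfg → ℝ, Fd M ∧ (∀ ω, |XD D p f ω| ≤ M ω) ∧
    (∀ ω, ∀ A ∈ pcs ω D, |∏ B ∈ (pcs ω D).erase A, wp D B (mass D p f B)| ≤ M ω) ∧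
    ∫ ω, M ω ^ 4 ∂μ ≤ B ^ 4

theorem Mom.xd {B : ℝ} (h : Mom D p f B) : ∫ ω, XD D p f ω ^ 4 ∂μ ≤ B ^ 4 := by
  obtain ⟨M, hM, h1, -, h3⟩ := h
  refine le_trans (integral_mono ((fd_XD D p f).pow 4).int (hM.pow 4).int fun ω => ?_) h3
  show XD D p f ω ^ 4 ≤ M ω ^ 4
  calc XD D p f ω ^ 4 = |XD D p f ω| ^ 4 := by
        rw [show (4 : ℕ) = 2 * 2 by norm_num, pow_mul, pow_mul, sq_abs]
    _ ≤ M ω ^ 4 := pow_le_pow_left₀ (abs_nonneg _) (h1 ω) 4

theorem mom_zero (D : Finset (ℤ × ℤ)) (p : ℤ × ℤ) : Mom D p 0 1 := by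
  refine ⟨fun _ => 1, Fd.const 1, fun ω => ?_, fun ω A hA => ?_, by simp⟩
  · rw [XD_zero]; simp
  · rw [Finset.prod_eq_one fun B _ => by rw [mass_zero, wp_zero]]; simp

/-- The large part is small. -/
theorem Rl_le {K : ℕ} {m : ℤ} (hG : Geo K m D p) (hz : z ∈ sites D) (hz' : z' ∈ sites D) {r : ℤ}
    (hr1 : 1 ≤ r) (hrm : r ≤ m) (hzz : nm (z - z') ≤ r) {J : ℕ} (hJ1 : 1 ≤ J)
    (hJ : K * r < 2 ^ (J - 1)) {B C4 P : ℝ} (hB : 0 ≤ B) (hC4 : 0 ≤ C4) (hP : 0 ≤ P)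
    (hM : Mom D p f B)
    (hcard : ∫ ω, ((Bg D z (K * r) (2 ^ J) ω).card : ℝ) ^ 4 ∂μ ≤ C4 ^ 4)
    (harm : ∫ ω, ind (ArmE z (K * r) (2 ^ (J - 1))) ω ∂μ ≤ P) :
    |∫ ω, Rl D p f z z' J ω ∂μ| ≤ 2 * (C4 * B * Real.sqrt P) := by
  classical
  obtain ⟨M, hMd, hM1, hM2, hM4⟩ := hM
  set N : Cfg → ℝ := fun ω => ((Bg D z (K * r) (2 ^ J) ω).card : ℝ) with hN
  have hNd : Fd N := fd_Bg D z _ _
  set G := ArmE z (K * r) (2 ^ (J - 1)) with hGd
  have hG0 : Fd (ind G) := fd_arm _ _ _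
  have hpt : ∀ ω, |Rl D p f z z' J ω| ≤ 2 * (N ω * M ω * ind G ω) := by
    intro ω
    have hM0 : 0 ≤ M ω := (abs_nonneg _).trans (hM1 ω)
    unfold Rl
    refine (Finset.abs_sum_le_sum_abs _ _).trans ?_
    have hterm : ∀ A ∈ (pcs ω D).filter (fun A => ¬ Small (2 ^ J) A),
        |sgm D p z z' A * trm D p f A (pcs ω D)| ≤
          if A ∈ Bg D z (K * r) (2 ^ J) ω then 2 * (M ω * ind G ω) else 0 := by
      intro A hA
      obtain ⟨h1, h2⟩ := Finset.mem_filter.1 hA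
      by_cases hne : sgm D p z z' A = 0
      · rw [hne, zero_mul, abs_zero]
        split_ifs
        · have := ind_nonneg G ω
          positivity
        · exact le_rfl
      · obtain ⟨e, he, h3⟩ := hG.sgm_visit hr1 hrm hz hz' hzz hne
        have hmem : A ∈ Bg D z (K * r) (2 ^ J) ω := by
          unfold Bg
          exact Finset.mem_filter.2 ⟨h1, ⟨e, he, h3⟩, h2⟩
        obtain ⟨b, hb, h4⟩ := exists_far_head h2 z
        have h5 : (2 : ℤ) ^ (J - 1) ≤ nm (hdv b - z) := by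
          have h6 : ((2 : ℝ) ^ J) / 2 = 2 ^ (J - 1) := by
            obtain ⟨i, rfl⟩ : ∃ i, J = i + 1 := ⟨J - 1, by omega⟩
            rw [Nat.add_sub_cancel, pow_succ]; field_simp
          rw [h6] at h4
          exact_mod_cast h4
        have hω : ω ∈ G := arm_of_piece h1 hJ he hb h3 h5
        rw [if_pos hmem, ind_mem hω, mul_one, abs_mul]
        have h6 := abs_sgm_le D p z z' A
        have h7 : |trm D p f A (pcs ω D)| ≤ 2 * M ω := by
          unfold trm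
          rw [abs_mul]
          exact mul_le_mul (abs_wp'_le D A _) (hM2 ω A h1) (abs_nonneg _) (by norm_num)
        calc |sgm D p z z' A| * |trm D p f A (pcs ω D)| ≤ 1 * (2 * M ω) :=
              mul_le_mul h6 h7 (abs_nonneg _) zero_le_one
          _ = _ := one_mul _
    refine (Finset.sum_le_sum hterm).trans ?_
    rw [← Finset.sum_filter, Finset.sum_const, nsmul_eq_mul]
    have h1 : ((((pcs ω D).filter (fun A => ¬ Small (2 ^ J) A)).filter
        (fun A => A ∈ Bg D z (K * r) (2 ^ J) ω)).card : ℝ) ≤ N ω := by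
      have : ((pcs ω D).filter (fun A => ¬ Small (2 ^ J) A)).filter
        (fun A => A ∈ Bg D z (K * r) (2 ^ J) ω) ⊆ Bg D z (K * r) (2 ^ J) ω :=
        fun A hA => (Finset.mem_filter.1 hA).2
      exact Nat.cast_le.2 (Finset.card_le_card this)
    have h2 : 0 ≤ 2 * (M ω * ind G ω) := by
      have := ind_nonneg G ω
      positivity
    calc _ ≤ N ω * (2 * (M ω * ind G ω)) := mul_le_mul_of_nonneg_right h1 h2
      _ = _ := by ring
  have h2 : ∫ ω, (N ω * M ω) ^ 2 ∂μ ≤ (C4 * B) ^ 2 := by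
    have h3 := cs_le (hNd.pow 2) (hMd.pow 2) (a := C4 ^ 2) (b := B ^ 2) (by positivity)
      (by positivity) (by
        calc ∫ ω, (N ω ^ 2) ^ 2 ∂μ = ∫ ω, N ω ^ 4 ∂μ := by
              refine integral_congr_ae (Filter.Eventually.of_forall fun ω => ?_)
              show (N ω ^ 2) ^ 2 = N ω ^ 4
              ring
          _ ≤ C4 ^ 4 := hcard
          _ = _ := by ring) (by
        calc ∫ ω, (M ω ^ 2) ^ 2 ∂μ = ∫ ω, M ω ^ 4 ∂μ := by
              refine integral_congr_ae (Filter.Eventually.of_forall fun ω => ?_)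
              show (M ω ^ 2) ^ 2 = M ω ^ 4
              ring
          _ ≤ B ^ 4 := hM4
          _ = _ := by ring)
    calc ∫ ω, (N ω * M ω) ^ 2 ∂μ = ∫ ω, N ω ^ 2 * M ω ^ 2 ∂μ := by
          refine integral_congr_ae (Filter.Eventually.of_forall fun ω => ?_)
          show (N ω * M ω) ^ 2 = N ω ^ 2 * M ω ^ 2
          ring
      _ ≤ C4 ^ 2 * B ^ 2 := (le_abs_self _).trans h3
      _ = _ := by ring
  have h3 := cs_le (hNd.mul hMd) hG0 (a := C4 * B) (b := Real.sqrt P) (by positivity)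
    (Real.sqrt_nonneg _) h2 (by
      rw [Real.sq_sqrt hP]
      calc ∫ ω, ind G ω ^ 2 ∂μ = ∫ ω, ind G ω ∂μ := by simp only [ind_sq]
        _ ≤ P := harm)
  calc |∫ ω, Rl D p f z z' J ω ∂μ| ≤ ∫ ω, |Rl D p f z z' J ω| ∂μ := abs_integral_le_integral_abs
    _ ≤ ∫ ω, 2 * (N ω * M ω * ind G ω) ∂μ :=
        integral_mono (fd_Rl J).abs.int (((hNd.mul hMd).mul hG0).int.const_mul 2) hpt
    _ = 2 * ∫ ω, N ω * M ω * ind G ω ∂μ := integral_const_mul _ _
    _ ≤ 2 * (C4 * B * Real.sqrt P) :=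
        mul_le_mul_of_nonneg_left ((le_abs_self _).trans h3) (by norm_num)

end Vale.Agent.P167.H167
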