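import Vale.Agent.P167.H167.Hold

/-!
# P167, block EQUI: the derivative field is uniformly Hoelder continuous (conclusion)

`WD D p f z = E[X_f T_f(z)] - E[X_f] E[T_0(z)]` (product form `H542.XT`).

`equi`: for a finite domain `D` with the geometric hypotheses `Geo K m D p`, a neutral charge `f` with
`|f| ≤ a`, `a K² T² ≤ c`, `2 T ≤ m`, and dominated fourth moments `Mom D p f B`:
`|WD D p f z - WD D p f z'| ≤ C B (|z - z'| / T) ^ γ` for all sites `z`, `z'` of `D` with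
`|z - z'| ≤ δ T`. (Everywhere: in the bulk, on the flat sides, at the corners, at `p` and in the support
of `f`.)
-/

namespace Vale.Agent.P167.H167

open Finset MeasureTheory ProbabilityTheory
open Vale.Agent.P167.BR
open Vale.Agent.P167.H542 (wp' XT)

variable {D : Finset (ℤ × ℤ)} {p z z' : ℤ × ℤ} {f : ℤ × ℤ → ℝ} {ω ω' : Cfg} {A : Finset Ed}

/-- The derivative field, minus the unweighted one. -/
noncomputable def WD (D : Finset (ℤ × ℤ)) (p : ℤ × ℤ) (f : ℤ × ℤ → ℝ) (z : ℤ × ℤ) : ℝ :=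
  ∫ ω, XT D p f z ω ∂μ - VD D p f * ∫ ω, XT D p 0 z ω ∂μ

theorem exists_J {y : ℝ} (hy : 1 ≤ y) : ∃ J : ℕ, 1 ≤ J ∧ y < 2 ^ J ∧ (2 : ℝ) ^ J ≤ 2 * y := by
  classical
  have hex : ∃ J : ℕ, y < 2 ^ J := pow_unbounded_of_one_lt y (by norm_num)
  set J := Nat.find hex with hJ
  have h1 : y < 2 ^ J := Nat.find_spec hex
  have h2 : 1 ≤ J := by
    rcases Nat.eq_zero_or_pos J with h | h
    · rw [h, pow_zero] at h1
      linarith
    · exact h
  refine ⟨J, h2, h1, ?_⟩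
  have h3 : (2 : ℝ) ^ (J - 1) ≤ y := not_lt.1 (Nat.find_min hex (show J - 1 < J by omega))
  obtain ⟨i, hi⟩ : ∃ i, J = i + 1 := ⟨J - 1, by omega⟩
  rw [hi] at h3 ⊢
  rw [Nat.add_sub_cancel] at h3
  rw [pow_succ]
  linarith

theorem geom_rpow {β T : ℝ} (hβ : 0 < β) (hT : 0 < T) (J : ℕ) :
    ∑ j ∈ Finset.range J, ((2 : ℝ) ^ j / T) ^ β ≤ 1 / ((2 : ℝ) ^ β - 1) * ((2 : ℝ) ^ J / T) ^ β := by
  have h1 : (1 : ℝ) < 2 ^ β := Real.one_lt_rpow (by norm_num) hβ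
  have e : ∀ j : ℕ, ((2 : ℝ) ^ j / T) ^ β = ((2 : ℝ) ^ β) ^ j / T ^ β := by
    intro j
    rw [Real.div_rpow (by positivity) hT.le]
    congr 1
    rw [← Real.rpow_natCast, ← Real.rpow_natCast, ← Real.rpow_mul (by norm_num),
      ← Real.rpow_mul (by norm_num)]
    congr 1
    ring
  simp only [e]
  rw [← Finset.sum_div, geom_sum_eq (by linarith)]
  have hTb : 0 < T ^ β := Real.rpow_pos_of_pos hT β
  have h2 : (0 : ℝ) < 2 ^ β - 1 := by linarith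
  rw [div_div, one_div, inv_mul_eq_div, div_div, mul_comm ((2 : ℝ) ^ β - 1)]
  exact div_le_div_of_nonneg_right (by linarith) (by positivity)

/-- The difference of the field as a sum over the scales. -/
theorem WD_sub {K : ℕ} {m T : ℤ} {a c : ℝ} (h : Sc K m T D p f a c) (hc : c ≤ 1 / 72)
    (hz : z ∈ sites D) (hz' : z' ∈ sites D) {J : ℕ}
    (hJ : ∀ j < J, 8 * ((K : ℤ) + 1) * 2 ^ j ≤ T) (hJm : (2 : ℤ) ^ J ≤ m) :
    WD D p f z - WD D p f z' =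
      ∑ j ∈ Finset.range J,
        ((∫ ω, XD D p f ω * NQ D p f (Q1 K z j) (sgm D p z z') ω ∂μ -
          (∫ ω, XD D p f ω ∂μ) * ∫ ω, NQ D p 0 (Q1 K z j) (sgm D p z z') ω ∂μ) +
        (∫ ω, XD D p f ω * NQ D p f (Q2 K z z' j) (sgm D p z z') ω ∂μ -
          (∫ ω, XD D p f ω ∂μ) * ∫ ω, NQ D p 0 (Q2 K z z' j) (sgm D p z z') ω ∂μ)) +
      (∫ ω, Rl D p f z z' J ω ∂μ - (∫ ω, XD D p f ω ∂μ) * ∫ ω, Rl D p 0 z z' J ω ∂μ) := by
  have h0 : Sc K m T D p 0 0 c := ⟨h.geo, h.hTm, fun z => by simp, by unfold tot; simp, by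
    have h1 := h.ha
    have h2 : 0 ≤ a * K ^ 2 * T ^ 2 := by positivity
    linarith [h.hc]⟩
  have key : ∀ (g : ℤ × ℤ → ℝ) (b : ℝ), Sc K m T D p g b c →
      ∫ ω, XT D p g z ω ∂μ - ∫ ω, XT D p g z' ω ∂μ =
      ∑ j ∈ Finset.range J,
        (∫ ω, XD D p g ω * NQ D p g (Q1 K z j) (sgm D p z z') ω ∂μ +
        ∫ ω, XD D p g ω * NQ D p g (Q2 K z z' j) (sgm D p z z') ω ∂μ) +
      ∫ ω, Rl D p g z z' J ω ∂μ := by
    intro g b hg
    have i1 : ∀ j, Integrable (fun ω => XD D p g ω * NQ D p g (Q1 K z j) (sgm D p z z') ω) μ :=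
      fun j => ((fd_XD D p g).mul (fd_NQ _ _)).int
    have i2 : ∀ j, Integrable (fun ω => XD D p g ω * NQ D p g (Q2 K z z' j) (sgm D p z z') ω) μ :=
      fun j => ((fd_XD D p g).mul (fd_NQ _ _)).int
    rw [← integral_sub fd_XT.int fd_XT.int]
    have e1 : ∫ ω, (XT D p g z ω - XT D p g z' ω) ∂μ = ∫ ω, (∑ j ∈ Finset.range J,
        (XD D p g ω * NQ D p g (Q1 K z j) (sgm D p z z') ω +
        XD D p g ω * NQ D p g (Q2 K z z' j) (sgm D p z z') ω) + Rl D p g z z' J ω) ∂μ :=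
      integral_congr_ae (Filter.Eventually.of_forall fun ω => XT_decomp hg hc hz hz' hJ hJm ω)
    have i3 : ∀ j, Integrable (fun ω => XD D p g ω * NQ D p g (Q1 K z j) (sgm D p z z') ω +
        XD D p g ω * NQ D p g (Q2 K z z' j) (sgm D p z z') ω) μ := fun j => (i1 j).add (i2 j)
    have i4 : Integrable (fun ω => ∑ j ∈ Finset.range J,
        (XD D p g ω * NQ D p g (Q1 K z j) (sgm D p z z') ω +
        XD D p g ω * NQ D p g (Q2 K z z' j) (sgm D p z z') ω)) μ :=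
      integrable_finsetSum _ fun j _ => i3 j
    rw [e1, integral_add i4 (fd_Rl J).int, integral_finsetSum _ fun j _ => i3 j]
    congr 1
    exact Finset.sum_congr rfl fun j _ => integral_add (i1 j) (i2 j)
  have k1 := key f a h
  have k2 := key 0 0 h0
  have e0 : ∀ j : ℕ, ∫ ω, XD D p 0 ω * NQ D p 0 (Q1 K z j) (sgm D p z z') ω ∂μ =
      ∫ ω, NQ D p 0 (Q1 K z j) (sgm D p z z') ω ∂μ := fun j => by simp only [XD_zero, one_mul]
  have e0' : ∀ j : ℕ, ∫ ω, XD D p 0 ω * NQ D p 0 (Q2 K z z' j) (sgm D p z z') ω ∂μ =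
      ∫ ω, NQ D p 0 (Q2 K z z' j) (sgm D p z z') ω ∂μ := fun j => by simp only [XD_zero, one_mul]
  simp only [e0, e0'] at k2
  unfold WD VD
  have e2 : (∫ ω, XT D p f z ω ∂μ - (∫ ω, XD D p f ω ∂μ) * ∫ ω, XT D p 0 z ω ∂μ) -
      (∫ ω, XT D p f z' ω ∂μ - (∫ ω, XD D p f ω ∂μ) * ∫ ω, XT D p 0 z' ω ∂μ) =
      (∫ ω, XT D p f z ω ∂μ - ∫ ω, XT D p f z' ω ∂μ) - (∫ ω, XD D p f ω ∂μ) *
        (∫ ω, XT D p 0 z ω ∂μ - ∫ ω, XT D p 0 z' ω ∂μ) := by ring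
  rw [e2, k1, k2, mul_add, Finset.mul_sum]
  rw [show ∀ a b c d : ℝ, a + b - (c + d) = (a - c) + (b - d) by intros; ring,
    ← Finset.sum_sub_distrib]
  congr 1
  refine Finset.sum_congr rfl fun j _ => ?_
  ring

/-- Final computation. -/
theorem final_bound {q β α γ C Cb C4 Ca k B S L1 : ℝ} (hq : 0 < q) (hq1 : q ≤ 1)
    (hβ1 : β ≤ 1) (hα1 : α ≤ 1) (hγ1 : γ ≤ β / 2) (hγ2 : γ ≤ α / 4) (hC : 0 ≤ C)
    (hCb : 0 ≤ Cb) (hC4 : 0 ≤ C4) (hCa : 0 ≤ Ca) (hk : 1 ≤ k) (hB : 0 ≤ B)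
    (hS : S ≤ 2 * (C * B) * (Cb * (2 * Real.sqrt q) ^ β))
    (hL : L1 ≤ 4 * (C4 * B * Real.sqrt (Ca * (2 * k * Real.sqrt q) ^ α))) :
    S + L1 ≤ (4 * C * Cb + 8 * C4 * Real.sqrt Ca * k) * B * q ^ γ := by
  have hsq : 0 ≤ Real.sqrt q := Real.sqrt_nonneg q
  have h1 : (2 * Real.sqrt q) ^ β ≤ 2 * q ^ γ := by
    rw [Real.mul_rpow (by norm_num) hsq]
    have e1 : (2 : ℝ) ^ β ≤ 2 := by
      calc (2 : ℝ) ^ β ≤ 2 ^ (1 : ℝ) := Real.rpow_le_rpow_of_exponent_le (by norm_num) hβ1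
        _ = 2 := Real.rpow_one 2
    have e2 : Real.sqrt q ^ β ≤ q ^ γ := by
      rw [Real.sqrt_eq_rpow, ← Real.rpow_mul hq.le]
      exact Real.rpow_le_rpow_of_exponent_ge hq hq1 (by linarith)
    exact mul_le_mul e1 e2 (Real.rpow_nonneg hsq _) (by norm_num)
  have h2 : Real.sqrt (Ca * (2 * k * Real.sqrt q) ^ α) ≤ Real.sqrt Ca * (2 * k * q ^ γ) := by
    rw [Real.sqrt_mul hCa]
    refine mul_le_mul_of_nonneg_left ?_ (Real.sqrt_nonneg _)
    have hk2 : 0 ≤ 2 * k := by linarith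
    rw [Real.sqrt_eq_rpow, ← Real.rpow_mul (by positivity), Real.mul_rpow hk2 hsq]
    have e1 : (2 * k) ^ (α * (1 / 2)) ≤ 2 * k := by
      calc (2 * k) ^ (α * (1 / 2)) ≤ (2 * k) ^ (1 : ℝ) :=
            Real.rpow_le_rpow_of_exponent_le (by linarith) (by linarith)
        _ = 2 * k := Real.rpow_one _
    have e2 : Real.sqrt q ^ (α * (1 / 2)) ≤ q ^ γ := by
      rw [Real.sqrt_eq_rpow, ← Real.rpow_mul hq.le]
      exact Real.rpow_le_rpow_of_exponent_ge hq hq1 (by linarith)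
    exact mul_le_mul e1 e2 (Real.rpow_nonneg hsq _) hk2
  have hg : 0 ≤ q ^ γ := Real.rpow_nonneg hq.le _
  calc S + L1 ≤ 2 * (C * B) * (Cb * (2 * q ^ γ)) +
        4 * (C4 * B * (Real.sqrt Ca * (2 * k * q ^ γ))) := by
        refine add_le_add (hS.trans ?_) (hL.trans ?_)
        · exact mul_le_mul_of_nonneg_left (mul_le_mul_of_nonneg_left h1 hCb) (by positivity)
        · exact mul_le_mul_of_nonneg_left (mul_le_mul_of_nonneg_left h2 (by positivity))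
            (by norm_num)
    _ = _ := by ring

/-- The choice of the number of scales. -/
theorem choose_J {K : ℕ} {r T : ℤ} (hr : 1 ≤ r)
    (hrT : (r : ℝ) ≤ 1 / (64 * ((K : ℝ) + 1) ^ 2) * T) : ∃ J : ℕ, 1 ≤ J ∧
    (∀ j < J, 8 * ((K : ℤ) + 1) * 2 ^ j ≤ T) ∧ (2 : ℤ) ^ J ≤ T ∧ (K : ℤ) * r < 2 ^ (J - 1) ∧
    (2 : ℝ) ^ J / T ≤ 2 * Real.sqrt ((r : ℝ) / T) ∧
    (((K : ℤ) * r : ℤ) : ℝ) / ((2 ^ (J - 1) : ℤ) : ℝ) ≤ 2 * K * Real.sqrt ((r : ℝ) / T) := by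
  have hrR : (1 : ℝ) ≤ r := by exact_mod_cast hr
  have hK0 : (0 : ℝ) ≤ K := Nat.cast_nonneg _
  have hKp : (0 : ℝ) < 64 * ((K : ℝ) + 1) ^ 2 := by positivity
  have hT : 64 * ((K : ℝ) + 1) ^ 2 * r ≤ T := by
    have h1 : (r : ℝ) ≤ T / (64 * ((K : ℝ) + 1) ^ 2) := by
      calc (r : ℝ) ≤ 1 / (64 * ((K : ℝ) + 1) ^ 2) * T := hrT
        _ = _ := by ring
    rw [le_div_iff₀ hKp] at h1
    linarith
  have hK1 : (1 : ℝ) ≤ ((K : ℝ) + 1) ^ 2 := by nlinarith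
  have hT64 : (64 : ℝ) ≤ T := by nlinarith
  have hT0 : (0 : ℝ) < T := by linarith
  set y : ℝ := Real.sqrt (r * T) with hy
  have hy2 : y ^ 2 = r * T := Real.sq_sqrt (by positivity)
  have hy0 : 0 ≤ y := Real.sqrt_nonneg _
  have hy1 : 1 ≤ y := by
    have h1 : (1 : ℝ) ^ 2 ≤ y ^ 2 := by
      rw [hy2]; nlinarith
    exact (pow_le_pow_iff_left₀ (by norm_num) hy0 (by norm_num)).1 h1
  have hyT : 8 * ((K : ℝ) + 1) * y ≤ (T : ℝ) := by
    have h1 : (8 * ((K : ℝ) + 1) * y) ^ 2 ≤ (T : ℝ) ^ 2 := by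
      calc (8 * ((K : ℝ) + 1) * y) ^ 2 = (64 * ((K : ℝ) + 1) ^ 2 * r) * (T : ℝ) := by
            rw [mul_pow, mul_pow, hy2]; ring
        _ ≤ (T : ℝ) * (T : ℝ) := mul_le_mul_of_nonneg_right hT hT0.le
        _ = _ := by ring
    exact (pow_le_pow_iff_left₀ (by positivity) hT0.le (by norm_num)).1 h1
  have hyK : 2 * ((K : ℝ) * r) ≤ y := by
    have h1 : (4 * (K : ℝ) ^ 2) * r ≤ T := by
      have h2 : (4 * (K : ℝ) ^ 2) ≤ 64 * ((K : ℝ) + 1) ^ 2 := by nlinarith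
      calc (4 * (K : ℝ) ^ 2) * r ≤ (64 * ((K : ℝ) + 1) ^ 2) * r :=
            mul_le_mul_of_nonneg_right h2 (by linarith)
        _ ≤ T := hT
    have h3 : (2 * ((K : ℝ) * r)) ^ 2 ≤ y ^ 2 := by
      rw [hy2]
      calc (2 * ((K : ℝ) * (r : ℝ))) ^ 2 = (r : ℝ) * ((4 * (K : ℝ) ^ 2) * (r : ℝ)) := by ring
        _ ≤ (r : ℝ) * (T : ℝ) := mul_le_mul_of_nonneg_left h1 (by linarith)
    exact (pow_le_pow_iff_left₀ (by positivity) hy0 (by norm_num)).1 h3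
  obtain ⟨J, hJ1, hJ2, hJ3⟩ := exists_J hy1
  obtain ⟨i, rfl⟩ : ∃ i, J = i + 1 := ⟨J - 1, by omega⟩
  have hi : (2 : ℝ) ^ (i + 1) = 2 * 2 ^ i := by rw [pow_succ]; ring
  have hi1 : (2 : ℝ) ^ i ≤ y := by linarith
  have hi2 : y / 2 < (2 : ℝ) ^ i := by linarith
  have hsq : Real.sqrt ((r : ℝ) / T) = y / T := by
    have h1 : (r : ℝ) / T = (y / T) ^ 2 := by
      rw [div_pow, hy2]; field_simp
    rw [h1, Real.sqrt_sq (by positivity)]
  refine ⟨i + 1, hJ1, fun j hj => ?_, ?_, ?_, ?_, ?_⟩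
  · have h1 : (8 * ((K : ℝ) + 1)) * 2 ^ j ≤ T := by
      have h2 : (2 : ℝ) ^ j ≤ 2 ^ i := pow_le_pow_right₀ (by norm_num) (by omega)
      calc (8 * ((K : ℝ) + 1)) * 2 ^ j ≤ (8 * ((K : ℝ) + 1)) * y :=
            mul_le_mul_of_nonneg_left (h2.trans hi1) (by positivity)
        _ ≤ T := hyT
    exact_mod_cast h1
  · have h1 : (2 : ℝ) ^ (i + 1) ≤ T := by nlinarith
    exact_mod_cast h1
  · rw [Nat.add_sub_cancel]
    have h1 : (K : ℝ) * r < 2 ^ i := by linarith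
    exact_mod_cast h1
  · rw [hsq, ← mul_div_assoc]
    exact div_le_div_of_nonneg_right hJ3 hT0.le
  · rw [Nat.add_sub_cancel, hsq]
    push_cast
    have hy0' : 0 < y := by linarith
    rw [div_le_iff₀ (by positivity)]
    have h1 : (r : ℝ) = y * (y / T) := by
      rw [← mul_div_assoc, ← pow_two, hy2]; field_simp
    have h2 : 0 ≤ y / T := by positivity
    calc (K : ℝ) * r = (K * (y / T)) * y := by rw [h1]; ring
      _ ≤ (K * (y / T)) * (2 * 2 ^ i) := by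
          refine mul_le_mul_of_nonneg_left (by linarith) (by positivity)
      _ = _ := by ring

/-- **Uniform Hoelder continuity of the derivative field.** -/
theorem equi (K : ℕ) : ∃ c δ C γ : ℝ, 0 < c ∧ 0 < δ ∧ 0 < C ∧ 0 < γ ∧
    ∀ (m T : ℤ) (D : Finset (ℤ × ℤ)) (p : ℤ × ℤ), Geo K m D p → 2 * T ≤ m →
    ∀ (f : ℤ × ℤ → ℝ) (a : ℝ), (∀ z, |f z| ≤ a) → tot D f = 0 → a * K ^ 2 * T ^ 2 ≤ c →
    ∀ B : ℝ, 0 ≤ B → Mom D p f B → ∀ z ∈ sites D, ∀ z' ∈ sites D,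
    (nm (z - z') : ℝ) ≤ δ * T →
    |WD D p f z - WD D p f z'| ≤ C * B * ((nm (z - z') : ℝ) / T) ^ γ := by
  obtain ⟨c0, C, β, hc0, hC, hβ, hβ1, hps⟩ := per_scale K
  obtain ⟨Ca, α, hCa, hα, hα1, harm⟩ := armE_le
  obtain ⟨C4, hC4, hcard⟩ := card_four 1
  have h2β : (0 : ℝ) < 2 ^ β - 1 := by
    have := Real.one_lt_rpow (by norm_num : (1 : ℝ) < 2) hβ
    linarith
  refine ⟨min c0 (1 / 72), 1 / (64 * ((K : ℝ) + 1) ^ 2),
    4 * C * (1 / (2 ^ β - 1)) + 8 * C4 * Real.sqrt Ca * ((K : ℝ) + 1) , min (β / 2) (α / 4),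
    by positivity, by positivity, by positivity, by positivity,
    fun m T D p hG hTm f a hf htot hc B hB hM z hz z' hz' hzz => ?_⟩
  have h : Sc K m T D p f a (min c0 (1 / 72)) := ⟨hG, hTm, hf, htot, hc⟩
  have hc72 : min c0 (1 / 72) ≤ 1 / 72 := min_le_right _ _
  set r : ℤ := nm (z - z') with hr
  by_cases hr0 : r ≤ 0
  · -- `z = z'`
    have h1 : z = z' := by
      have h2 : nm (z - z') ≤ 0 := hr0
      rw [H45.nm_le] at h2
      obtain ⟨h3, h4⟩ := h2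
      have h5 := abs_nonpos_iff.1 h3
      have h6 := abs_nonpos_iff.1 h4
      rw [Prod.fst_sub, sub_eq_zero] at h5
      rw [Prod.snd_sub, sub_eq_zero] at h6
      exact Prod.ext h5 h6
    have hr00 : r = 0 := by rw [hr, h1, sub_self]; rfl
    rw [h1, sub_self, abs_zero, hr00]
    have : (0 : ℝ) ≤ (((0 : ℤ) : ℝ) / T) ^ (min (β / 2) (α / 4)) := by
      rw [Int.cast_zero, zero_div]
      exact Real.rpow_nonneg le_rfl _
    positivity
  · push Not at hr0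
    have hr1 : 1 ≤ r := hr0
    obtain ⟨J, hJ1, hJ2, hJ3, hJ4, hJ5, hJ6⟩ := choose_J hr1 hzz
    have hrR : (1 : ℝ) ≤ r := by exact_mod_cast hr1
    have hK1 : (1 : ℝ) ≤ K := by exact_mod_cast hG.one_le
    have hTR : (0 : ℝ) < T := by
      have h1 : (0 : ℤ) < T := lt_of_lt_of_le (by positivity) hJ3
      exact_mod_cast h1
    have hδ1 : 1 / (64 * ((K : ℝ) + 1) ^ 2) ≤ 1 := by
      rw [div_le_one (by positivity)]; nlinarith
    have hrT : (r : ℝ) ≤ T := by nlinarith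
    have hrT' : r ≤ T := by exact_mod_cast hrT
    have hq : 0 < (r : ℝ) / T := by positivity
    have hq1 : (r : ℝ) / T ≤ 1 := by rw [div_le_one hTR]; exact hrT
    have hV := (abs_VD_le hB (fd_XD D p f) hM.xd).2
    -- the sum over the scales
    have hsum : |∑ j ∈ Finset.range J,
        ((∫ ω, XD D p f ω * NQ D p f (Q1 K z j) (sgm D p z z') ω ∂μ -
          (∫ ω, XD D p f ω ∂μ) * ∫ ω, NQ D p 0 (Q1 K z j) (sgm D p z z') ω ∂μ) +
        (∫ ω, XD D p f ω * NQ D p f (Q2 K z z' j) (sgm D p z z') ω ∂μ -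
          (∫ ω, XD D p f ω ∂μ) * ∫ ω, NQ D p 0 (Q2 K z z' j) (sgm D p z z') ω ∂μ))| ≤
        2 * (C * B) * (1 / (2 ^ β - 1) * (2 * Real.sqrt ((r : ℝ) / T)) ^ β) := by
      refine (Finset.abs_sum_le_sum_abs _ _).trans ?_
      calc _ ≤ ∑ j ∈ Finset.range J, 2 * (C * B) * ((2 : ℝ) ^ j / T) ^ β := by
            refine Finset.sum_le_sum fun j hj => ?_
            have hj' := hJ2 j (Finset.mem_range.1 hj)
            have b1 := hps m T D p f a (h.mono (min_le_left _ _)) B hB hM.xd j z hj' _ _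
              (qs1 K z j) (abs_sgm_le D p z z')
            have b2 := hps m T D p f a (h.mono (min_le_left _ _)) B hB hM.xd j z' hj' _ _
              (qs2 K z z' j) (abs_sgm_le D p z z')
            refine (abs_add_le _ _).trans ?_
            linarith
        _ = 2 * (C * B) * ∑ j ∈ Finset.range J, ((2 : ℝ) ^ j / T) ^ β := by rw [Finset.mul_sum]
        _ ≤ 2 * (C * B) * (1 / (2 ^ β - 1) * ((2 : ℝ) ^ J / T) ^ β) :=
            mul_le_mul_of_nonneg_left (geom_rpow hβ hTR J) (by positivity)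
        _ ≤ _ := by
            refine mul_le_mul_of_nonneg_left (mul_le_mul_of_nonneg_left ?_ (by positivity))
              (by positivity)
            exact Real.rpow_le_rpow (by positivity) hJ5 hβ.le
    -- the large part
    have hKr1 : 1 ≤ (K : ℤ) * r := by
      have : (1 : ℤ) ≤ K := hG.one_le
      nlinarith
    have hcd := (hcard D z ((K : ℤ) * r) (2 ^ J) (one_le_pow₀ (by norm_num)) (by linarith) (by
      have h1 : ((K : ℤ) * r : ℤ) ≤ 2 ^ J :=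
        hJ4.le.trans (pow_le_pow_right₀ (by norm_num) (Nat.sub_le J 1))
      have h2 : (((K : ℤ) * r : ℤ) : ℝ) ≤ 2 ^ J := by exact_mod_cast h1
      rw [Nat.cast_one, one_mul]
      exact h2)).1
    have h2J : (1 : ℤ) ≤ 2 ^ (J - 1) := one_le_pow₀ (by norm_num)
    have hP0 : 0 ≤ Ca * (2 * K * Real.sqrt ((r : ℝ) / T)) ^ α := by positivity
    have hKr0 : (0 : ℝ) ≤ (((K : ℤ) * r : ℤ) : ℝ) / ((2 ^ (J - 1) : ℤ) : ℝ) := by
      have h1 : (0 : ℝ) ≤ (((K : ℤ) * r : ℤ) : ℝ) := by exact_mod_cast (by linarith : (0 : ℤ) ≤ K * r)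
      have h2 : (0 : ℝ) ≤ ((2 ^ (J - 1) : ℤ) : ℝ) := by exact_mod_cast (by linarith : (0 : ℤ) ≤ 2 ^ (J - 1))
      positivity
    have harm' : ∫ ω, ind (ArmE z ((K : ℤ) * r) (2 ^ (J - 1))) ω ∂μ ≤
        Ca * (2 * K * Real.sqrt ((r : ℝ) / T)) ^ α := by
      refine (harm z _ _ hKr1 h2J).trans ?_
      exact mul_le_mul_of_nonneg_left (Real.rpow_le_rpow hKr0 hJ6 hα.le) hCa.le
    have hrm : r ≤ m := by linarith
    have l1 := Rl_le hG hz hz' hr1 hrm le_rfl hJ1 hJ4 hB (by linarith : (0 : ℝ) ≤ C4) hP0 hM hcd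
      harm'
    have l2 := Rl_le hG hz hz' hr1 hrm le_rfl hJ1 hJ4 zero_le_one (by linarith : (0 : ℝ) ≤ C4) hP0
      (mom_zero D p) hcd harm'
    have hL : |∫ ω, Rl D p f z z' J ω ∂μ - (∫ ω, XD D p f ω ∂μ) * ∫ ω, Rl D p 0 z z' J ω ∂μ| ≤
        4 * (C4 * B * Real.sqrt (Ca * (2 * ((K : ℝ) + 1) * Real.sqrt ((r : ℝ) / T)) ^ α)) := by
      have hs : Real.sqrt (Ca * (2 * K * Real.sqrt ((r : ℝ) / T)) ^ α) ≤
          Real.sqrt (Ca * (2 * ((K : ℝ) + 1) * Real.sqrt ((r : ℝ) / T)) ^ α) := by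
        refine Real.sqrt_le_sqrt (mul_le_mul_of_nonneg_left ?_ hCa.le)
        refine Real.rpow_le_rpow (by positivity) ?_ hα.le
        refine mul_le_mul_of_nonneg_right (by linarith) (Real.sqrt_nonneg _)
      have l3 : |(∫ ω, XD D p f ω ∂μ) * ∫ ω, Rl D p 0 z z' J ω ∂μ| ≤
          B * (2 * (C4 * 1 * Real.sqrt (Ca * (2 * K * Real.sqrt ((r : ℝ) / T)) ^ α))) := by
        rw [abs_mul]
        exact mul_le_mul hV l2 (abs_nonneg _) hB
      have l4 : C4 * B * Real.sqrt (Ca * (2 * K * Real.sqrt ((r : ℝ) / T)) ^ α) ≤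
          C4 * B * Real.sqrt (Ca * (2 * ((K : ℝ) + 1) * Real.sqrt ((r : ℝ) / T)) ^ α) :=
        mul_le_mul_of_nonneg_left hs (by positivity)
      calc _ ≤ |∫ ω, Rl D p f z z' J ω ∂μ| + |(∫ ω, XD D p f ω ∂μ) * ∫ ω, Rl D p 0 z z' J ω ∂μ| :=
            abs_sub _ _
        _ ≤ _ := by linarith
    rw [WD_sub h hc72 hz hz' hJ2 (by linarith)]
    refine (abs_add_le _ _).trans ?_
    exact final_bound hq hq1 hβ1 hα1 (min_le_left _ _) (min_le_right _ _) hC.le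
      (by positivity) (by linarith) hCa.le (by linarith) hB hsum hL

end Vale.Agent.P167.H167
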