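import Vale.Agent.P167.H167.Equi
import Vale.Agent.P167.H436.Geo
import Vale.Agent.P167.CA.Cell

/-!
# P167, block EQUI: the input `I_EQ` of the core

`i_eq`: uniform Hoelder continuity of the fields `S.W n f` on all sites of the discrete polygons, from
the dominated moments `Mom`.
-/

namespace Vale.Agent.P167.H167

open Finset MeasureTheory
open Vale.Agent.P167.BR
open Vale.Agent.P167.BVP (Test)
open Vale.Agent.P167.H542 (wp' XT)
open Vale.Agent.P167.H436 (InC Adj mem_sites_enl cells_conn geo_dat)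

/-! ### Chains -/

/-- The coordinate moved by at most `R` from `x` towards `y`. -/
def clp (R x y : ℤ) : ℤ := if y - x ≤ R then (if -R ≤ y - x then y else x - R) else x + R

theorem chain_cell {Q : Finset (ℤ × ℤ)} {n : ℕ} (hn : 0 < n) {R : ℤ} (hR : 1 ≤ R) {w : ℤ × ℤ → ℝ}
    {M : ℝ} (hw : ∀ z ∈ sites (CA.enl Q n), ∀ z' ∈ sites (CA.enl Q n), nm (z - z') ≤ R →
      |w z - w z'| ≤ M) {v : ℤ × ℤ} (hv : v ∈ Q) (k : ℕ) : ∀ z z' : ℤ × ℤ, InC n v z → InC n v z' →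
      nm (z - z') ≤ k * R → |w z - w z'| ≤ k * M := by
  induction k with
  | zero =>
    intro z z' _ _ h
    have h1 : z = z' := by
      rw [Nat.cast_zero, zero_mul, H45.nm_le] at h
      have h5 := abs_nonpos_iff.1 h.1
      have h6 := abs_nonpos_iff.1 h.2
      rw [Prod.fst_sub, sub_eq_zero] at h5
      rw [Prod.snd_sub, sub_eq_zero] at h6
      exact Prod.ext h5 h6
    rw [h1]; simp
  | succ k ih =>
    intro z z' hz hz' h
    rw [H45.nm_le, abs_le, abs_le] at h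
    obtain ⟨⟨h1, h2⟩, h3, h4⟩ := h
    simp only [Prod.fst_sub, Prod.snd_sub, Nat.cast_add, Nat.cast_one] at h1 h2 h3 h4
    have hkR : (0 : ℤ) ≤ k * R := by positivity
    have e : ((k : ℤ) + 1) * R = k * R + R := by ring
    rw [e] at h1 h2 h3 h4
    set y : ℤ × ℤ := (clp R z.1 z'.1, clp R z.2 z'.2) with hy
    have hyC : InC n v y := by
      obtain ⟨a1, a2, a3, a4⟩ := hz
      obtain ⟨b1, b2, b3, b4⟩ := hz'
      simp only [InC, hy, clp]
      refine ⟨?_, ?_, ?_, ?_⟩ <;> split_ifs <;> omega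
    have hzy : nm (z - y) ≤ R := by
      rw [H45.nm_le, abs_le, abs_le]
      simp only [hy, clp, Prod.fst_sub, Prod.snd_sub]
      refine ⟨⟨?_, ?_⟩, ?_, ?_⟩ <;> split_ifs <;> omega
    have hyz : nm (y - z') ≤ k * R := by
      rw [H45.nm_le, abs_le, abs_le]
      simp only [hy, clp, Prod.fst_sub, Prod.snd_sub]
      refine ⟨⟨?_, ?_⟩, ?_, ?_⟩ <;> split_ifs <;> omega
    have k1 := hw z ((mem_sites_enl hn).2 ⟨v, hv, hz⟩) y ((mem_sites_enl hn).2 ⟨v, hv, hyC⟩) hzy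
    have k2 := ih y z' hyC hz' hyz
    calc |w z - w z'| ≤ |w z - w y| + |w y - w z'| := abs_sub_le _ _ _
      _ ≤ M + k * M := add_le_add k1 k2
      _ = _ := by push_cast; ring

/-- Adjacent cells have a common site. -/
theorem adj_site {Q : Finset (ℤ × ℤ)} {n : ℕ} {v v' : ℤ × ℤ} (h : Adj Q v v') :
    ∃ x, InC n v x ∧ InC n v' x := by
  have hn : (0 : ℤ) ≤ n := Int.natCast_nonneg n
  obtain ⟨-, -, h⟩ := h
  rcases h with h | h | h | h
  · refine ⟨(n * v.1 + n, n * v.2), ?_, ?_⟩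
    · simp only [InC]; omega
    · rw [h]; simp only [InC, Prod.fst_add, Prod.snd_add, mul_add, mul_one]; omega
  · refine ⟨(n * v'.1 + n, n * v'.2), ?_, ?_⟩
    · rw [h]; simp only [InC, Prod.fst_add, Prod.snd_add, mul_add, mul_one]; omega
    · simp only [InC]; omega
  · refine ⟨(n * v.1, n * v.2 + n), ?_, ?_⟩
    · simp only [InC]; omega
    · rw [h]; simp only [InC, Prod.fst_add, Prod.snd_add, mul_add, mul_one]; omega
  · refine ⟨(n * v'.1, n * v'.2 + n), ?_, ?_⟩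
    · rw [h]; simp only [InC, Prod.fst_add, Prod.snd_add, mul_add, mul_one]; omega
    · simp only [InC]; omega

theorem chain_cells {Q : Finset (ℤ × ℤ)} {v v' : ℤ × ℤ} (hv : v ∈ Q)
    (h : Relation.ReflTransGen (Adj Q) v v') : ∃ j : ℕ, ∀ (n : ℕ) (w : ℤ × ℤ → ℝ) (M : ℝ),
      (∀ u ∈ Q, ∀ z z' : ℤ × ℤ, InC n u z → InC n u z' → |w z - w z'| ≤ M) →
      ∀ z z' : ℤ × ℤ, InC n v z → InC n v' z' → |w z - w z'| ≤ j * M := by
  induction h with
  | refl =>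
    refine ⟨1, fun n w M hw z z' hz hz' => ?_⟩
    rw [Nat.cast_one, one_mul]
    exact hw v hv z z' hz hz'
  | tail h1 h2 ih =>
    rename_i a b
    obtain ⟨j, hj⟩ := ih
    refine ⟨j + 1, fun n w M hw z z' hz hz' => ?_⟩
    obtain ⟨x, hx1, hx2⟩ := adj_site (n := n) h2
    have k1 := hj n w M hw z x hz hx1
    have k2 := hw b h2.2.1 x z' hx2 hz'
    calc |w z - w z'| ≤ |w z - w x| + |w x - w z'| := abs_sub_le _ _ _
      _ ≤ j * M + M := add_le_add k1 k2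
      _ = _ := by push_cast; ring

/-- Local bounds give global bounds. -/
theorem chain_dat (S : CA.Dat) : ∃ J : ℕ, ∀ (n : ℕ) (R : ℤ) (k : ℕ) (w : ℤ × ℤ → ℝ) (M : ℝ),
    0 < n → 1 ≤ R → (n : ℤ) ≤ k * R → 0 ≤ M →
    (∀ z ∈ sites (S.D n), ∀ z' ∈ sites (S.D n), nm (z - z') ≤ R → |w z - w z'| ≤ M) →
    ∀ z ∈ sites (S.D n), ∀ z' ∈ sites (S.D n), |w z - w z'| ≤ J * (k * M) := by
  classical
  have h1 : ∀ a : (ℤ × ℤ) × (ℤ × ℤ), a ∈ S.Q ×ˢ S.Q → ∃ j : ℕ, ∀ (n : ℕ) (w : ℤ × ℤ → ℝ) (M : ℝ),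
      (∀ u ∈ S.Q, ∀ z z' : ℤ × ℤ, InC n u z → InC n u z' → |w z - w z'| ≤ M) →
      ∀ z z' : ℤ × ℤ, InC n a.1 z → InC n a.2 z' → |w z - w z'| ≤ j * M := fun a ha =>
    chain_cells (Finset.mem_product.1 ha).1
      (cells_conn S.poly S.enc (Finset.mem_product.1 ha).1 (Finset.mem_product.1 ha).2)
  choose! j hj using h1
  refine ⟨∑ a ∈ S.Q ×ˢ S.Q, j a, fun n R k w M hn hR hk hM hw z hz z' hz' => ?_⟩
  obtain ⟨v, hv, hvz⟩ := (mem_sites_enl hn).1 hz
  obtain ⟨v', hv', hvz'⟩ := (mem_sites_enl hn).1 hz'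
  have ha : (v, v') ∈ S.Q ×ˢ S.Q := Finset.mem_product.2 ⟨hv, hv'⟩
  have h2 : ∀ u ∈ S.Q, ∀ z z' : ℤ × ℤ, InC n u z → InC n u z' → |w z - w z'| ≤ k * M := by
    intro u hu z z' hz hz'
    refine chain_cell hn hR hw hu k z z' hz hz' ?_
    refine le_trans ?_ hk
    obtain ⟨a1, a2, a3, a4⟩ := hz
    obtain ⟨b1, b2, b3, b4⟩ := hz'
    rw [H45.nm_le, abs_le, abs_le]
    simp only [Prod.fst_sub, Prod.snd_sub]
    omega
  refine (hj _ ha n w _ h2 z z' hvz hvz').trans ?_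
  refine mul_le_mul_of_nonneg_right ?_ (by positivity)
  have : j (v, v') ≤ ∑ a ∈ S.Q ×ˢ S.Q, j a := Finset.single_le_sum (f := j) (fun _ _ => Nat.zero_le _) ha
  exact_mod_cast this

/-! ### Charges of the cells -/

theorem volume_cl {n : ℕ} (hn : 0 < n) (s : ℤ × ℤ) :
    volume (CA.cl n s) = ENNReal.ofReal (1 / (n : ℝ) ^ 2) := by
  have hn' : (0 : ℝ) < n := by exact_mod_cast hn
  have e : CA.cl n s = Complex.measurableEquivRealProd ⁻¹'
      (Set.Ico ((s.1 - 1 : ℤ) / (n : ℝ)) ((s.1 : ℤ) / (n : ℝ)) ×ˢ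
        Set.Ico ((s.2 - 1 : ℤ) / (n : ℝ)) ((s.2 : ℤ) / (n : ℝ))) := by
    ext z
    simp only [CA.cl, Set.mem_ofPred_eq, Set.mem_preimage, Set.mem_prod, Set.mem_Ico,
      Complex.measurableEquivRealProd_apply, Int.floor_eq_iff, div_div_eq_mul_div, div_one]
    rw [div_le_iff₀ hn', lt_div_iff₀ hn', div_le_iff₀ hn', lt_div_iff₀ hn']
    push_cast
    simp only [sub_add_cancel]
  rw [e, Complex.volume_preserving_equiv_real_prod.measure_preimage
    (measurableSet_Ico.prod measurableSet_Ico).nullMeasurableSet, Measure.volume_eq_prod,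
    Measure.prod_prod, Real.volume_Ico, Real.volume_Ico, ← ENNReal.ofReal_mul]
  · congr 1
    push_cast
    field_simp
    ring
  · rw [← sub_div]
    push_cast
    rw [sub_sub_cancel]
    positivity

theorem cms_le {f : ℂ → ℝ} {C : ℝ} (hf : ∀ z, |f z| ≤ C) {n : ℕ} (hn : 0 < n)
    (s : ℤ × ℤ) : |CA.cms f (1 / n) s| ≤ C / n ^ 2 := by
  have hn' : (0 : ℝ) < n := by exact_mod_cast hn
  rw [CA.cms_eq, ← Real.norm_eq_abs]
  have h1 : volume (CA.cl n s) < ⊤ := by rw [volume_cl hn]; exact ENNReal.ofReal_lt_top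
  refine (norm_setIntegral_le_of_norm_le_const (f := f) h1 fun z _ => hf z).trans ?_
  rw [Measure.real, volume_cl hn, ENNReal.toReal_ofReal (by positivity)]
  rw [mul_one_div]

theorem tot_dat (S : CA.Dat) {f : ℂ → ℝ} (hf : S.FF f) {n : ℕ} (hn : 0 < n) :
    tot (S.D n) (CA.cms f (1 / n)) = 0 := by
  have h := CA.sum_cms (Q := S.Q) hn (CA.Test.integrable hf.1) (fun x hx => CA.Test.mem hf.1 hx)
    (fun _ => 1)
  simp only [mul_one] at h
  unfold tot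
  rw [show S.D n = CA.enl S.Q n from rfl, h, hf.2]

theorem W_eq_WD (S : CA.Dat) (f : ℂ → ℝ) (n : ℕ) (z : ℤ × ℤ) :
    S.W n f z = WD (S.D n) (S.b n) (CA.cms f (1 / n)) z := by
  have h : CA.cms (fun _ => 0) (1 / n) = 0 := by
    funext s; exact CA.cms_zero _ s
  unfold CA.Dat.W CA.Dat.H CA.Dat.V WD
  rw [h]

/-! ### The conclusion -/

theorem nm_le_norm (z z' : ℤ × ℤ) : (nm (z - z') : ℝ) ≤ ‖E6.pt z - E6.pt z'‖ := by
  have h1 := Complex.abs_re_le_norm (E6.pt z - E6.pt z')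
  have h2 := Complex.abs_im_le_norm (E6.pt z - E6.pt z')
  have e1 : (E6.pt z - E6.pt z').re = ((z.1 - z'.1 : ℤ) : ℝ) := by simp [E6.pt]
  have e2 : (E6.pt z - E6.pt z').im = ((z.2 - z'.2 : ℤ) : ℝ) := by simp [E6.pt]
  rw [e1] at h1
  rw [e2] at h2
  unfold nm
  rw [Int.cast_max, Int.cast_abs, Int.cast_abs]
  exact max_le h1 h2

/-- The Hoelder bound from the local and the global bound. -/
theorem hold_glob {x N T ν δ ε γ A M w : ℝ} (hν : 0 ≤ ν) (hx : ν ≤ x) (hN : 0 < N) (hε : 0 < ε)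
    (hδ : 0 < δ) (hγ : 0 < γ) (hT : ε * N / 2 ≤ T) (hA : 0 ≤ A) (hM : 0 ≤ M)
    (h1 : ν ≤ δ * T → w ≤ A * (ν / T) ^ γ) (h2 : w ≤ M) :
    w ≤ (A * (2 / ε) ^ γ + M * (2 / (δ * ε)) ^ γ) * (x / N) ^ γ := by
  have hT0 : 0 < T := lt_of_lt_of_le (by positivity) hT
  have hx0 : 0 ≤ x := hν.trans hx
  have p1 : 0 ≤ A * (2 / ε) ^ γ * (x / N) ^ γ := by positivity
  have p2 : 0 ≤ M * (2 / (δ * ε)) ^ γ * (x / N) ^ γ := by positivity
  rw [add_mul]
  by_cases hc : ν ≤ δ * T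
  · have h3 : (ν / T) ^ γ ≤ (2 / ε) ^ γ * (x / N) ^ γ := by
      rw [← Real.mul_rpow (by positivity) (by positivity)]
      refine Real.rpow_le_rpow (by positivity) ?_ hγ.le
      rw [div_le_iff₀ hT0]
      calc ν ≤ x := hx
        _ = 2 / ε * (x / N) * (ε * N / 2) := by field_simp
        _ ≤ _ := mul_le_mul_of_nonneg_left hT (by positivity)
    calc w ≤ A * (ν / T) ^ γ := h1 hc
      _ ≤ A * ((2 / ε) ^ γ * (x / N) ^ γ) := mul_le_mul_of_nonneg_left h3 hA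
      _ ≤ _ := by linarith
  · push Not at hc
    have h3 : 1 ≤ (2 / (δ * ε)) ^ γ * (x / N) ^ γ := by
      rw [← Real.mul_rpow (by positivity) (by positivity)]
      refine Real.one_le_rpow ?_ hγ.le
      have h4 : δ * (ε * N / 2) ≤ x := by
        have := mul_le_mul_of_nonneg_left hT hδ.le
        linarith
      calc (1 : ℝ) = 2 / (δ * ε) * ((δ * (ε * N / 2)) / N) := by field_simp
        _ ≤ _ := mul_le_mul_of_nonneg_left (div_le_div_of_nonneg_right h4 hN.le) (by positivity)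
    calc w ≤ M * 1 := by linarith
      _ ≤ M * ((2 / (δ * ε)) ^ γ * (x / N) ^ γ) := mul_le_mul_of_nonneg_left h3 hM
      _ ≤ _ := by linarith

theorem exists_sup {f : ℂ → ℝ} {U : Set ℂ} (hf : Test U f) : ∃ C : ℝ, 0 < C ∧ ∀ z, |f z| ≤ C := by
  obtain ⟨C, hC⟩ := hf.1.continuous.bounded_above_of_compact_support hf.2.1
  exact ⟨max C 1, by positivity, fun z => (hC z).trans (le_max_left _ _)⟩

theorem mom_abs {D : Finset (ℤ × ℤ)} {p : ℤ × ℤ} {f : ℤ × ℤ → ℝ} {B : ℝ} (h : Mom D p f B) :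
    Mom D p f |B| := by
  unfold Mom at h ⊢
  have e : |B| ^ 4 = B ^ 4 := by
    rw [show (4 : ℕ) = 2 * 2 from rfl, pow_mul, pow_mul, sq_abs]
  rw [e]
  exact h

/-- **The input `I_EQ` of the core**, from the dominated moments. -/
theorem i_eq (hM : ∀ (S : CA.Dat) (f : ℂ → ℝ), S.FF f → ∃ B : ℝ, ∀ᶠ n : ℕ in Filter.atTop,
    Mom (S.D n) (S.b n) (CA.cms f (1 / n)) B) : CA.I_EQ := by
  obtain ⟨c, δ, C, γ, hc, hδ, hC, hγ, heq⟩ := equi 2
  intro S f hf
  obtain ⟨Cf, hCf, hf1⟩ := exists_sup hf.1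
  obtain ⟨B0, hB0⟩ := hM S f hf
  obtain ⟨J, hJ⟩ := chain_dat S
  set B : ℝ := |B0| with hB
  have hBp : 0 ≤ B := abs_nonneg _
  set ε : ℝ := min (1 / 64) (c / (4 * Cf)) with hε
  have hε0 : 0 < ε := by positivity
  have hε1 : ε ≤ 1 / 64 := min_le_left _ _
  have hε2 : 4 * Cf * ε ≤ c := by
    have h1 : ε ≤ c / (4 * Cf) := min_le_right _ _
    rw [le_div_iff₀ (by positivity)] at h1
    linarith
  set k : ℕ := ⌈4 / (δ * ε)⌉₊ with hk
  have hk1 : 4 / (δ * ε) ≤ k := Nat.le_ceil _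
  set M0 : ℝ := C * B * δ ^ γ with hM0
  have hM0p : 0 ≤ M0 := by positivity
  refine ⟨C * B * (2 / ε) ^ γ + J * (k * M0) * (2 / (δ * ε)) ^ γ, γ, hγ, ?_⟩
  have hN1 : ∀ᶠ n : ℕ in Filter.atTop, 2 / ε ≤ n :=
    Filter.eventually_atTop.2 ⟨⌈2 / ε⌉₊, fun n hn => (Nat.le_ceil _).trans (by exact_mod_cast hn)⟩
  have hN2 : ∀ᶠ n : ℕ in Filter.atTop, 4 / (δ * ε) ≤ n :=
    Filter.eventually_atTop.2 ⟨⌈4 / (δ * ε)⌉₊, fun n hn =>
      (Nat.le_ceil _).trans (by exact_mod_cast hn)⟩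
  filter_upwards [hB0, hN1, hN2, Filter.eventually_ge_atTop 16] with n hMn hn1 hn2 hn3 z hz z' hz'
  have hn0 : 0 < n := by omega
  have hnR : (0 : ℝ) < n := by exact_mod_cast hn0
  set T : ℤ := ⌊ε * n⌋ with hT
  have hT1 : (T : ℝ) ≤ ε * n := Int.floor_le _
  have hT2 : ε * n / 2 ≤ T := by
    have h1 : ε * n - 1 < T := Int.sub_one_lt_floor _
    have h2 : 2 ≤ ε * n := by
      rw [div_le_iff₀ hε0] at hn1; linarith
    linarith
  have hT0 : (0 : ℝ) < T := lt_of_lt_of_le (by positivity) hT2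
  have hTm : 64 * T ≤ n := by
    have h1 : 64 * (T : ℝ) ≤ n := by nlinarith
    exact_mod_cast h1
  have hT0' : 0 < T := by exact_mod_cast hT0
  have hG := geo_dat S (n := n) (m := (n : ℤ) / 16) (by omega) (by omega)
  have ha : Cf / (n : ℝ) ^ 2 * ((2 : ℕ) : ℝ) ^ 2 * (T : ℝ) ^ 2 ≤ c := by
    have h1 : (T : ℝ) ^ 2 ≤ (ε * n) ^ 2 := pow_le_pow_left₀ hT0.le hT1 2
    calc Cf / (n : ℝ) ^ 2 * ((2 : ℕ) : ℝ) ^ 2 * (T : ℝ) ^ 2 ≤
        Cf / (n : ℝ) ^ 2 * ((2 : ℕ) : ℝ) ^ 2 * (ε * n) ^ 2 :=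
          mul_le_mul_of_nonneg_left h1 (by positivity)
      _ = 4 * Cf * ε * ε := by push_cast; field_simp; ring
      _ ≤ 4 * Cf * ε * 1 := mul_le_mul_of_nonneg_left (by linarith) (by positivity)
      _ ≤ c := by linarith
  have hloc : ∀ z ∈ sites (S.D n), ∀ z' ∈ sites (S.D n), (nm (z - z') : ℝ) ≤ δ * T →
      |S.W n f z - S.W n f z'| ≤ C * B * ((nm (z - z') : ℝ) / T) ^ γ := by
    intro z hz z' hz' hzz
    rw [W_eq_WD, W_eq_WD]
    exact heq _ T _ _ hG (by omega) _ _ (cms_le hf1 hn0) (tot_dat S hf hn0) ha B hBp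
      (mom_abs hMn) z hz z' hz' hzz
  have hδT : 2 ≤ δ * T := by
    rw [div_le_iff₀ (by positivity)] at hn2
    have := mul_le_mul_of_nonneg_left hT2 hδ.le
    linarith
  set R : ℤ := ⌊δ * T⌋ with hR
  have hR1 : (R : ℝ) ≤ δ * T := Int.floor_le _
  have hR2 : δ * T / 2 ≤ R := by
    have h1 : δ * T - 1 < R := Int.sub_one_lt_floor _
    linarith
  have hR3 : 1 ≤ R := by
    have h1 : (1 : ℝ) ≤ R := by linarith
    exact_mod_cast h1
  have hkR : (n : ℤ) ≤ k * R := by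
    have h1 : δ * ε * n / 4 ≤ R := by
      have := mul_le_mul_of_nonneg_left hT2 hδ.le
      linarith
    have h2 : (n : ℝ) ≤ k * R := by
      calc (n : ℝ) = 4 / (δ * ε) * (δ * ε * n / 4) := by field_simp
        _ ≤ k * R := mul_le_mul hk1 h1 (by positivity) (Nat.cast_nonneg _)
    exact_mod_cast h2
  have hglob := hJ n R k (fun z => S.W n f z) M0 hn0 hR3 hkR hM0p (fun z hz z' hz' hzz => by
    have h1 : (nm (z - z') : ℝ) ≤ δ * T := by
      have : (nm (z - z') : ℝ) ≤ R := by exact_mod_cast hzz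
      linarith
    refine (hloc z hz z' hz' h1).trans ?_
    refine mul_le_mul_of_nonneg_left (Real.rpow_le_rpow ?_ ?_ hγ.le) (by positivity)
    · have : (0 : ℝ) ≤ nm (z - z') := by exact_mod_cast H45.nm_nonneg _
      positivity
    · rw [div_le_iff₀ hT0]; exact h1) z hz z' hz'
  exact hold_glob (by exact_mod_cast H45.nm_nonneg _) (nm_le_norm z z') hnR hε0 hδ hγ hT2
    (by positivity) (by positivity) (hloc z hz z' hz') hglob

end Vale.Agent.P167.H167
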