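import Vale.Agent.P167.H167.Maj
import Vale.Agent.P167.H167.IEQ

/-!
# P167, block EQUI: moments and majorants for the polygons of the core; `I_EQ`
-/

namespace Vale.Agent.P167.H167

open Finset MeasureTheory
open Vale.Agent.P167.BR
open Vale.Agent.P167.BVP (Test)
open Vale.Agent.P167.H542 (wp' XT)
open Vale.Agent.P167.H436 (geo_dat mem_sites_enl)
open Vale.Agent.P167.H638.L (Deep)

/-- A charged site has a point of the support in its cell. -/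
theorem exists_of_cms {f : ℂ → ℝ} {n : ℕ} {z : ℤ × ℤ} (h : CA.cms f (1 / n) z ≠ 0) :
    ∃ x, f x ≠ 0 ∧ CA.cs n x = z := by
  by_contra hcon
  push Not at hcon
  apply h
  rw [CA.cms_eq]
  have h1 : ∀ x ∈ CA.cl n z, f x = 0 := fun x hx => by
    by_contra h0
    exact hcon x h0 (CA.mem_cl.1 hx)
  rw [setIntegral_congr_fun (g := fun _ => 0) (CA.measurableSet_cl n z) h1, integral_zero]

theorem abs_cs {n : ℕ} {x : ℂ} {z : ℤ × ℤ} (h : CA.cs n x = z) :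
    |x.re * n - z.1| ≤ 1 ∧ |x.im * n - z.2| ≤ 1 := by
  subst h
  unfold CA.cs
  constructor
  · have h1 := Int.floor_le (x.re * n)
    have h2 := Int.lt_floor_add_one (x.re * n)
    push_cast
    rw [abs_le]
    constructor <;> linarith
  · have h1 := Int.floor_le (x.im * n)
    have h2 := Int.lt_floor_add_one (x.im * n)
    push_cast
    rw [abs_le]
    constructor <;> linarith

/-- The centre of a square at mesh `1 / n`. -/
noncomputable def ctr (n : ℕ) (v : ℤ × ℤ) : ℂ := ⟨(v.1 + 1 / 2) / n, (v.2 + 1 / 2) / n⟩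

theorem mem_of_ctr {Q : Finset (ℤ × ℤ)} {n : ℕ} (hn : 0 < n) {v : ℤ × ℤ}
    (h : ctr n v ∈ interior (E6.region 1 Q)) : v ∈ CA.enl Q n := by
  have hn' : (0 : ℝ) < n := by exact_mod_cast hn
  have hQ : (⌊(ctr n v).re⌋, ⌊(ctr n v).im⌋) ∈ Q :=
    CA.mem_of_interior h (Int.floor_le _) (Int.lt_floor_add_one _).le (Int.floor_le _)
      (Int.lt_floor_add_one _).le
  have key : ∀ (a k : ℤ), (k : ℝ) ≤ ((a : ℝ) + 1 / 2) / n → ((a : ℝ) + 1 / 2) / n < (k : ℝ) + 1 →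
      n * k ≤ a ∧ a < n * (k + 1) := by
    intro a k h1 h2
    rw [le_div_iff₀ hn'] at h1
    rw [div_lt_iff₀ hn'] at h2
    constructor
    · have h3 : ((k * n : ℤ) : ℝ) < ((a + 1 : ℤ) : ℝ) := by push_cast; linarith
      have h4 : k * n < a + 1 := by exact_mod_cast h3
      rw [mul_comm]
      omega
    · have h3 : ((a : ℤ) : ℝ) < (((k + 1) * n : ℤ) : ℝ) := by push_cast; linarith
      have h4 : a < (k + 1) * n := by exact_mod_cast h3
      rw [mul_comm]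
      exact h4
  obtain ⟨h1, h2⟩ := key v.1 _ (Int.floor_le _) (Int.lt_floor_add_one _)
  obtain ⟨h3, h4⟩ := key v.2 _ (Int.floor_le _) (Int.lt_floor_add_one _)
  exact CA.mem_enl hn hQ h1 h2 h3 h4

/-- The charges are deep in the domains. -/
theorem deep_dat (S : CA.Dat) {f : ℂ → ℝ} (hf : Test S.P f) : ∃ r : ℝ, 0 < r ∧
    ∀ᶠ n : ℕ in Filter.atTop, Deep (r * n) (S.D n) (CA.cms f (1 / n)) := by
  obtain ⟨δ, hδ, hsub⟩ := hf.2.1.isCompact.exists_thickening_subset_open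
    (show IsOpen S.P from isOpen_interior) hf.2.2
  refine ⟨δ / 4, by positivity, ?_⟩
  have hN : ∀ᶠ n : ℕ in Filter.atTop, 12 / δ ≤ n :=
    Filter.eventually_atTop.2 ⟨⌈12 / δ⌉₊, fun n hn => (Nat.le_ceil _).trans (by exact_mod_cast hn)⟩
  filter_upwards [hN, Filter.eventually_ge_atTop 1] with n hn1 hn2 z hz v hv
  have hn' : (0 : ℝ) < n := by exact_mod_cast hn2
  obtain ⟨x, hx, hxz⟩ := exists_of_cms hz
  obtain ⟨h1, h2⟩ := abs_cs hxz
  rw [div_le_iff₀ hδ] at hn1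
  refine mem_of_ctr hn2 (hsub (Metric.mem_thickening_iff.2 ⟨x, subset_tsupport _ hx, ?_⟩))
  rw [dist_eq_norm]
  have hv1 : |(v.1 : ℝ) - z.1| ≤ δ / 4 * n := by
    refine le_trans ?_ hv
    have : |v.1 - z.1| ≤ nm (v - z) := le_max_left _ _
    have h3 : ((|v.1 - z.1| : ℤ) : ℝ) ≤ nm (v - z) := by exact_mod_cast this
    rw [Int.cast_abs, Int.cast_sub] at h3
    exact h3
  have hv2 : |(v.2 : ℝ) - z.2| ≤ δ / 4 * n := by
    refine le_trans ?_ hv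
    have : |v.2 - z.2| ≤ nm (v - z) := le_max_right _ _
    have h3 : ((|v.2 - z.2| : ℤ) : ℝ) ≤ nm (v - z) := by exact_mod_cast this
    rw [Int.cast_abs, Int.cast_sub] at h3
    exact h3
  have key : ∀ a b c : ℝ, |a - c| ≤ δ / 4 * n → |b * n - c| ≤ 1 →
      |(a + 1 / 2) / n - b| ≤ 3 * δ / 8 := by
    intro a b c h3 h4
    have e : (a + 1 / 2) / n - b = (a + 1 / 2 - b * n) / n := by field_simp
    rw [e, abs_div, abs_of_pos hn', div_le_iff₀ hn']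
    have h5 : |a + 1 / 2 - b * n| ≤ δ / 4 * n + 3 / 2 := by
      rw [abs_le] at h3 h4 ⊢
      constructor <;> linarith
    linarith
  have k1 := key v.1 x.re z.1 hv1 h1
  have k2 := key v.2 x.im z.2 hv2 h2
  calc ‖ctr n v - x‖ ≤ |(ctr n v - x).re| + |(ctr n v - x).im| :=
        Complex.norm_le_abs_re_add_abs_im _
    _ ≤ 3 * δ / 8 + 3 * δ / 8 := add_le_add k1 k2
    _ < δ := by linarith

/-- The domains are bounded. -/
theorem bdd_dat (S : CA.Dat) : ∃ R : ℝ, 1 ≤ R ∧ ∀ n : ℕ, ∀ v ∈ S.D n, (nm v : ℝ) ≤ R * n := by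
  refine ⟨1 + ∑ v ∈ S.Q, (nm v : ℝ), ?_, fun n w hw => ?_⟩
  · have : 0 ≤ ∑ v ∈ S.Q, (nm v : ℝ) :=
      Finset.sum_nonneg fun v _ => by exact_mod_cast H45.nm_nonneg v
    linarith
  · obtain ⟨v, hv, h1, h2, h3, h4⟩ := H436.mem_enl.1 hw
    have hn : (0 : ℝ) ≤ n := Nat.cast_nonneg n
    have h5 : (nm v : ℝ) ≤ ∑ v ∈ S.Q, (nm v : ℝ) :=
      Finset.single_le_sum (f := fun v => (nm v : ℝ))
        (fun v _ => by exact_mod_cast H45.nm_nonneg v) hv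
    have h6 : nm w ≤ (1 + nm v) * n := by
      have hn0 : (0 : ℤ) ≤ n := Int.natCast_nonneg n
      have a1 : |v.1| ≤ nm v := le_max_left _ _
      have a2 : |v.2| ≤ nm v := le_max_right _ _
      rw [abs_le] at a1 a2
      rw [H45.nm_le, abs_le, abs_le]
      refine ⟨⟨?_, ?_⟩, ?_, ?_⟩ <;> nlinarith
    have h7 : (nm w : ℝ) ≤ (1 + nm v) * n := by exact_mod_cast h6
    refine h7.trans (mul_le_mul_of_nonneg_right (by linarith) hn)

/-- **The majorant for the polygons of the core.** -/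
theorem maj_dat (S : CA.Dat) {f : ℂ → ℝ} (hf : S.FF f) : ∃ ε C : ℝ, 0 < ε ∧ 0 < C ∧
    ∀ᶠ n : ℕ in Filter.atTop, ∀ u : ℤ × ℤ,
    (∃ v, (nm (v - u) : ℝ) ≤ ε * n ∧ v ∉ S.D n) →
    ∃ Y : Cfg → ℝ, Fd Y ∧ (∀ ω ω', (∀ v, ε * n < (nm (v - u) : ℝ) → ω v = ω' v) → Y ω = Y ω') ∧
      (∀ ω, |XD (S.D n) (S.b n) (CA.cms f (1 / n)) ω| ≤ Y ω) ∧
      (∀ ω, ∀ A ∈ pcs ω (S.D n), 2 * |∏ B ∈ (pcs ω (S.D n)).erase A,
        wp (S.D n) B (mass (S.D n) (S.b n) (CA.cms f (1 / n)) B)| ≤ Y ω) ∧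
      ∫ ω, Y ω ^ 4 ∂μ ≤ C := by
  obtain ⟨Cf, hCf, hf1⟩ := exists_sup hf.1
  obtain ⟨r, hr, hdeep⟩ := deep_dat S hf.1
  obtain ⟨R, hR, hbdd⟩ := bdd_dat S
  obtain ⟨κ0, hκ0, hmaj⟩ := maj_off 2 (by norm_num) R Cf hR hCf
  set κ : ℝ := min κ0 (min (1 / 32) (r / 2)) with hκ
  have hκp : 0 < κ := by positivity
  have hκ1 : κ ≤ 1 / 32 := (min_le_right _ _).trans (min_le_left _ _)
  have hκ2 : κ ≤ r / 2 := (min_le_right _ _).trans (min_le_right _ _)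
  obtain ⟨ε, C, n0, hε, hεr, hC, hn0, hY⟩ := hmaj κ hκp (min_le_left _ _) (r / 4) (by positivity)
  refine ⟨ε, C, hε, hC, ?_⟩
  have hN1 : ∀ᶠ n : ℕ in Filter.atTop, n0 ≤ n :=
    Filter.eventually_atTop.2 ⟨⌈n0⌉₊, fun n hn => (Nat.le_ceil _).trans (by exact_mod_cast hn)⟩
  filter_upwards [hdeep, hN1, Filter.eventually_ge_atTop 32] with n hd hn1 hn2 u hu
  obtain ⟨v, hv1, hv2⟩ := hu
  have hn' : (0 : ℝ) < n := by exact_mod_cast (by omega : 0 < n)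
  have hG := geo_dat S (n := n) (m := (n : ℤ) / 16) (by omega) (by omega)
  have hnm : κ * n ≤ (((n : ℤ) / 16 : ℤ) : ℝ) := by
    have h1 : ((n : ℤ) : ℝ) ≤ 32 * (((n : ℤ) / 16 : ℤ) : ℝ) := by
      have : (n : ℤ) ≤ 32 * ((n : ℤ) / 16) := by omega
      exact_mod_cast this
    push_cast at h1
    have h2 : κ * n ≤ 1 / 32 * n := mul_le_mul_of_nonneg_right hκ1 hn'.le
    linarith
  have hd' : Deep (((2 : ℕ) : ℝ) * (κ * n)) (S.D n) (CA.cms f (1 / n)) := by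
    intro z hz v hv
    refine hd z hz v (hv.trans ?_)
    push_cast
    nlinarith
  refine hY n hn1 _ _ _ _ hG hnm (hbdd n) (cms_le hf1 (by omega)) (tot_dat S hf (by omega)) hd' u
    fun z hz => ?_
  -- the distance
  have h1 : r * n < (nm (v - z) : ℝ) := by
    by_contra hcon
    push Not at hcon
    exact hv2 (hd z hz v hcon)
  have h2 : nm (v - z) ≤ nm (v - u) + nm (u - z) := H45.nm_sub_le v u z
  have h3 : (nm (v - z) : ℝ) ≤ nm (v - u) + nm (u - z) := by exact_mod_cast h2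
  rw [H45.nm_sub_comm u z] at h3
  nlinarith

/-- **Dominated fourth moments.** -/
theorem mom_dat (S : CA.Dat) {f : ℂ → ℝ} (hf : S.FF f) : ∃ B : ℝ, ∀ᶠ n : ℕ in Filter.atTop,
    Mom (S.D n) (S.b n) (CA.cms f (1 / n)) B := by
  obtain ⟨ε, C, hε, hC, h⟩ := maj_dat S hf
  obtain ⟨R, hR, hbdd⟩ := bdd_dat S
  have hC4 : (Real.sqrt (Real.sqrt C)) ^ 4 = C := by
    rw [show (4 : ℕ) = 2 * 2 from rfl, pow_mul, Real.sq_sqrt (Real.sqrt_nonneg _),
      Real.sq_sqrt hC.le]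
  refine ⟨Real.sqrt (Real.sqrt C), ?_⟩
  filter_upwards [h, Filter.eventually_ge_atTop 1] with n hn hn1
  have hn' : (0 : ℝ) < n := by exact_mod_cast hn1
  obtain ⟨Y, hY1, -, hY2, hY3, hY4⟩ := hn (⌈R * n⌉ + 1, 0) ⟨(⌈R * n⌉ + 1, 0), by
    rw [sub_self]
    have : (nm (0 : ℤ × ℤ) : ℝ) = 0 := by simp [nm]
    rw [this]; positivity, fun hcon => by
      have h1 := hbdd n _ hcon
      have h2 : (⌈R * n⌉ + 1 : ℤ) ≤ nm ((⌈R * n⌉ + 1, 0) : ℤ × ℤ) := (le_abs_self _).trans (le_max_left _ _)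
      have h3 : ((⌈R * n⌉ + 1 : ℤ) : ℝ) ≤ nm ((⌈R * n⌉ + 1, 0) : ℤ × ℤ) := by exact_mod_cast h2
      push_cast at h3
      have h4 := Int.le_ceil (R * n)
      linarith⟩
  refine ⟨Y, hY1, hY2, fun ω A hA => ?_, by rw [hC4]; exact hY4⟩
  have h1 := hY3 ω A hA
  have h2 := abs_nonneg (∏ B ∈ (pcs ω (S.D n)).erase A,
    wp (S.D n) B (mass (S.D n) (S.b n) (CA.cms f (1 / n)) B))
  linarith

/-- **The input `I_EQ` of the core.** -/
theorem i_EQ : CA.I_EQ := i_eq fun S _ hf => mom_dat S hf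

end Vale.Agent.P167.H167
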