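import Vale.Agent.P167.H45.Small3

/-!
# P167, block EQUI: functions of finitely many squares, an abstract covariance bound

`cov_le`: if `Z` depends on the squares off `S` and `N` on the squares of `S`, then
`|E[X N] - E[X] E[N]| ≤ 2 ‖X - Z‖₂ ‖N‖₂` for every `X`.
-/

namespace Vale.Agent.P167.H167

open Finset MeasureTheory ProbabilityTheory
open Vale.Agent.P167.H562 (LocFun LocSet indepFun_of_local)

/-- `X` depends on finitely many squares. -/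
def Fd {β : Type*} (X : Cfg → β) : Prop := ∃ F : Finset (ℤ × ℤ), LocFun (F : Set (ℤ × ℤ)) X

variable {β γ δ : Type*}

theorem Fd.of_loc {X : Cfg → β} {F : Finset (ℤ × ℤ)} (h : LocFun (F : Set (ℤ × ℤ)) X) : Fd X :=
  ⟨F, h⟩

theorem Fd.const (c : β) : Fd (fun _ : Cfg => c) := ⟨∅, fun _ _ _ => rfl⟩

theorem Fd.comp {X : Cfg → β} (h : Fd X) (g : β → γ) : Fd (fun ω => g (X ω)) := by
  obtain ⟨F, hF⟩ := h
  exact ⟨F, fun ω ω' hw => by simp only [hF ω ω' hw]⟩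

theorem Fd.comp₂ {X : Cfg → β} {Y : Cfg → γ} (h : Fd X) (h' : Fd Y) (g : β → γ → δ) :
    Fd (fun ω => g (X ω) (Y ω)) := by
  classical
  obtain ⟨F, hF⟩ := h
  obtain ⟨F', hF'⟩ := h'
  refine ⟨F ∪ F', fun ω ω' hw => ?_⟩
  simp only [hF ω ω' fun v hv => hw v (Finset.mem_coe.2 (Finset.mem_union_left _ hv)),
    hF' ω ω' fun v hv => hw v (Finset.mem_coe.2 (Finset.mem_union_right _ hv))]

theorem Fd.meas [MeasurableSpace β] {X : Cfg → β} (h : Fd X) : Measurable X := by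
  obtain ⟨F, hF⟩ := h
  exact H45.meas_locfun F fun ω ω' hw => hF ω ω' fun v hv => hw v hv

theorem Fd.int {X : Cfg → ℝ} (h : Fd X) : Integrable X μ := by
  obtain ⟨F, hF⟩ := h
  exact H45.loc_int F fun ω ω' hw => hF ω ω' fun v hv => hw v hv

theorem Fd.mul {X Y : Cfg → ℝ} (h : Fd X) (h' : Fd Y) : Fd (fun ω => X ω * Y ω) := h.comp₂ h' _

theorem Fd.add {X Y : Cfg → ℝ} (h : Fd X) (h' : Fd Y) : Fd (fun ω => X ω + Y ω) := h.comp₂ h' _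

theorem Fd.sub {X Y : Cfg → ℝ} (h : Fd X) (h' : Fd Y) : Fd (fun ω => X ω - Y ω) := h.comp₂ h' _

theorem Fd.pow {X : Cfg → ℝ} (h : Fd X) (n : ℕ) : Fd (fun ω => X ω ^ n) := h.comp (fun x => x ^ n)

theorem Fd.abs {X : Cfg → ℝ} (h : Fd X) : Fd (fun ω => |X ω|) := h.comp (fun x => |x|)

theorem Fd.sum {ι : Type*} (s : Finset ι) {X : ι → Cfg → ℝ} (h : ∀ i ∈ s, Fd (X i)) :
    Fd (fun ω => ∑ i ∈ s, X i ω) := by
  classical
  induction s using Finset.induction_on with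
  | empty => simpa using Fd.const (0 : ℝ)
  | insert a s ha ih =>
    simp only [Finset.sum_insert ha]
    exact (h a (Finset.mem_insert_self _ _)).add
      (ih fun i hi => h i (Finset.mem_insert_of_mem hi))

open Classical in
/-- Indicator. -/
noncomputable def ind (A : Set Cfg) (ω : Cfg) : ℝ := if ω ∈ A then 1 else 0

theorem ind_nonneg (A : Set Cfg) (ω : Cfg) : 0 ≤ ind A ω := by
  unfold ind; split_ifs <;> norm_num

theorem ind_le_one (A : Set Cfg) (ω : Cfg) : ind A ω ≤ 1 := by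
  unfold ind; split_ifs <;> norm_num

theorem ind_sq (A : Set Cfg) (ω : Cfg) : ind A ω ^ 2 = ind A ω := by
  unfold ind; split_ifs <;> norm_num

theorem ind_mem {A : Set Cfg} {ω : Cfg} (h : ω ∈ A) : ind A ω = 1 := if_pos h

theorem ind_notMem {A : Set Cfg} {ω : Cfg} (h : ω ∉ A) : ind A ω = 0 := if_neg h

theorem Fd.ind_of {A : Set Cfg} {F : Finset (ℤ × ℤ)} (h : LocSet (F : Set (ℤ × ℤ)) A) :
    Fd (ind A) := by
  refine ⟨F, fun ω ω' hw => ?_⟩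
  have h1 : ω ∈ A ↔ ω' ∈ A := h ω ω' hw
  by_cases h2 : ω ∈ A
  · rw [ind_mem h2, ind_mem (h1.1 h2)]
  · rw [ind_notMem h2, ind_notMem fun h3 => h2 (h1.2 h3)]

theorem integral_ind {A : Set Cfg} (h : MeasurableSet A) : ∫ ω, ind A ω ∂μ = μ.real A := by
  have : ind A = Set.indicator A (fun _ => (1 : ℝ)) := by
    funext ω
    by_cases hω : ω ∈ A
    · rw [ind_mem hω, Set.indicator_of_mem hω]
    · rw [ind_notMem hω, Set.indicator_of_notMem hω]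
  rw [this, integral_indicator h]
  simp

/-- Cauchy–Schwarz. -/
theorem cs_sq {X Y : Cfg → ℝ} (hX : Fd X) (hY : Fd Y) :
    (∫ ω, X ω * Y ω ∂μ) ^ 2 ≤ (∫ ω, X ω ^ 2 ∂μ) * ∫ ω, Y ω ^ 2 ∂μ := by
  set a := ∫ ω, X ω ^ 2 ∂μ with ha
  set b := ∫ ω, X ω * Y ω ∂μ with hb
  set c := ∫ ω, Y ω ^ 2 ∂μ with hc
  have h : ∀ t : ℝ, 0 ≤ c * (t * t) + 2 * b * t + a := by
    intro t
    have h1 : 0 ≤ ∫ ω, (X ω + t * Y ω) ^ 2 ∂μ := integral_nonneg fun ω => sq_nonneg _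
    have h2 : ∫ ω, (X ω + t * Y ω) ^ 2 ∂μ = a + 2 * t * b + t ^ 2 * c := by
      have e : ∀ ω, (X ω + t * Y ω) ^ 2 = X ω ^ 2 + (2 * t * (X ω * Y ω) + t ^ 2 * Y ω ^ 2) :=
        fun ω => by ring
      simp only [e]
      rw [integral_add (hX.pow 2).int, integral_add, integral_const_mul, integral_const_mul]
      · ring
      · exact (hX.mul hY).int.const_mul _
      · exact (hY.pow 2).int.const_mul _
      · exact ((hX.mul hY).int.const_mul _).add ((hY.pow 2).int.const_mul _)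
    rw [h2] at h1
    nlinarith
  have := discrim_le_zero h
  rw [discrim] at this
  nlinarith

theorem cs_le {X Y : Cfg → ℝ} (hX : Fd X) (hY : Fd Y) {a b : ℝ} (ha : 0 ≤ a) (hb : 0 ≤ b)
    (h1 : ∫ ω, X ω ^ 2 ∂μ ≤ a ^ 2) (h2 : ∫ ω, Y ω ^ 2 ∂μ ≤ b ^ 2) :
    |∫ ω, X ω * Y ω ∂μ| ≤ a * b := by
  refine abs_le_of_sq_le_sq ?_ (mul_nonneg ha hb)
  calc (∫ ω, X ω * Y ω ∂μ) ^ 2 ≤ (∫ ω, X ω ^ 2 ∂μ) * ∫ ω, Y ω ^ 2 ∂μ := cs_sq hX hY
    _ ≤ a ^ 2 * b ^ 2 := mul_le_mul h1 h2 (integral_nonneg fun ω => sq_nonneg _) (sq_nonneg _)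
    _ = (a * b) ^ 2 := by ring

theorem int_le {X : Cfg → ℝ} (hX : Fd X) {a : ℝ} (ha : 0 ≤ a) (h1 : ∫ ω, X ω ^ 2 ∂μ ≤ a ^ 2) :
    |∫ ω, X ω ∂μ| ≤ a := by
  have h := cs_le hX (Fd.const (1 : ℝ)) ha zero_le_one h1 (by simp)
  simpa using h

/-- **Abstract covariance bound.** -/
theorem cov_le {X Z N : Cfg → ℝ} (hX : Fd X) (hZ : Fd Z) (hN : Fd N) {S : Set (ℤ × ℤ)}
    (hNS : LocFun S N) (hZS : LocFun Sᶜ Z) {a b : ℝ} (ha : 0 ≤ a) (hb : 0 ≤ b)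
    (h1 : ∫ ω, (X ω - Z ω) ^ 2 ∂μ ≤ a ^ 2) (h2 : ∫ ω, N ω ^ 2 ∂μ ≤ b ^ 2) :
    |∫ ω, X ω * N ω ∂μ - (∫ ω, X ω ∂μ) * ∫ ω, N ω ∂μ| ≤ 2 * (a * b) := by
  have hind : IndepFun Z N μ :=
    indepFun_of_local H45.iInd (disjoint_compl_left (a := S)) hZ.meas hN.meas hZS hNS
  have e1 : ∫ ω, Z ω * N ω ∂μ = (∫ ω, Z ω ∂μ) * ∫ ω, N ω ∂μ :=
    hind.integral_fun_mul_eq_mul_integral hZ.meas.aestronglyMeasurable
      hN.meas.aestronglyMeasurable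
  have e2 : ∫ ω, X ω * N ω ∂μ - (∫ ω, X ω ∂μ) * ∫ ω, N ω ∂μ =
      ∫ ω, (X ω - Z ω) * N ω ∂μ - (∫ ω, (X ω - Z ω) ∂μ) * ∫ ω, N ω ∂μ := by
    have e3 : ∫ ω, (X ω - Z ω) * N ω ∂μ = ∫ ω, X ω * N ω ∂μ - ∫ ω, Z ω * N ω ∂μ := by
      rw [← integral_sub (hX.mul hN).int (hZ.mul hN).int]
      refine integral_congr_ae (Filter.Eventually.of_forall fun ω => ?_)
      ring
    rw [e3, integral_sub hX.int hZ.int, e1]
    ring
  rw [e2]
  have b1 := cs_le (hX.sub hZ) hN ha hb h1 h2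
  have b2 := int_le (hX.sub hZ) ha h1
  have b3 := int_le hN hb h2
  calc |∫ ω, (X ω - Z ω) * N ω ∂μ - (∫ ω, (X ω - Z ω) ∂μ) * ∫ ω, N ω ∂μ|
      ≤ |∫ ω, (X ω - Z ω) * N ω ∂μ| + |(∫ ω, (X ω - Z ω) ∂μ) * ∫ ω, N ω ∂μ| := abs_sub _ _
    _ ≤ a * b + a * b := by
        rw [abs_mul]
        exact add_le_add b1 (mul_le_mul b2 b3 (abs_nonneg _) ha)
    _ = _ := by ring

end Vale.Agent.P167.H167
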