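import Vale.Agent.P167.H167.Pc
import Vale.Agent.P167.H167.Cov

/-!
# P167, block EQUI: a piece which crosses an annulus gives an open crossing of the annulus;
the number of the pieces of a box which are not small
-/

namespace Vale.Agent.P167.H167

open Finset MeasureTheory
open Vale.Agent.P167.BR
open Vale.Agent.P167.H166 (Cr cl bxx Sb mem_bxx arm_of_cr cl_eq Cr_mono)
open Vale.Agent.P167.H871 (arm_decay fair_mu ArmS fi SB)
open Vale.Agent.P145.FB (PStep)
open Vale.Agent.P167.H562 (LocFun LocSet Em)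

variable {D : Finset (ℤ × ℤ)} {ω ω' : Cfg} {A : Finset Ed}

/-! ### Crossings of an annulus -/

/-- The open squares at distance in `(r, R]` of `x`. -/
noncomputable def An (x : ℤ × ℤ) (r R : ℤ) (ω : Cfg) : Finset (ℤ × ℤ) :=
  (bxx x R).filter (fun v => r < nm (v - x) ∧ ω v = true)

/-- The annulus is crossed by an open primal path (of squares of the annulus). -/
def ArmE (x : ℤ × ℤ) (r R : ℤ) : Set Cfg := {ω | Cr x r R 0 (An x r R ω)}

theorem locSet_arm (x : ℤ × ℤ) (r R : ℤ) :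
    LocSet {v : ℤ × ℤ | r < nm (v - x) ∧ nm (v - x) ≤ R} (ArmE x r R) := by
  intro ω ω' h
  have : An x r R ω = An x r R ω' := by
    unfold An
    refine Finset.filter_congr fun v hv => ?_
    constructor
    · rintro ⟨h1, h2⟩
      exact ⟨h1, by rw [← h v ⟨h1, mem_bxx.1 hv⟩]; exact h2⟩
    · rintro ⟨h1, h2⟩
      exact ⟨h1, by rw [h v ⟨h1, mem_bxx.1 hv⟩]; exact h2⟩
  show Cr _ _ _ _ _ ↔ Cr _ _ _ _ _
  rw [this]

theorem fd_arm (x : ℤ × ℤ) (r R : ℤ) : Fd (ind (ArmE x r R)) := by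
  refine Fd.ind_of (F := bxx x R) ?_
  intro ω ω' h
  exact locSet_arm x r R ω ω' fun v hv => h v (Finset.mem_coe.2 (mem_bxx.2 hv.2))

theorem seq_cross {g : ℕ → ℤ} {r R : ℤ} {k : ℕ} (h0 : g 0 ≤ r) (hk : R ≤ g k) (hrR : r < R) :
    ∃ i j, i < j ∧ j ≤ k ∧ g i ≤ r ∧ R ≤ g j ∧ ∀ l, i < l → l < j → r < g l ∧ g l < R := by
  classical
  have hex : ∃ j, R ≤ g j := ⟨k, hk⟩
  set j := Nat.find hex with hj
  have hj1 : R ≤ g j := Nat.find_spec hex
  have hj2 : ∀ l < j, g l < R := fun l hl => not_le.1 (Nat.find_min hex hl)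
  have hj3 : j ≤ k := Nat.find_min' hex hk
  set i := Nat.findGreatest (fun i => g i ≤ r) j with hi
  have hi1 : g i ≤ r := Nat.findGreatest_spec (P := fun i => g i ≤ r) (Nat.zero_le _) h0
  have hi2 : i ≤ j := Nat.findGreatest_le j
  have hij : i ≠ j := by
    intro h
    rw [h] at hi1
    omega
  refine ⟨i, j, by omega, hj3, hi1, hj1, fun l h1 h2 => ⟨?_, hj2 l h2⟩⟩
  have := Nat.findGreatest_is_greatest (P := fun i => g i ≤ r) h1 h2.le
  exact not_le.1 this

theorem arc_an {x : ℤ × ℤ} {r R : ℤ} {e : Ed} {n : ℕ}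
    (h : ∀ i < n, r < nm (hdv ((nx ω)^[i] e) - x) ∧ nm (hdv ((nx ω)^[i] e) - x) ≤ R) :
    ls ((nx ω)^[n] e) ∈ cl (An x r R ω) (ls e) := by
  induction n with
  | zero => exact Relation.ReflTransGen.refl
  | succ n ih =>
    have h1 := ih fun i hi => h i (by omega)
    have h3 := h n (by omega)
    rw [Function.iterate_succ_apply']
    generalize (nx ω)^[n] e = a at h1 h3
    obtain ⟨h4, h5⟩ := H166.nx_step ω a
    cases hb : ω (hdv a) with
    | true =>
      obtain ⟨h6, -⟩ := h4 hb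
      refine Relation.ReflTransGen.tail h1 (H166.PStep_mono ?_ h6)
      rw [Set.singleton_subset_iff, Finset.mem_coe, An, Finset.mem_filter]
      exact ⟨mem_bxx.2 h3.2, h3.1, hb⟩
    | false =>
      obtain ⟨h6, -⟩ := h5 hb
      rw [h6]
      exact h1

theorem nm_near_hd {x : ℤ × ℤ} {r : ℤ} {v w : ℤ × ℤ} (h1 : w.1 = v.1 ∨ w.1 = v.1 + 1)
    (h2 : w.2 = v.2 ∨ w.2 = v.2 + 1) (h : nm (v - x) ≤ r) : nm (w - x) ≤ r + 1 := by
  simp only [nm, Prod.fst_sub, Prod.snd_sub, max_le_iff, abs_le] at h ⊢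
  omega

theorem nm_far_hd {x : ℤ × ℤ} {R : ℤ} {v w : ℤ × ℤ} (h1 : w.1 = v.1 ∨ w.1 = v.1 + 1)
    (h2 : w.2 = v.2 ∨ w.2 = v.2 + 1) (h : R ≤ nm (v - x)) : R - 1 ≤ nm (w - x) := by
  simp only [nm, Prod.fst_sub, Prod.snd_sub, le_max_iff, le_abs] at h ⊢
  omega

/-- An interface from the inside to the outside. -/
theorem arm_of_fw {x : ℤ × ℤ} {r R : ℤ} (hrR : r < R) {a : Ed} {k : ℕ}
    (h0 : nm (hdv a - x) ≤ r) (hk : R ≤ nm (hdv ((nx ω)^[k] a) - x)) : ω ∈ ArmE x r R := by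
  obtain ⟨i, j, hij, -, hi, hj, hl⟩ :=
    seq_cross (g := fun i => nm (hdv ((nx ω)^[i] a) - x)) (by simpa using h0) hk hrR
  have h1 : ls ((nx ω)^[j - (i + 1)] ((nx ω)^[i + 1] a)) ∈
      cl (An x r R ω) (ls ((nx ω)^[i + 1] a)) := by
    refine arc_an fun l hl' => ?_
    rw [← Function.iterate_add_apply]
    have := hl (l + (i + 1)) (by omega) (by omega)
    exact ⟨this.1, this.2.le⟩
  rw [← Function.iterate_add_apply, Nat.sub_add_cancel (by omega)] at h1
  have ht : tlv ((nx ω)^[i + 1] a) = hdv ((nx ω)^[i] a) := by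
    rw [Function.iterate_succ_apply', tlv_nx]
  obtain ⟨c1, c2, -, -⟩ := corner_tl ((nx ω)^[i + 1] a)
  obtain ⟨d1, d2, -, -⟩ := corner_hd ((nx ω)^[j] a)
  rw [ht] at c1 c2
  have hpar := (H166.corner ((nx ω)^[i + 1] a)).2.2.2.2.1
  exact ⟨_, _, hpar, nm_near_hd c1 c2 hi, nm_far_hd d1 d2 hj, h1⟩

/-- An interface from the outside to the inside. -/
theorem arm_of_bw {x : ℤ × ℤ} {r R : ℤ} (hrR : r < R) {b : Ed} {k : ℕ}
    (h0 : R ≤ nm (hdv b - x)) (hk : nm (hdv ((nx ω)^[k] b) - x) ≤ r) : ω ∈ ArmE x r R := by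
  obtain ⟨i, j, hij, -, hi, hj, hl⟩ :=
    seq_cross (g := fun i => - nm (hdv ((nx ω)^[i] b) - x)) (r := -R) (R := -r)
      (by simpa using h0) (by simpa using hk) (by omega)
  have hi' : R ≤ nm (hdv ((nx ω)^[i] b) - x) := by omega
  have hj' : nm (hdv ((nx ω)^[j] b) - x) ≤ r := by omega
  have h1 : ls ((nx ω)^[j - (i + 1)] ((nx ω)^[i + 1] b)) ∈
      cl (An x r R ω) (ls ((nx ω)^[i + 1] b)) := by
    refine arc_an fun l hl' => ?_
    rw [← Function.iterate_add_apply]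
    have := hl (l + (i + 1)) (by omega) (by omega)
    omega
  rw [← Function.iterate_add_apply, Nat.sub_add_cancel (by omega)] at h1
  have ht : tlv ((nx ω)^[i + 1] b) = hdv ((nx ω)^[i] b) := by
    rw [Function.iterate_succ_apply', tlv_nx]
  obtain ⟨c1, c2, -, -⟩ := corner_tl ((nx ω)^[i + 1] b)
  obtain ⟨d1, d2, -, -⟩ := corner_hd ((nx ω)^[j] b)
  rw [ht] at c1 c2
  have hpar := (H166.corner ((nx ω)^[j] b)).2.2.2.2.1
  refine ⟨_, _, hpar, nm_near_hd d1 d2 hj', nm_far_hd c1 c2 hi', ?_⟩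
  have h2 : ls ((nx ω)^[i + 1] b) ∈ cl (An x r R ω) (ls ((nx ω)^[j] b)) := by
    rw [cl_eq h1]
    exact Relation.ReflTransGen.refl
  exact h2

/-- A piece which crosses an annulus gives an open crossing. -/
theorem arm_of_piece (hA : A ∈ pcs ω D) {x : ℤ × ℤ} {r R : ℤ} (hrR : r < R) {a b : Ed}
    (ha : a ∈ A) (hb : b ∈ A) (h1 : nm (hdv a - x) ≤ r) (h2 : R ≤ nm (hdv b - x)) :
    ω ∈ ArmE x r R := by
  obtain ⟨k, hk | hk⟩ := run_of_mem hA ha hb
  · exact arm_of_fw (k := k) hrR h1 (by rw [hk.1]; exact h2)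
  · exact arm_of_bw (k := k) hrR h2 (by rw [hk.1]; exact h1)

/-- One-arm bound. -/
theorem armE_le : ∃ C α : ℝ, 0 < C ∧ 0 < α ∧ α ≤ 1 ∧ ∀ (x : ℤ × ℤ) (r R : ℤ), 1 ≤ r → 1 ≤ R →
    ∫ ω, ind (ArmE x r R) ω ∂μ ≤ C * ((r : ℝ) / R) ^ α := by
  obtain ⟨C, α0, hC, hα0, h⟩ := arm_decay fair_mu
  set α := min α0 1 with hα
  have hαp : 0 < α := lt_min hα0 one_pos
  refine ⟨C * 8 + 5, α, by positivity, hαp, min_le_right _ _, fun x r R hr hR => ?_⟩
  have hr' : (1 : ℝ) ≤ r := by exact_mod_cast hr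
  have hR' : (1 : ℝ) ≤ R := by exact_mod_cast hR
  have hq : (0 : ℝ) < (r : ℝ) / R := by positivity
  have hms : MeasurableSet (ArmE x r R) := by
    refine H45.meas_loc (bxx x R) fun ω ω' hw hω => ?_
    exact (locSet_arm x r R ω ω' fun v hv => hw v (mem_bxx.2 hv.2)).1 hω
  rw [integral_ind hms]
  by_cases hle : 2 * (r + 1) ≤ R - 1
  · obtain ⟨h1, -⟩ := h (fi x) (2 * (r + 1)) (R - 1) (by omega) hle
    have h2 : μ.real (ArmE x r R) ≤ C * (((2 * (r + 1) : ℤ) : ℝ) / ((R - 1 : ℤ) : ℝ)) ^ α0 := by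
      refine le_trans (measureReal_mono ?_) h1
      intro ω hω
      refine arm_of_cr (Cr_mono _ _ ?_ hω)
      intro v hv
      rw [An, Finset.mem_filter] at hv
      rw [Sb, Finset.mem_filter]
      exact ⟨hv.1, hv.2.2⟩
    have hR1 : (0 : ℝ) < ((R - 1 : ℤ) : ℝ) := by exact_mod_cast (by omega : 0 < R - 1)
    have h3 : ((2 * (r + 1) : ℤ) : ℝ) / ((R - 1 : ℤ) : ℝ) ≤ 1 := by
      rw [div_le_one hR1]; exact_mod_cast hle
    have h3' : (0 : ℝ) < ((2 * (r + 1) : ℤ) : ℝ) / ((R - 1 : ℤ) : ℝ) := by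
      have : (0 : ℝ) < ((2 * (r + 1) : ℤ) : ℝ) := by exact_mod_cast (by omega : 0 < 2 * (r + 1))
      positivity
    have h4 : ((2 * (r + 1) : ℤ) : ℝ) / ((R - 1 : ℤ) : ℝ) ≤ 8 * ((r : ℝ) / R) := by
      rw [div_le_iff₀ hR1]
      have hR0 : (0 : ℝ) < R := by linarith
      have h5 : (2 : ℝ) ≤ R := by
        have : (2 : ℤ) ≤ R := by omega
        exact_mod_cast this
      push_cast
      have h6 : 8 * ((r : ℝ) / R) * (R - 1) = 8 * r * ((R - 1) / R) := by ring
      rw [h6]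
      have h7 : (1 : ℝ) / 2 ≤ (R - 1) / R := by
        rw [div_le_div_iff₀ (by norm_num) hR0]; linarith
      nlinarith
    have h5 : (((2 * (r + 1) : ℤ) : ℝ) / ((R - 1 : ℤ) : ℝ)) ^ α0 ≤
        (((2 * (r + 1) : ℤ) : ℝ) / ((R - 1 : ℤ) : ℝ)) ^ α :=
      Real.rpow_le_rpow_of_exponent_ge h3' h3 (min_le_left _ _)
    have h6 : (((2 * (r + 1) : ℤ) : ℝ) / ((R - 1 : ℤ) : ℝ)) ^ α ≤ 8 * ((r : ℝ) / R) ^ α := by
      calc (((2 * (r + 1) : ℤ) : ℝ) / ((R - 1 : ℤ) : ℝ)) ^ α ≤ (8 * ((r : ℝ) / R)) ^ α :=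
            Real.rpow_le_rpow h3'.le h4 hαp.le
        _ = 8 ^ α * ((r : ℝ) / R) ^ α := Real.mul_rpow (by norm_num) hq.le
        _ ≤ 8 * ((r : ℝ) / R) ^ α := by
            refine mul_le_mul_of_nonneg_right ?_ (by positivity)
            calc (8 : ℝ) ^ α ≤ 8 ^ (1 : ℝ) :=
                  Real.rpow_le_rpow_of_exponent_le (by norm_num) (min_le_right _ _)
              _ = 8 := Real.rpow_one 8
    calc μ.real (ArmE x r R) ≤ C * (8 * ((r : ℝ) / R) ^ α) :=
          h2.trans (mul_le_mul_of_nonneg_left (h5.trans h6) hC.le)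
      _ ≤ _ := by
          have : (0 : ℝ) ≤ ((r : ℝ) / R) ^ α := by positivity
          nlinarith
  · have h1 : (R : ℝ) ≤ 5 * r := by
      have : R ≤ 5 * r := by omega
      exact_mod_cast this
    have h2 : (1 : ℝ) / 5 ≤ (r : ℝ) / R := by
      rw [div_le_div_iff₀ (by norm_num) (by linarith)]; linarith
    have h3 : (1 : ℝ) / 5 ≤ ((r : ℝ) / R) ^ α := by
      calc (1 : ℝ) / 5 = (1 / 5) ^ (1 : ℝ) := (Real.rpow_one _).symm
        _ ≤ (1 / 5 : ℝ) ^ α :=
            Real.rpow_le_rpow_of_exponent_ge (by norm_num) (by norm_num) (min_le_right _ _)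
        _ ≤ _ := Real.rpow_le_rpow (by norm_num) h2 hαp.le
    have h4 : μ.real (ArmE x r R) ≤ 1 := measureReal_le_one
    have h5 : 0 ≤ C * 8 * ((r : ℝ) / R) ^ α := by positivity
    nlinarith

/-! ### Counting -/

/-- Pieces are segments. -/
theorem isSeg (hA : A ∈ pcs ω D) : H945.IsSeg ω A := by
  classical
  by_cases hl : IsLp D A
  · -- a loop
    obtain ⟨e, he⟩ := BR.IsLp.isLoop hA hl
    have hfin : ∀ a ∈ A, ∃ n, (nx ω)^[n] e = a := fun a ha => (he a).1 ha
    choose! n hn using hfin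
    refine ⟨e, A.sup n, fun a => ⟨fun ha => ⟨n a, Finset.le_sup ha, hn a ha⟩, ?_⟩⟩
    rintro ⟨i, -, rfl⟩
    exact (he _).2 ⟨i, rfl⟩
  · obtain ⟨c, hc, hcD⟩ := exists_exit hl
    -- every edge runs to `c`
    have hrun : ∀ a ∈ A, ∃ k, Run ω D a k c := by
      intro a ha
      obtain ⟨k, hk | hk⟩ := run_of_mem hA ha hc
      · exact ⟨k, hk⟩
      · rcases Nat.eq_zero_or_pos k with rfl | h0
        · exact ⟨0, hk.1.symm, fun j hj => absurd hj (Nat.not_lt_zero _)⟩
        · exact absurd (hk.2 0 h0) hcD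
    choose! k hk using hrun
    obtain ⟨e, he, hmax⟩ := Finset.exists_max_image A k ⟨c, hc⟩
    refine ⟨e, k e, fun a => ⟨fun ha => ?_, ?_⟩⟩
    · have h1 := hmax a ha
      have h2 := (hk e he).sub (hk a ha) h1
      exact ⟨k e - k a, by omega, h2.1⟩
    · rintro ⟨i, hi, rfl⟩
      exact (mem_of_run hA (⟨rfl, fun j hj => (hk e he).2 j (by omega)⟩ :
        Run ω D e i ((nx ω)^[i] e))).mp he

open Classical in
/-- The pieces which visit the box of radius `L` around `x` and are not `d`-small. -/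
noncomputable def Bg (D : Finset (ℤ × ℤ)) (x : ℤ × ℤ) (L : ℤ) (d : ℝ) (ω : Cfg) :
    Finset (Finset Ed) :=
  (pcs ω D).filter fun A => (∃ e ∈ A, nm (hdv e - x) ≤ L) ∧ ¬ Small d A

theorem fd_pcs {β : Type*} (D : Finset (ℤ × ℤ)) (g : Finset (Finset Ed) → β) :
    Fd (fun ω => g (pcs ω D)) :=
  ⟨D, fun ω ω' h => by simp only [pcs_congr fun v hv => h v (Finset.mem_coe.2 hv)]⟩

theorem exists_far_head {d : ℝ} (hS : ¬ Small d A) (x : ℤ × ℤ) :
    ∃ b ∈ A, d / 2 ≤ (nm (hdv b - x) : ℝ) := by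
  unfold Small at hS
  push Not at hS
  obtain ⟨u, hu, v, hv, h⟩ := hS
  unfold vs at hu hv
  obtain ⟨a, ha, rfl⟩ := Finset.mem_image.1 hu
  obtain ⟨b, hb, rfl⟩ := Finset.mem_image.1 hv
  by_contra hcon
  push Not at hcon
  have h1 := hcon a ha
  have h2 := hcon b hb
  have h3 : (nm (hdv a - hdv b) : ℝ) ≤ nm (hdv a - x) + nm (hdv b - x) := by
    have := H45.nm_sub_le (hdv a) x (hdv b)
    rw [H45.nm_sub_comm x (hdv b)] at this
    exact_mod_cast this
  linarith

/-- **The number of the large pieces of a box has an exponential moment.** -/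
theorem em_Bg (Λ : ℕ) : ∃ l M : ℝ, 0 < l ∧ 0 ≤ M ∧ ∀ (D : Finset (ℤ × ℤ)) (x : ℤ × ℤ) (L : ℤ)
    (d : ℝ), 1 ≤ d → 0 ≤ L → (L : ℝ) ≤ Λ * d →
    Em μ (fun ω => l * ((Bg D x L d ω).card : ℝ)) ≤ ENNReal.ofReal M := by
  classical
  obtain ⟨k, l0, C, hk, hl0, hC, hcr⟩ := H945.crossS
  -- threshold: `r = ⌊d / (4 (k+1))⌋`
  set k4 : ℤ := 4 * (k + 1) with hk4
  have hk4p : 0 < k4 := by omega
  have hk4R : (0 : ℝ) < k4 := by exact_mod_cast hk4p
  -- number of annuli
  set P0 : ℤ := 2 * ((2 * Λ * k4 + 1)) + 2 with hP0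
  have hP0p : 0 < P0 := by positivity
  set N0 : ℝ := ((P0 : ℤ) : ℝ) ^ 2 with hN0
  have hN0p : 1 ≤ N0 := by
    have : (1 : ℝ) ≤ P0 := by exact_mod_cast (by omega : 1 ≤ P0)
    rw [hN0]; nlinarith
  -- crude bound for small `d`
  set E0 : ℝ := 2 * (2 * (Λ * k4) + 1) ^ 2 with hE0
  refine ⟨l0 / N0, N0 * C + Real.exp (l0 * E0), by positivity, by positivity,
    fun D x L d hd hL0 hL => ?_⟩
  have hl : 0 < l0 / N0 := by positivity
  by_cases hsmall : d < k4
  · -- few squares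
    have hcard : ∀ ω, ((Bg D x L d ω).card : ℝ) ≤ E0 := by
      intro ω
      have hex : ∀ A ∈ Bg D x L d ω, ∃ e ∈ A, nm (hdv e - x) ≤ L := fun A hA =>
        (Finset.mem_filter.1 hA).2.1
      choose! c hc1 hc2 using hex
      have hmaps : ∀ A ∈ Bg D x L d ω, c A ∈
          (bxx x L).image FK.ia ∪ (bxx x L).image FK.ib := by
        intro A hA
        rw [Finset.mem_union, Finset.mem_image, Finset.mem_image]
        rcases FK.eq_of_hdv (v := hdv (c A)) rfl with h | h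
        · exact Or.inl ⟨_, mem_bxx.2 (hc2 A hA), h.symm⟩
        · exact Or.inr ⟨_, mem_bxx.2 (hc2 A hA), h.symm⟩
      have h1 := Finset.card_le_card_of_injOn c hmaps (by
        intro A hA B hB hAB
        have h2 := hc1 A hA
        have h3 := hc1 B hB
        rw [← hAB] at h3
        exact eq_of_mem_pcs (Finset.mem_filter.1 hA).1 (Finset.mem_filter.1 hB).1 h2 h3)
      have h4 : ((bxx x L).card : ℝ) = (2 * L + 1) ^ 2 := by
        have : ((bxx x L).card : ℤ) = (2 * L + 1) ^ 2 := by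
          unfold bxx
          rw [Finset.card_product, Int.card_Icc, Int.card_Icc]
          push_cast
          rw [Int.toNat_of_nonneg (by linarith), Int.toNat_of_nonneg (by linarith)]
          ring
        have h5 : (((bxx x L).card : ℤ) : ℝ) = (((2 * L + 1) ^ 2 : ℤ) : ℝ) := by rw [this]
        push_cast at h5
        exact h5
      have h5 : ((Bg D x L d ω).card : ℝ) ≤ 2 * ((bxx x L).card : ℝ) := by
        have h6 := h1.trans (Finset.card_union_le _ _)
        have h7 := Finset.card_image_le (s := bxx x L) (f := FK.ia)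
        have h8 := Finset.card_image_le (s := bxx x L) (f := FK.ib)
        have h9 : (Bg D x L d ω).card ≤ 2 * (bxx x L).card := by omega
        exact_mod_cast h9
      rw [h4] at h5
      refine h5.trans ?_
      rw [hE0]
      have hL' : (0 : ℝ) ≤ L := by exact_mod_cast hL0
      have hL2 : (L : ℝ) ≤ Λ * k4 :=
        hL.trans (mul_le_mul_of_nonneg_left hsmall.le (Nat.cast_nonneg _))
      have : (2 * (L : ℝ) + 1) ^ 2 ≤ (2 * (Λ * k4) + 1) ^ 2 :=
        pow_le_pow_left₀ (by linarith) (by linarith) 2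
      linarith
    calc Em μ (fun ω => l0 / N0 * ((Bg D x L d ω).card : ℝ))
        ≤ Em μ (fun _ => l0 * E0) := by
          refine H562.Em_mono fun ω => ?_
          have h1 := hcard ω
          have h2 : l0 / N0 ≤ l0 := div_le_self hl0.le hN0p
          have h3 : (0 : ℝ) ≤ ((Bg D x L d ω).card : ℝ) := Nat.cast_nonneg _
          exact mul_le_mul h2 h1 h3 hl0.le
      _ = ENNReal.ofReal (Real.exp (l0 * E0)) := by
          unfold Em
          rw [lintegral_const, measure_univ, mul_one]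
      _ ≤ _ := ENNReal.ofReal_le_ofReal (by nlinarith)
  · push Not at hsmall
    set r : ℤ := ⌊d / k4⌋ with hr
    have hr1 : 1 ≤ r := Int.le_floor.2 (by
      push_cast
      rwa [le_div_iff₀ hk4R, one_mul])
    have hrd : (r : ℝ) ≤ d / k4 := Int.floor_le _
    have hdr : d / k4 < r + 1 := Int.lt_floor_add_one _
    have hrR : (1 : ℝ) ≤ r := by exact_mod_cast hr1
    choose Z hZ1 hZ2 hZ3 using hcr
    obtain ⟨J, hJ1, hJ2⟩ := H45.grid_fin x hr1 (P := L + r) (by linarith)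
    have hJc : (J.card : ℝ) ≤ N0 := by
      have h1 : ((J.card : ℤ) : ℝ) ≤ ((2 * (L + r) / r + 2 : ℤ) : ℝ) ^ 2 := by exact_mod_cast hJ2
      have h2 : (2 * (L + r) / r + 2 : ℤ) ≤ P0 := by
        have h3 : 2 * (L + r) / r ≤ 2 * (2 * Λ * k4 + 1) := by
          refine Int.ediv_le_of_le_mul (by linarith) ?_
          have h4 : (L : ℝ) ≤ 2 * Λ * k4 * r := by
            have h5 : d ≤ k4 * (r + 1) := by
              have := (div_lt_iff₀ hk4R).1 hdr
              linarith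
            have h6 : d ≤ 2 * k4 * r := by nlinarith
            calc (L : ℝ) ≤ Λ * d := hL
              _ ≤ Λ * (2 * k4 * r) := mul_le_mul_of_nonneg_left h6 (Nat.cast_nonneg _)
              _ = _ := by ring
          have h7 : L ≤ 2 * Λ * k4 * r := by exact_mod_cast h4
          nlinarith
        rw [hP0]; linarith
      have h0 : (0 : ℤ) ≤ 2 * (L + r) / r + 2 := by
        have : 0 ≤ 2 * (L + r) / r := Int.ediv_nonneg (by linarith) (by linarith)
        linarith
      have h3 : ((2 * (L + r) / r + 2 : ℤ) : ℝ) ^ 2 ≤ ((P0 : ℤ) : ℝ) ^ 2 :=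
        pow_le_pow_left₀ (by exact_mod_cast h0) (by exact_mod_cast h2) 2
      have h4 : ((J.card : ℤ) : ℝ) = (J.card : ℝ) := by norm_cast
      rw [h4] at h1
      exact h1.trans h3
    -- every large piece crosses one of the annuli
    have hcov : ∀ ω, (Bg D x L d ω).card ≤ ∑ z ∈ J, Z (H45.gp r z) r hr1 ω := by
      intro ω
      have hsub : Bg D x L d ω ⊆ J.biUnion fun z =>
          (pcs ω D).filter fun A => H945.Crs k r (H45.gp r z) A := by
        intro A hA
        obtain ⟨h1, ⟨e, he, h2⟩, h3⟩ := Finset.mem_filter.1 hA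
        rw [Finset.mem_biUnion]
        have hg := H45.near_gp hr1 (hdv e)
        refine ⟨((hdv e).1 / r, (hdv e).2 / r), hJ1 _ ?_, ?_⟩
        · have := H45.nm_sub_le (H45.gp r ((hdv e).1 / r, (hdv e).2 / r)) (hdv e) x
          rw [H45.nm_sub_comm (H45.gp r ((hdv e).1 / r, (hdv e).2 / r)) (hdv e)] at this
          linarith
        · rw [Finset.mem_filter]
          obtain ⟨b, hb, hb2⟩ := exists_far_head h3 (H45.gp r ((hdv e).1 / r, (hdv e).2 / r))
          refine ⟨h1, ⟨e, he, hg⟩, b, hb, ?_⟩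
          have h5 : ((k * r : ℤ) : ℝ) ≤ d / 2 := by
            have h6 : (k4 : ℝ) * r ≤ d := by
              have := (le_div_iff₀ hk4R).1 hrd
              linarith
            have h7 : (k4 : ℝ) = 4 * (k + 1) := by rw [hk4]; push_cast; ring
            rw [h7] at h6
            have hkR : (2 : ℝ) ≤ k := by exact_mod_cast hk
            push_cast
            nlinarith
          exact_mod_cast h5.trans hb2
      refine (Finset.card_le_card hsub).trans (Finset.card_biUnion_le.trans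
        (Finset.sum_le_sum fun z _ => ?_))
      refine hZ2 _ r hr1 ω _ (fun γ hγ => isSeg (Finset.mem_filter.1 hγ).1) ?_
        (fun γ hγ => (Finset.mem_filter.1 hγ).2)
      intro γ hγ γ' hγ' hne
      rw [Finset.disjoint_left]
      intro e he he'
      exact hne (eq_of_mem_pcs (Finset.mem_filter.1 hγ).1 (Finset.mem_filter.1 hγ').1 he he')
    -- exponential moment of the sum
    have hexp : ∀ ω, Real.exp (l0 / N0 * ((Bg D x L d ω).card : ℝ)) ≤
        1 + ∑ z ∈ J, Real.exp (l0 * (Z (H45.gp r z) r hr1 ω : ℝ)) := by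
      intro ω
      rcases Finset.eq_empty_or_nonempty J with hJe | hJne
      · have h1 := hcov ω
        rw [hJe, Finset.sum_empty] at h1
        have h2 : ((Bg D x L d ω).card : ℝ) = 0 := by
          have : (Bg D x L d ω).card = 0 := by omega
          exact_mod_cast this
        rw [h2, hJe]; simp
      · obtain ⟨z0, hz0, hmax⟩ := Finset.exists_max_image J (fun z => Z (H45.gp r z) r hr1 ω) hJne
        have h1 : ((Bg D x L d ω).card : ℝ) ≤ N0 * (Z (H45.gp r z0) r hr1 ω : ℝ) := by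
          calc ((Bg D x L d ω).card : ℝ) ≤ ((∑ z ∈ J, Z (H45.gp r z) r hr1 ω : ℕ) : ℝ) := by
                exact_mod_cast hcov ω
            _ ≤ ((∑ _z ∈ J, Z (H45.gp r z0) r hr1 ω : ℕ) : ℝ) := by
                exact_mod_cast Finset.sum_le_sum hmax
            _ = (J.card : ℝ) * (Z (H45.gp r z0) r hr1 ω : ℝ) := by
                rw [Finset.sum_const, smul_eq_mul]; push_cast; ring
            _ ≤ _ := mul_le_mul_of_nonneg_right hJc (Nat.cast_nonneg _)
        have h2 : l0 / N0 * ((Bg D x L d ω).card : ℝ) ≤ l0 * (Z (H45.gp r z0) r hr1 ω : ℝ) := by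
          calc _ ≤ l0 / N0 * (N0 * (Z (H45.gp r z0) r hr1 ω : ℝ)) :=
                mul_le_mul_of_nonneg_left h1 hl.le
            _ = _ := by field_simp
        calc Real.exp (l0 / N0 * ((Bg D x L d ω).card : ℝ))
            ≤ Real.exp (l0 * (Z (H45.gp r z0) r hr1 ω : ℝ)) := Real.exp_le_exp.2 h2
          _ ≤ ∑ z ∈ J, Real.exp (l0 * (Z (H45.gp r z) r hr1 ω : ℝ)) :=
              Finset.single_le_sum (f := fun z => Real.exp (l0 * (Z (H45.gp r z) r hr1 ω : ℝ)))
                (fun z _ => (Real.exp_pos _).le) hz0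
          _ ≤ _ := by linarith
    have hmeas : ∀ z, Measurable (fun ω => ENNReal.ofReal (Real.exp (l0 *
        (Z (H45.gp r z) r hr1 ω : ℝ)))) := by
      intro z
      refine H45.meas_locfun (bxx (H45.gp r z) (k * r)) fun ω ω' hw => ?_
      rw [hZ1 (H45.gp r z) r hr1 ω ω' fun v hv => hw v (mem_bxx.2 hv)]
    calc Em μ (fun ω => l0 / N0 * ((Bg D x L d ω).card : ℝ))
        ≤ ∫⁻ ω, (1 + ∑ z ∈ J, ENNReal.ofReal (Real.exp (l0 * (Z (H45.gp r z) r hr1 ω : ℝ)))) ∂μ := by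
          refine lintegral_mono fun ω => ?_
          refine (ENNReal.ofReal_le_ofReal (hexp ω)).trans ?_
          rw [ENNReal.ofReal_add (by norm_num) (Finset.sum_nonneg fun z _ => (Real.exp_pos _).le),
            ENNReal.ofReal_one, ENNReal.ofReal_sum_of_nonneg fun z _ => (Real.exp_pos _).le]
      _ = 1 + ∑ z ∈ J, ∫⁻ ω, ENNReal.ofReal (Real.exp (l0 * (Z (H45.gp r z) r hr1 ω : ℝ))) ∂μ := by
          rw [lintegral_add_left measurable_const, lintegral_const, measure_univ, mul_one,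
            lintegral_finsetSum _ fun z _ => hmeas z]
      _ ≤ 1 + ∑ _z ∈ J, ENNReal.ofReal C := by
          gcongr with z _
          exact hZ3 _ r hr1
      _ = ENNReal.ofReal (1 + J.card * C) := by
          rw [Finset.sum_const, nsmul_eq_mul, ENNReal.ofReal_add (by norm_num) (by positivity),
            ENNReal.ofReal_mul (Nat.cast_nonneg _), ENNReal.ofReal_natCast, ENNReal.ofReal_one]
      _ ≤ _ := by
          refine ENNReal.ofReal_le_ofReal ?_
          have h1 : (1 : ℝ) ≤ Real.exp (l0 * E0) := Real.one_le_exp (by positivity)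
          have h2 : (J.card : ℝ) * C ≤ N0 * C := mul_le_mul_of_nonneg_right hJc hC.le
          linarith

end Vale.Agent.P167.H167
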