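import Vale.Agent.P167.H167.Sml

/-!
# P167, block EQUI: the functional is asymptotically independent of every local function
-/

namespace Vale.Agent.P167.H167

open Finset MeasureTheory ProbabilityTheory
open Vale.Agent.P167.BR
open Vale.Agent.P167.H166 (bxx mem_bxx)
open Vale.Agent.P167.H562 (LocFun LocSet Em)

variable {D : Finset (ℤ × ℤ)} {p : ℤ × ℤ} {f : ℤ × ℤ → ℝ} {ω ω' : Cfg} {A : Finset Ed}

/-- `sml_four` without `0 < a`. -/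
theorem sml_four' : ∃ c C : ℝ, 0 < c ∧ 0 ≤ C ∧ ∀ (D : Finset (ℤ × ℤ)) (x : ℤ × ℤ) (R : ℤ) (ρ : ℝ)
    (φ : Finset Ed → ℝ) (a : ℝ), 1 ≤ ρ → 0 ≤ R → (R : ℝ) ≤ ρ → 0 ≤ a → a ≤ c →
    (∀ (j : ℕ) (ω : Cfg), 1 ≤ ρ / 2 ^ j → ∀ A ∈ pcs ω D, Small (ρ / 2 ^ j) A →
      |φ A| ≤ a * (1 / 4) ^ j) →
    ∫ ω, (1 - Real.exp (-(∑ A ∈ sm D x R ρ ω, φ A - ∫ ω', ∑ A ∈ sm D x R ρ ω', φ A ∂μ))) ^ 4 ∂μ ≤
      C * a ^ 4 := by
  obtain ⟨c, C, hc, hC, h⟩ := sml_four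
  refine ⟨c, C, hc, hC, fun D x R ρ φ a hρ hR hRρ ha hac hφ => ?_⟩
  rcases ha.eq_or_lt with h0 | h0
  · have h1 : ∀ ω, ∑ A ∈ sm D x R ρ ω, φ A = 0 := fun ω => Finset.sum_eq_zero fun A hA => by
      obtain ⟨h2, -, h3⟩ := mem_sm.1 hA
      have h4 := hφ 0 ω (by simpa using hρ) A h2 (by simpa using h3)
      rw [← h0, zero_mul] at h4
      exact abs_nonpos_iff.1 h4
    simp only [h1]
    simp [← h0]
  · exact h D x R ρ φ a hρ hR hRρ h0 hac hφ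

theorem abs_log_le {w : ℝ} (h : |w - 1| ≤ 1 / 2) : |Real.log w| ≤ 2 * |w - 1| := by
  obtain ⟨h1, h2⟩ := abs_le.1 h
  have hw : 0 < w := by linarith
  rcases le_total 1 w with h3 | h3
  · rw [abs_of_nonneg (Real.log_nonneg h3), abs_of_nonneg (by linarith)]
    have := Real.log_le_sub_one_of_pos hw
    linarith
  · rw [abs_of_nonpos (Real.log_nonpos hw.le h3), abs_of_nonpos (by linarith)]
    have h4 := Real.log_le_sub_one_of_pos (inv_pos.2 hw)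
    rw [Real.log_inv] at h4
    have h5 : w⁻¹ - 1 ≤ 2 * (1 - w) := by
      have h6 : w⁻¹ - 1 = (1 - w) * w⁻¹ := by field_simp
      rw [h6]
      have h7 : w⁻¹ ≤ 2 := by
        rw [inv_le_comm₀ hw (by norm_num)]; linarith
      nlinarith
    linarith

/-- `A` visits the box. -/
def Vis' (x : ℤ × ℤ) (L : ℤ) (A : Finset Ed) : Prop := ∃ e ∈ A, nm (hdv e - x) ≤ L

/-- Off the arm event the visiting pieces are small. -/
theorem small_of_not_arm {x : ℤ × ℤ} {L R : ℤ} (hLR : L < R) (hA : A ∈ pcs ω D)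
    (hV : Vis' x L A) (hG : ω ∉ ArmE x L R) : Small (2 * R : ℝ) A := by
  obtain ⟨e, he, h1⟩ := hV
  have key : ∀ b ∈ A, nm (hdv b - x) < R := by
    intro b hb
    by_contra hcon
    push Not at hcon
    exact hG (arm_of_piece hA hLR he hb h1 hcon)
  intro u hu v hv
  unfold vs at hu hv
  obtain ⟨a, ha, rfl⟩ := Finset.mem_image.1 hu
  obtain ⟨b, hb, rfl⟩ := Finset.mem_image.1 hv
  have h2 := key a ha
  have h3 := key b hb
  have h4 := H45.nm_sub_le (hdv a) x (hdv b)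
  rw [H45.nm_sub_comm x (hdv b)] at h4
  have h5 : nm (hdv a - hdv b) < 2 * R := by linarith
  exact_mod_cast h5

open Classical in
/-- The product over the pieces which do not visit the box. -/
noncomputable def Xo (D : Finset (ℤ × ℤ)) (p : ℤ × ℤ) (f : ℤ × ℤ → ℝ) (x : ℤ × ℤ) (L : ℤ)
    (ω : Cfg) : ℝ := ∏ A ∈ (pcs ω D).filter (fun A => ¬ Vis' x L A), wp D A (mass D p f A)

theorem Xo_loc (x : ℤ × ℤ) (L : ℤ) : LocFun {v : ℤ × ℤ | nm (v - x) ≤ L}ᶜ (Xo D p f x L) := by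
  classical
  intro ω ω' h
  unfold Xo
  rw [pcs_filter_eq (fun A => ¬ Vis' x L A) (S := {v : ℤ × ℤ | nm (v - x) ≤ L}ᶜ)
    (fun A hA e he => ?_) h]
  intro hcon
  exact hA ⟨e, he, hcon⟩

theorem fd_Xo (x : ℤ × ℤ) (L : ℤ) : Fd (Xo D p f x L) := by
  classical
  exact fd_pcs D fun s => ∏ A ∈ s.filter (fun A => ¬ Vis' x L A), wp D A (mass D p f A)

theorem fd_XD (D : Finset (ℤ × ℤ)) (p : ℤ × ℤ) (f : ℤ × ℤ → ℝ) : Fd (XD D p f) :=
  fd_pcs D fun s => ∏ A ∈ s, wp D A (mass D p f A)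

/-- The weights of the small pieces. -/
theorem wp_small {K m : ℤ} (hG : Geo K m D p) {a : ℝ} (hf : ∀ z, |f z| ≤ a)
    (htot : ws (tot D f) = 1) {R : ℤ} (hR : 1 ≤ R) (hRm : 2 * R ≤ m) (j : ℕ)
    (hj : 1 ≤ (2 * R : ℝ) / 2 ^ j) (hA : A ∈ pcs ω D) (hsm : Small ((2 * R : ℝ) / 2 ^ j) A) :
    |wp D A (mass D p f A) - 1| ≤ 72 * (a * K ^ 2 * R ^ 2) * (1 / 4) ^ j := by
  have hR1 : (1 : ℝ) ≤ R := by exact_mod_cast hR
  have hρm : (2 * R : ℝ) ≤ m := by exact_mod_cast hRm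
  have h1 : (2 * R : ℝ) / 2 ^ j ≤ m :=
    (div_le_self (by linarith) (one_le_pow₀ (by norm_num))).trans hρm
  have h2 := hG.wp_near hA hj h1 hsm htot hf
  refine h2.trans (le_of_eq ?_)
  have h3 : ((1 : ℝ) / 4) ^ j = 1 / (2 ^ j) ^ 2 := by
    rw [← pow_mul, mul_comm j 2, pow_mul, one_div, inv_pow]; norm_num
  rw [h3]
  field_simp
  ring

/-- The logarithm of the weight of a piece. -/
noncomputable def lw (D : Finset (ℤ × ℤ)) (p : ℤ × ℤ) (f : ℤ × ℤ → ℝ) (A : Finset Ed) : ℝ :=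
  Real.log (wp D A (mass D p f A))

theorem lw_small {K m : ℤ} (hG : Geo K m D p) {a : ℝ} (hf : ∀ z, |f z| ≤ a)
    (htot : ws (tot D f) = 1) {R : ℤ} (hR : 1 ≤ R) (hRm : 2 * R ≤ m)
    (hq : 144 * (a * K ^ 2 * R ^ 2) ≤ 1) (j : ℕ)
    (hj : 1 ≤ (2 * R : ℝ) / 2 ^ j) (hA : A ∈ pcs ω D) (hsm : Small ((2 * R : ℝ) / 2 ^ j) A) :
    |lw D p f A| ≤ 144 * (a * K ^ 2 * R ^ 2) * (1 / 4) ^ j := by
  have ha : 0 ≤ a := (abs_nonneg _).trans (hf 0)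
  have hq0 : 0 ≤ a * K ^ 2 * R ^ 2 := by positivity
  have h1 := wp_small hG hf htot hR hRm j hj hA hsm
  have h2 : 72 * (a * K ^ 2 * R ^ 2) * (1 / 4) ^ j ≤ 1 / 2 := by
    have h4 : ((1 : ℝ) / 4) ^ j ≤ 1 := pow_le_one₀ (by norm_num) (by norm_num)
    have h3 : 0 ≤ ((1 : ℝ) / 4) ^ j := by positivity
    nlinarith
  have h3 := abs_log_le (h1.trans h2)
  calc |lw D p f A| ≤ 2 * |wp D A (mass D p f A) - 1| := h3
    _ ≤ _ := by linarith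

/-- Linear statistic of the small visiting pieces. -/
noncomputable def Fs (D : Finset (ℤ × ℤ)) (p : ℤ × ℤ) (f : ℤ × ℤ → ℝ) (x : ℤ × ℤ) (L R : ℤ)
    (ω : Cfg) : ℝ := ∑ A ∈ sm D x L (2 * R) ω, lw D p f A

theorem fd_Fs (x : ℤ × ℤ) (L R : ℤ) : Fd (Fs D p f x L R) :=
  fd_sm D x L (2 * R) fun s => ∑ A ∈ s, lw D p f A

/-- The function which replaces `X`. -/
noncomputable def Zf (D : Finset (ℤ × ℤ)) (p : ℤ × ℤ) (f : ℤ × ℤ → ℝ) (x : ℤ × ℤ) (L R : ℤ)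
    (κ : ℝ) (ω : Cfg) : ℝ := (1 - ind (ArmE x L R) ω) * (Real.exp κ * Xo D p f x L ω)

theorem fd_Zf (x : ℤ × ℤ) (L R : ℤ) (κ : ℝ) : Fd (Zf D p f x L R κ) :=
  ((Fd.const (1 : ℝ)).sub (fd_arm x L R)).mul ((fd_Xo x L).comp fun y => Real.exp κ * y)

theorem Zf_loc (x : ℤ × ℤ) (L R : ℤ) (κ : ℝ) :
    LocFun {v : ℤ × ℤ | nm (v - x) ≤ L}ᶜ (Zf D p f x L R κ) := by
  intro o o' h
  have h1 : Xo D p f x L o = Xo D p f x L o' := Xo_loc x L o o' h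
  have h2 : o ∈ ArmE x L R ↔ o' ∈ ArmE x L R := locSet_arm x L R o o' fun v hv => h v (by
    show ¬ nm (v - x) ≤ L
    exact not_le.2 hv.1)
  have h3 : ind (ArmE x L R) o = ind (ArmE x L R) o' := by
    by_cases h4 : o ∈ ArmE x L R
    · rw [ind_mem h4, ind_mem (h2.1 h4)]
    · rw [ind_notMem h4, ind_notMem fun h5 => h4 (h2.2 h5)]
  simp only [Zf, h1, h3]

/-- The pointwise bound. -/
theorem Zf_pt {K m : ℤ} (hG : Geo K m D p) {a : ℝ} (hf : ∀ z, |f z| ≤ a)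
    (htot : ws (tot D f) = 1) {x : ℤ × ℤ} {L R : ℤ} (hL : 1 ≤ L) (hLR : L < R) (hRm : 2 * R ≤ m)
    (hq : 144 * (a * K ^ 2 * R ^ 2) ≤ 1) (κ : ℝ) (ω : Cfg) :
    (XD D p f ω - Zf D p f x L R κ ω) ^ 2 ≤ XD D p f ω ^ 2 * ind (ArmE x L R) ω +
      XD D p f ω ^ 2 * (1 - Real.exp (-(Fs D p f x L R ω - κ))) ^ 2 := by
  classical
  have hR1 : (1 : ℝ) ≤ R := by exact_mod_cast (by omega : (1 : ℤ) ≤ R)
  by_cases hω : ω ∈ ArmE x L R
  · have h1 : Zf D p f x L R κ ω = 0 := by unfold Zf; rw [ind_mem hω]; ring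
    rw [h1, ind_mem hω, sub_zero, mul_one]
    have : 0 ≤ XD D p f ω ^ 2 * (1 - Real.exp (-(Fs D p f x L R ω - κ))) ^ 2 := by positivity
    linarith
  · have h1 : (pcs ω D).filter (fun A => Vis' x L A) = sm D x L (2 * R) ω := by
      ext A
      rw [Finset.mem_filter, mem_sm]
      constructor
      · rintro ⟨h2, h3⟩
        exact ⟨h2, h3, small_of_not_arm hLR h2 h3 hω⟩
      · rintro ⟨h2, h3, -⟩
        exact ⟨h2, h3⟩
    have h2 : XD D p f ω = Real.exp (Fs D p f x L R ω) * Xo D p f x L ω := by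
      have h3 : XD D p f ω = (∏ A ∈ (pcs ω D).filter (fun A => Vis' x L A),
          wp D A (mass D p f A)) * Xo D p f x L ω :=
        (Finset.prod_filter_mul_prod_filter_not _ _ _).symm
      rw [h3, h1]
      congr 1
      unfold Fs
      rw [Real.exp_sum]
      refine Finset.prod_congr rfl fun A hA => ?_
      obtain ⟨h4, -, h5⟩ := mem_sm.1 hA
      have h6 := wp_small hG hf htot (by omega) hRm 0 (by rw [pow_zero, div_one]; linarith) h4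
        (by rw [pow_zero, div_one]; exact h5)
      rw [pow_zero, mul_one] at h6
      unfold lw
      rw [Real.exp_log]
      have := (abs_le.1 h6).1
      linarith
    have h3 : Zf D p f x L R κ ω = XD D p f ω * Real.exp (-(Fs D p f x L R ω - κ)) := by
      unfold Zf
      rw [ind_notMem hω, h2]
      rw [show Real.exp (Fs D p f x L R ω) * Xo D p f x L ω * Real.exp (-(Fs D p f x L R ω - κ)) =
        (Real.exp (Fs D p f x L R ω) * Real.exp (-(Fs D p f x L R ω - κ))) * Xo D p f x L ω by ring,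
        ← Real.exp_add]
      rw [show Fs D p f x L R ω + -(Fs D p f x L R ω - κ) = κ by ring]
      ring
    rw [h3, ind_notMem hω, mul_zero, zero_add, ← mul_pow]
    refine le_of_eq ?_
    congr 1
    ring

theorem lcov_const {s g q B b x y : ℝ} (hB : 0 ≤ B) (hb : 0 ≤ b) (hq : 0 ≤ q) (hg : 0 ≤ g)
    (hx : 0 ≤ x) (hy : 0 ≤ y) (hs : s = x * g) :
    2 * (B * (s + y * (144 * q)) * b) ≤ (2 * (x + 144 * y) + 1) * B * b * (g + q) := by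
  have g4 : 0 ≤ B * b := mul_nonneg hB hb
  subst hs
  calc 2 * (B * (x * g + y * (144 * q)) * b)
      = (B * b) * (2 * (x * g + 144 * y * q)) := by ring
    _ ≤ (B * b) * ((2 * (x + 144 * y) + 1) * (g + q)) := by
        refine mul_le_mul_of_nonneg_left ?_ g4
        nlinarith [mul_nonneg hx hq, mul_nonneg hy hg, mul_nonneg hx hg, mul_nonneg hy hq]
    _ = _ := by ring

theorem second_moment {X Z E : Cfg → ℝ} {G : Set Cfg} (hX : Fd X) (hZ : Fd Z) (hE : Fd E)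
    (hG : Fd (ind G)) {B s e : ℝ} (hs : 0 ≤ s) (he : 0 ≤ e)
    (hXB : ∫ ω, X ω ^ 4 ∂μ ≤ B ^ 4) (hP : ∫ ω, ind G ω ∂μ ≤ (s ^ 2) ^ 2)
    (hE4 : ∫ ω, E ω ^ 4 ∂μ ≤ (e ^ 2) ^ 2)
    (hpt : ∀ ω, (X ω - Z ω) ^ 2 ≤ X ω ^ 2 * ind G ω + X ω ^ 2 * E ω ^ 2) :
    ∫ ω, (X ω - Z ω) ^ 2 ∂μ ≤ (B * (s + e)) ^ 2 := by
  have h0 : ∫ ω, (X ω ^ 2) ^ 2 ∂μ ≤ (B ^ 2) ^ 2 := by
    calc ∫ ω, (X ω ^ 2) ^ 2 ∂μ = ∫ ω, X ω ^ 4 ∂μ := by
          refine integral_congr_ae (Filter.Eventually.of_forall fun ω => ?_)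
          show (X ω ^ 2) ^ 2 = X ω ^ 4
          ring
      _ ≤ B ^ 4 := hXB
      _ = _ := by ring
  have b1 : |∫ ω, X ω ^ 2 * ind G ω ∂μ| ≤ B ^ 2 * s ^ 2 := by
    refine cs_le (hX.pow 2) hG (by positivity) (by positivity) h0 ?_
    calc ∫ ω, ind G ω ^ 2 ∂μ = ∫ ω, ind G ω ∂μ := by simp only [ind_sq]
      _ ≤ _ := hP
  have b2 : |∫ ω, X ω ^ 2 * E ω ^ 2 ∂μ| ≤ B ^ 2 * e ^ 2 := by
    refine cs_le (hX.pow 2) (hE.pow 2) (by positivity) (by positivity) h0 ?_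
    calc ∫ ω, (E ω ^ 2) ^ 2 ∂μ = ∫ ω, E ω ^ 4 ∂μ := by
          refine integral_congr_ae (Filter.Eventually.of_forall fun ω => ?_)
          show (E ω ^ 2) ^ 2 = E ω ^ 4
          ring
      _ ≤ _ := hE4
  calc ∫ ω, (X ω - Z ω) ^ 2 ∂μ
      ≤ ∫ ω, (X ω ^ 2 * ind G ω + X ω ^ 2 * E ω ^ 2) ∂μ :=
        integral_mono ((hX.sub hZ).pow 2).int
          (((hX.pow 2).mul hG).add ((hX.pow 2).mul (hE.pow 2))).int hpt
    _ = ∫ ω, X ω ^ 2 * ind G ω ∂μ + ∫ ω, X ω ^ 2 * E ω ^ 2 ∂μ :=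
        integral_add ((hX.pow 2).mul hG).int ((hX.pow 2).mul (hE.pow 2)).int
    _ ≤ B ^ 2 * s ^ 2 + B ^ 2 * e ^ 2 :=
        add_le_add ((le_abs_self _).trans b1) ((le_abs_self _).trans b2)
    _ ≤ (B * (s + e)) ^ 2 := by
        have : 0 ≤ B ^ 2 * (2 * s * e) := by positivity
        nlinarith

/-- **The functional is asymptotically independent of every local function.** -/
theorem local_cov : ∃ c C β : ℝ, 0 < c ∧ 0 < C ∧ 0 < β ∧ β ≤ 1 ∧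
    ∀ (K m : ℤ) (D : Finset (ℤ × ℤ)) (p : ℤ × ℤ), Geo K m D p → ∀ (f : ℤ × ℤ → ℝ) (a : ℝ),
    (∀ z, |f z| ≤ a) → ws (tot D f) = 1 → ∀ (x : ℤ × ℤ) (L R : ℤ), 1 ≤ L → L < R → 2 * R ≤ m →
    a * K ^ 2 * R ^ 2 ≤ c → ∀ N : Cfg → ℝ, Fd N → LocFun {v : ℤ × ℤ | nm (v - x) ≤ L} N →
    ∀ B b : ℝ, 0 ≤ B → 0 ≤ b → ∫ ω, XD D p f ω ^ 4 ∂μ ≤ B ^ 4 → ∫ ω, N ω ^ 2 ∂μ ≤ b ^ 2 →
    |∫ ω, XD D p f ω * N ω ∂μ - (∫ ω, XD D p f ω ∂μ) * ∫ ω, N ω ∂μ| ≤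
      C * B * b * (((L : ℝ) / R) ^ β + a * K ^ 2 * R ^ 2) := by
  obtain ⟨c, C, hc, hC, hs⟩ := sml_four'
  obtain ⟨Ca, α, hCa, hα, hα1, harm⟩ := armE_le
  refine ⟨min (c / 144) (1 / 144), 2 * (Real.sqrt (Real.sqrt Ca) + 144 * Real.sqrt (Real.sqrt C)) + 1,
    α / 4, by positivity, by positivity, by positivity, by linarith,
    fun K m D p hG f a hf htot x L R hL hLR hRm hc2 N hN hNl B b hB hb hXB hNb => ?_⟩
  have ha : 0 ≤ a := (abs_nonneg _).trans (hf 0)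
  have hq0 : 0 ≤ a * K ^ 2 * R ^ 2 := by positivity
  have hq1 : 144 * (a * K ^ 2 * R ^ 2) ≤ c := by
    have := hc2.trans (min_le_left _ _); linarith
  have hq2 : 144 * (a * K ^ 2 * R ^ 2) ≤ 1 := by
    have := hc2.trans (min_le_right _ _); linarith
  have hR1 : (1 : ℝ) ≤ R := by exact_mod_cast (by omega : (1 : ℤ) ≤ R)
  have hs4 := hs D x L (2 * R) (lw D p f) (144 * (a * K ^ 2 * R ^ 2)) (by linarith) (by linarith)
    (by have : (L : ℝ) ≤ R := by exact_mod_cast hLR.le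
        linarith) (by positivity) hq1
    (fun j ω hj A hA hsm => lw_small hG hf htot (by omega) hRm hq2 j hj hA hsm)
  have hLR' : (0 : ℝ) < (L : ℝ) / R := by
    have : (0 : ℝ) < L := by exact_mod_cast (by omega : 0 < L)
    positivity
  set κ : ℝ := ∫ ω', Fs D p f x L R ω' ∂μ with hκ
  set s : ℝ := Real.sqrt (Real.sqrt (Ca * ((L : ℝ) / R) ^ α)) with hsdef
  have hs0 : 0 ≤ s := Real.sqrt_nonneg _
  have hs2 : (s ^ 2) ^ 2 = Ca * ((L : ℝ) / R) ^ α := by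
    rw [hsdef, Real.sq_sqrt (Real.sqrt_nonneg _), Real.sq_sqrt (by positivity)]
  set e : ℝ := Real.sqrt (Real.sqrt C) * (144 * (a * K ^ 2 * R ^ 2)) with hedef
  have he0 : 0 ≤ e := by positivity
  have he2 : (e ^ 2) ^ 2 = C * (144 * (a * K ^ 2 * R ^ 2)) ^ 4 := by
    have h1 : (Real.sqrt (Real.sqrt C) ^ 2) ^ 2 = C := by
      rw [Real.sq_sqrt (Real.sqrt_nonneg _), Real.sq_sqrt hC]
    have h2 : (e ^ 2) ^ 2 = (Real.sqrt (Real.sqrt C) ^ 2) ^ 2 *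
        (144 * (a * K ^ 2 * R ^ 2)) ^ 4 := by rw [hedef]; ring
    rw [h2, h1]
  have b3 := second_moment (fd_XD D p f) (fd_Zf x L R κ)
    (E := fun ω => 1 - Real.exp (-(Fs D p f x L R ω - κ)))
    ((fd_Fs x L R).comp fun y => 1 - Real.exp (-(y - κ))) (fd_arm x L R) hs0 he0 hXB
    (by rw [hs2]; exact harm x L R hL (by omega)) (by rw [he2]; exact hs4)
    (Zf_pt hG hf htot hL hLR hRm hq2 κ)
  have hmain := cov_le (fd_XD D p f) (fd_Zf x L R κ) hN hNl (Zf_loc x L R κ)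
    (mul_nonneg hB (add_nonneg hs0 he0)) hb b3 hNb
  refine hmain.trans ?_
  refine lcov_const hB hb hq0 (Real.rpow_nonneg hLR'.le _) (Real.sqrt_nonneg _)
    (Real.sqrt_nonneg _) ?_
  rw [hsdef, Real.sqrt_mul hCa.le, Real.sqrt_mul (Real.sqrt_nonneg _)]
  congr 1
  rw [Real.sqrt_eq_rpow, Real.sqrt_eq_rpow, ← Real.rpow_mul (Real.rpow_nonneg hLR'.le _),
    ← Real.rpow_mul hLR'.le]
  congr 1
  ring

end Vale.Agent.P167.H167
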