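import Vale.Agent.P167.H638.L7
import Vale.Agent.P167.H167.Hold

/-!
# P167, block EQUI: majorants of the products over the pieces, moments

`maj_off`: for a neutral charge `f`, `|f| ≤ Cf / n ^ 2`, deep in `D`, the product of the weights of the
pieces, and the products without one factor, are dominated by a variable which does not depend on the
squares of a given ball off the support of `f` and with bounded fourth moment.
-/

namespace Vale.Agent.P167.H167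

open Finset MeasureTheory
open Vale.Agent.P167.BR
open Vale.Agent.P167.H562 (Em)
open Vale.Agent.P167.H638.L (Deep Sf fd_Sf Nb sp wl_ge cel mass_strand sep_iff loop_mem_pcs)

variable {D T : Finset (ℤ × ℤ)} {p : ℤ × ℤ} {ω ω' : Cfg} {A : Finset Ed} {f : ℤ × ℤ → ℝ} {K m : ℤ}

theorem head_mem (hA : A ∈ pcs ω D) : ∃ e ∈ A, hdv e ∈ D := by
  obtain ⟨e, he⟩ := pcs_nonempty hA
  rcases mem_eds.1 (subset_eds hA he) with h | h
  · exact ⟨e, he, h⟩
  · have h1 : hdv (pv ω e) = tlv e := by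
      have := tlv_nx ω (pv ω e)
      rw [nx_pv] at this
      exact this.symm
    refine ⟨pv ω e, ?_, by rw [h1]; exact h⟩
    rw [nx_mem_iff hA (by rw [h1]; exact h), nx_pv]
    exact he

/-- The number of cells. -/
theorem card_cel {X : ℝ} (hD : ∀ v ∈ D, (nm v : ℝ) ≤ X) {L : ℤ} (hL : 1 ≤ L) (hLX : (L : ℝ) ≤ 2 * X) :
    ((cel D L).card : ℝ) ≤ 100 * (X / L) ^ 2 := by
  have hL0 : (0 : ℝ) < L := by exact_mod_cast (by omega : (0 : ℤ) < L)
  have hX0 : 0 < X := by linarith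
  set k : ℤ := ⌈X / L⌉ with hk
  have hk0 : 0 ≤ k := Int.ceil_nonneg (by positivity)
  have hk1 : X / L ≤ k := Int.le_ceil _
  have hk2 : (k : ℝ) ≤ X / L + 1 := (Int.ceil_lt_add_one _).le
  have hcoord : ∀ x : ℤ, (|x| : ℝ) ≤ X → x / L ∈ Finset.Icc (-k - 1) k := by
    intro x hx
    have h1 : (x : ℝ) / L ≤ k := by
      refine le_trans ?_ hk1
      exact div_le_div_of_nonneg_right ((le_abs_self _).trans hx) hL0.le
    have h2 : -(k : ℝ) ≤ (x : ℝ) / L := by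
      rw [neg_le, ← neg_div]
      refine le_trans ?_ hk1
      exact div_le_div_of_nonneg_right ((neg_le_abs _).trans hx) hL0.le
    have h3 : (x : ℝ) ≤ (k * L : ℤ) := by
      rw [div_le_iff₀ hL0] at h1; push_cast; exact h1
    have h4 : ((-k * L : ℤ) : ℝ) ≤ x := by
      rw [le_div_iff₀ hL0] at h2; push_cast; exact h2
    have h5 : x ≤ k * L := by exact_mod_cast h3
    have h6 : -k * L ≤ x := by exact_mod_cast h4
    rw [Finset.mem_Icc]
    constructor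
    · have := Int.le_ediv_of_mul_le (by omega : 0 < L) h6
      omega
    · exact Int.ediv_le_of_le_mul (by omega : 0 < L) h5
  have hsub : cel D L ⊆ Finset.Icc (-k - 1) k ×ˢ Finset.Icc (-k - 1) k := by
    intro b hb
    unfold cel at hb
    obtain ⟨v, hv, rfl⟩ := Finset.mem_image.1 hb
    have h1 := hD v hv
    have h2 : (|v.1| : ℝ) ≤ X := by
      have : (|v.1| : ℤ) ≤ nm v := le_max_left _ _
      have h3 : ((|v.1| : ℤ) : ℝ) ≤ nm v := by exact_mod_cast this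
      rw [Int.cast_abs] at h3
      linarith
    have h3 : (|v.2| : ℝ) ≤ X := by
      have : (|v.2| : ℤ) ≤ nm v := le_max_right _ _
      have h3 : ((|v.2| : ℤ) : ℝ) ≤ nm v := by exact_mod_cast this
      rw [Int.cast_abs] at h3
      linarith
    exact Finset.mem_product.2 ⟨hcoord _ h2, hcoord _ h3⟩
  have hcard := Finset.card_le_card hsub
  rw [Finset.card_product, Int.card_Icc] at hcard
  have h7 : ((k + 1 - (-k - 1)).toNat : ℝ) = 2 * k + 2 := by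
    have : ((k + 1 - (-k - 1)).toNat : ℤ) = 2 * k + 2 := by omega
    exact_mod_cast this
  have h8 : ((cel D L).card : ℝ) ≤ (2 * k + 2) * (2 * k + 2) := by
    rw [← h7]; exact_mod_cast hcard
  refine h8.trans ?_
  have h9 : 1 / 2 ≤ X / L := by
    rw [div_le_div_iff₀ (by norm_num) hL0]; linarith
  have h10 : (0 : ℝ) ≤ k := by exact_mod_cast hk0
  nlinarith

/-- **Exponential moments of the sum of the logarithms of the weights of the small pieces.** -/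
theorem em_Sf : ∃ c C : ℝ, 0 < c ∧ 0 ≤ C ∧ ∀ (K m : ℤ) (D : Finset (ℤ × ℤ)) (p : ℤ × ℤ)
    (f : ℤ × ℤ → ℝ) (a ρ X t : ℝ), Geo K m D p → 1 ≤ ρ → ρ ≤ m → ρ ≤ X →
    (∀ v ∈ D, (nm v : ℝ) ≤ X) → Deep (K * ρ) D f → tot D f = 0 → (∀ z, |f z| ≤ a) →
    9 * K ^ 2 * a * ρ ^ 2 ≤ 1 / 5 → 9 * K ^ 2 * a * ρ ^ 2 * |t| ≤ c →
    Em μ (fun ω => t * Sf D p (fun _ => 0) f ρ ω) ≤
      ENNReal.ofReal (Real.exp (C * (K ^ 2 * a * ρ * X) ^ 2 * (t ^ 2 + |t|))) := by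
  obtain ⟨c, C, hc, hC, h⟩ := sp
  refine ⟨c, C * 8100, hc, by positivity, fun K m D p f a ρ X t hG hρ hρm hρX hX hf htot hfa hs
    ht => ?_⟩
  have ha : 0 ≤ a := (abs_nonneg _).trans (hfa 0)
  have h1 := h K m D D p (fun _ => 0) f ρ (K * ρ) (fun j => 9 * K ^ 2 * a * (ρ / 2 ^ j) ^ 2)
    (fun _ => 0) (9 * K ^ 2 * a * ρ ^ 2) (8100 * (K ^ 2 * a * ρ * X) ^ 2) t hG hρ hρm hf le_rfl htot
    (by positivity) (by positivity) (fun j => by positivity) (fun _ => le_rfl) ?_ ?_ ?_ ?_ ?_ ht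
  · refine h1.trans (le_of_eq ?_)
    congr 2
    ring
  · intro j ω hj A hA hs
    have hp2 : (1 : ℝ) ≤ 2 ^ j := one_le_pow₀ (by norm_num)
    refine ⟨hG.mass_small hA hj ((div_le_self (by linarith) hp2).trans hρm) hs htot hfa, ?_⟩
    rw [H638.L.mass_zero, abs_zero]
  · intro ω A hA _
    exact head_mem hA
  · intro j _
    have hp2 : (1 : ℝ) ≤ 2 ^ j := one_le_pow₀ (by norm_num)
    have h2 : (ρ / 2 ^ j) ^ 2 ≤ ρ ^ 2 :=
      pow_le_pow_left₀ (by positivity) (div_le_self (by linarith) hp2) 2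
    have h3 : 9 * (K : ℝ) ^ 2 * a * (ρ / 2 ^ j) ^ 2 ≤ 9 * K ^ 2 * a * ρ ^ 2 :=
      mul_le_mul_of_nonneg_left h2 (by positivity)
    rw [add_zero]
    exact h3.trans hs
  · intro j _
    have hp2 : (1 : ℝ) ≤ 2 ^ j := one_le_pow₀ (by norm_num)
    have h2 : (ρ / 2 ^ j) ^ 2 = ρ ^ 2 * ((1 / 2) ^ j) ^ 2 := by
      rw [div_pow, one_div, inv_pow, inv_pow]; rfl
    rw [h2]
    have h3 : ((1 / 2 : ℝ) ^ j) ^ 2 ≤ (1 / 2) ^ j := by
      have h4 : (1 / 2 : ℝ) ^ j ≤ 1 := pow_le_one₀ (by norm_num) (by norm_num)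
      have h5 : (0 : ℝ) ≤ (1 / 2 : ℝ) ^ j := by positivity
      nlinarith
    calc 9 * (K : ℝ) ^ 2 * a * (ρ ^ 2 * ((1 / 2) ^ j) ^ 2) =
        9 * K ^ 2 * a * ρ ^ 2 * ((1 / 2) ^ j) ^ 2 := by ring
      _ ≤ _ := mul_le_mul_of_nonneg_left h3 (by positivity)
  · intro j hj
    have hp2 : (1 : ℝ) ≤ 2 ^ j := one_le_pow₀ (by norm_num)
    have hq : (0 : ℝ) < ρ / 2 ^ j := by positivity
    have hqρ : ρ / 2 ^ j ≤ ρ := div_le_self (by linarith) hp2
    have hL1 : (1 : ℤ) ≤ ⌈ρ / 2 ^ j⌉ := by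
      have : (1 : ℝ) ≤ ⌈ρ / 2 ^ j⌉ := hj.trans (Int.le_ceil _)
      exact_mod_cast this
    have hL2 : (⌈ρ / 2 ^ j⌉ : ℝ) ≤ 2 * X := by
      have := Int.ceil_lt_add_one (ρ / 2 ^ j)
      linarith
    have h2 := card_cel hX hL1 hL2
    have h3 : (X / (⌈ρ / 2 ^ j⌉ : ℝ)) ^ 2 ≤ (X / (ρ / 2 ^ j)) ^ 2 := by
      refine pow_le_pow_left₀ (by have : (0:ℝ) ≤ X := by linarith
                                  positivity) ?_ 2
      exact div_le_div_of_nonneg_left (by linarith) hq (Int.le_ceil _)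
    rw [add_zero]
    calc 9 * (K : ℝ) ^ 2 * a * (ρ / 2 ^ j) ^ 2 * (9 * K ^ 2 * a * (ρ / 2 ^ j) ^ 2) *
          ((cel D ⌈ρ / 2 ^ j⌉).card : ℝ) ≤
        9 * (K : ℝ) ^ 2 * a * (ρ / 2 ^ j) ^ 2 * (9 * K ^ 2 * a * (ρ / 2 ^ j) ^ 2) *
          (100 * (X / (ρ / 2 ^ j)) ^ 2) :=
          mul_le_mul_of_nonneg_left (h2.trans (by linarith)) (by positivity)
      _ = 8100 * (K ^ 2 * a * ρ * X) ^ 2 * ((1 / 2) ^ j) ^ 2 := by
          rw [one_div, inv_pow]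
          field_simp
          ring
      _ ≤ 8100 * (K ^ 2 * a * ρ * X) ^ 2 * (1 / 2) ^ j := by
          refine mul_le_mul_of_nonneg_left ?_ (by positivity)
          have h4 : (1 / 2 : ℝ) ^ j ≤ 1 := pow_le_one₀ (by norm_num) (by norm_num)
          have h5 : (0 : ℝ) ≤ (1 / 2 : ℝ) ^ j := by positivity
          nlinarith

/-! ### The sum over the small pieces depends on the squares near the support -/

theorem small_mem (hG : Geo K m D p) {ρ : ℝ} (hρ : 1 ≤ ρ) (hρm : ρ ≤ m) (hf : Deep (K * ρ) D f)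
    (htot : tot D f = 0)
    (h : ∀ z, f z ≠ 0 → ∀ v, (nm (v - z) : ℝ) < ρ → ω v = ω' v) (hA : A ∈ pcs ω D)
    (hs : Small ρ A) (hm : mass D p f A ≠ 0) : A ∈ pcs ω' D := by
  have hl : IsLp D A := by
    by_contra hl
    exact hm (mass_strand hG hA hl hs hρ hρm hf le_rfl htot)
  have hL := BR.IsLp.isLoop hA hl
  -- a surrounded site
  obtain ⟨z, hz, hsep, hfz⟩ : ∃ z ∈ sites D, Sep D A z p ∧ f z ≠ 0 := by
    by_contra hcon
    push Not at hcon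
    apply hm
    unfold mass
    refine Finset.sum_eq_zero fun z hz => ?_
    split_ifs with h1
    · exact hcon z hz h1
    · rfl
  have hin := (sep_iff hG hL hA hl hs hρm hz).1 hsep
  have hnear : ∀ v ∈ vs A, (nm (v - z) : ℝ) < ρ := fun v hv =>
    H135.near_ins hL hs hin hv
  exact (loop_mem_pcs (s_loc ω ω' A hL fun v hv => h z hfz v (hnear v hv)) fun e he =>
    hl e he).1

theorem Sf_off (hG : Geo K m D p) {ρ : ℝ} (hρ : 1 ≤ ρ) (hρm : ρ ≤ m) (hf : Deep (K * ρ) D f)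
    (htot : tot D f = 0)
    (h : ∀ z, f z ≠ 0 → ∀ v, (nm (v - z) : ℝ) < ρ → ω v = ω' v) :
    Sf D p (fun _ => 0) f ρ ω = Sf D p (fun _ => 0) f ρ ω' := by
  classical
  have key : ∀ ω : Cfg, Sf D p (fun _ => 0) f ρ ω =
      ∑ A ∈ (pcs ω D).filter (fun A => Small ρ A ∧ mass D p f A ≠ 0),
        (Real.log (wp D A (mass D p (fun _ => 0) A + mass D p f A)) -
          Real.log (wp D A (mass D p (fun _ => 0) A))) := by
    intro ω
    unfold Sf
    rw [← Finset.filter_filter]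
    symm
    refine Finset.sum_subset (Finset.filter_subset _ _) fun A hA hA' => ?_
    have h0 : mass D p f A = 0 := by
      by_contra hcon
      exact hA' (Finset.mem_filter.2 ⟨hA, hcon⟩)
    rw [h0, add_zero, sub_self]
  rw [key ω, key ω']
  refine Finset.sum_congr ?_ fun _ _ => rfl
  ext A
  simp only [Finset.mem_filter]
  constructor
  · rintro ⟨h1, h2, h3⟩
    exact ⟨small_mem hG hρ hρm hf htot h h1 h2 h3, h2, h3⟩
  · rintro ⟨h1, h2, h3⟩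
    exact ⟨small_mem hG hρ hρm hf htot (fun z hz v hv => (h z hz v hv).symm) h1 h2 h3, h2, h3⟩

/-! ### The products -/

/-- The weights of the small pieces. -/
theorem wp_ge_small (hG : Geo K m D p) {ρ : ℝ} (hρ : 1 ≤ ρ) (hρm : ρ ≤ m) (hf : Deep (K * ρ) D f)
    (htot : tot D f = 0) {a : ℝ} (hfa : ∀ z, |f z| ≤ a) (hs : 9 * K ^ 2 * a * ρ ^ 2 ≤ 1 / 5)
    (hA : A ∈ pcs ω D) (hsm : Small ρ A) : 3 / 5 ≤ wp D A (mass D p f A) := by
  by_cases hl : IsLp D A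
  · unfold wp
    rw [if_pos hl]
    exact wl_ge ((hG.mass_small hA hρ hρm hsm htot hfa).trans hs)
  · rw [mass_strand hG hA hl hsm hρ hρm hf le_rfl htot, H638.L.wp_zero]
    norm_num

theorem maj_XD (hG : Geo K m D p) {ρ : ℝ} (hρ : 1 ≤ ρ) (hρm : ρ ≤ m) (hf : Deep (K * ρ) D f)
    (htot : tot D f = 0) {a : ℝ} (hfa : ∀ z, |f z| ≤ a) (hs : 9 * K ^ 2 * a * ρ ^ 2 ≤ 1 / 5)
    (ω : Cfg) : |XD D p f ω| ≤ 2 ^ Nb D ρ ω * Real.exp (Sf D p (fun _ => 0) f ρ ω) := by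
  have h1 : H638.L.Pos D p f ρ ω := fun A hA hsm => by
    have := wp_ge_small hG hρ hρm hf htot hfa hs hA hsm
    linarith
  rw [H638.L.XD_eq h1, abs_mul, abs_of_pos (Real.exp_pos _), mul_comm]
  exact mul_le_mul_of_nonneg_right (H638.L.abs_Pb ρ) (Real.exp_pos _).le

theorem maj_erase (hG : Geo K m D p) {ρ : ℝ} (hρ : 1 ≤ ρ) (hρm : ρ ≤ m) (hf : Deep (K * ρ) D f)
    (htot : tot D f = 0) {a : ℝ} (hfa : ∀ z, |f z| ≤ a) (hs : 9 * K ^ 2 * a * ρ ^ 2 ≤ 1 / 5)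
    (hA : A ∈ pcs ω D) : |∏ B ∈ (pcs ω D).erase A, wp D B (mass D p f B)| ≤
      2 * (2 ^ Nb D ρ ω * Real.exp (Sf D p (fun _ => 0) f ρ ω)) := by
  classical
  have hpos : ∀ B ∈ pcs ω D, Small ρ B → 3 / 5 ≤ wp D B (mass D p f B) := fun B hB hsm =>
    wp_ge_small hG hρ hρm hf htot hfa hs hB hsm
  have hY : 0 ≤ 2 ^ Nb D ρ ω * Real.exp (Sf D p (fun _ => 0) f ρ ω) := by positivity
  by_cases hsm : Small ρ A
  · have h1 := maj_XD hG hρ hρm hf htot hfa hs ω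
    have h2 := hpos A hA hsm
    have h3 : XD D p f ω = wp D A (mass D p f A) *
        ∏ B ∈ (pcs ω D).erase A, wp D B (mass D p f B) :=
      (Finset.mul_prod_erase (pcs ω D) (fun B => wp D B (mass D p f B)) hA).symm
    rw [h3, abs_mul, abs_of_pos (by linarith)] at h1
    have h4 := abs_nonneg (∏ B ∈ (pcs ω D).erase A, wp D B (mass D p f B))
    nlinarith
  · rw [← Finset.prod_filter_mul_prod_filter_not _ (Small ρ), abs_mul]
    have e1 : ((pcs ω D).erase A).filter (Small ρ) = (pcs ω D).filter (Small ρ) := by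
      ext B
      simp only [Finset.mem_filter, Finset.mem_erase]
      constructor
      · rintro ⟨⟨-, h1⟩, h2⟩; exact ⟨h1, h2⟩
      · rintro ⟨h1, h2⟩
        exact ⟨⟨fun h => hsm (h ▸ h2), h1⟩, h2⟩
    have e2 : ∏ B ∈ (pcs ω D).filter (Small ρ), wp D B (mass D p f B) =
        Real.exp (Sf D p (fun _ => 0) f ρ ω) := by
      unfold Sf
      rw [Real.exp_sum]
      refine Finset.prod_congr rfl fun B hB => ?_
      obtain ⟨h1, h2⟩ := Finset.mem_filter.1 hB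
      rw [H638.L.mass_zero, zero_add, H638.L.wp_zero, Real.log_one, sub_zero, Real.exp_log]
      have := hpos B h1 h2
      linarith
    rw [e1, e2, abs_of_pos (Real.exp_pos _)]
    have h3 : |∏ B ∈ ((pcs ω D).erase A).filter (fun B => ¬ Small ρ B), wp D B (mass D p f B)| ≤
        2 ^ Nb D ρ ω := by
      refine (H638.L.abs_prod_le _ fun B _ => abs_wp_le D B _).trans ?_
      refine pow_le_pow_right₀ (by norm_num) (Finset.card_le_card ?_)
      exact Finset.filter_subset_filter _ (Finset.erase_subset _ _)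
    have h4 := Real.exp_pos (Sf D p (fun _ => 0) f ρ ω)
    nlinarith [abs_nonneg (∏ B ∈ ((pcs ω D).erase A).filter (fun B => ¬ Small ρ B),
      wp D B (mass D p f B))]

/-- The number of the macroscopic pieces. -/
theorem Nb_le {X ρ : ℝ} (hD : ∀ v ∈ D, (nm v : ℝ) ≤ X) {N : ℕ} (hN : H945.Maj 0 (X + 1) ρ ω N) :
    Nb D ρ ω ≤ N := by
  classical
  refine hN _ (fun γ hγ => isSeg (Finset.mem_filter.1 hγ).1) (fun γ hγ γ' hγ' hne => ?_)
    fun γ hγ => ?_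
  · rw [Finset.disjoint_left]
    intro e he he'
    exact hne (eq_of_mem_pcs (Finset.mem_filter.1 hγ).1 (Finset.mem_filter.1 hγ').1 he he')
  · obtain ⟨h1, h2⟩ := Finset.mem_filter.1 hγ
    constructor
    · obtain ⟨e, he, h3⟩ := head_mem h1
      refine ⟨e, he, ?_⟩
      rw [sub_zero]
      linarith [hD _ h3]
    · unfold Small at h2
      push Not at h2
      obtain ⟨u, hu, v, hv, h3⟩ := h2
      unfold vs at hu hv
      obtain ⟨a, ha, rfl⟩ := Finset.mem_image.1 hu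
      obtain ⟨b, hb, rfl⟩ := Finset.mem_image.1 hv
      exact ⟨a, ha, b, hb, h3⟩

theorem int_of_lint {F : Cfg → ℝ} (hF : Fd F) (h0 : ∀ ω, 0 ≤ F ω) {C : ℝ} (hC : 0 ≤ C)
    (h : ∫⁻ ω, ENNReal.ofReal (F ω) ∂μ ≤ ENNReal.ofReal C) : ∫ ω, F ω ∂μ ≤ C := by
  have h1 : ENNReal.ofReal (∫ ω, F ω ∂μ) ≤ ENNReal.ofReal C := by
    rw [ofReal_integral_eq_lintegral_ofReal hF.int (Filter.Eventually.of_forall h0)]
    exact h
  exact (ENNReal.ofReal_le_ofReal_iff hC).1 h1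

/-- **The majorant.** -/
theorem maj_off (K : ℕ) (hK : 1 ≤ K) (R Cf : ℝ) (hR : 1 ≤ R) (hCf : 0 < Cf) :
    ∃ κ0 : ℝ, 0 < κ0 ∧ ∀ κ : ℝ, 0 < κ → κ ≤ κ0 → ∀ r1 : ℝ, 0 < r1 →
    ∃ ε C n0 : ℝ, 0 < ε ∧ ε ≤ r1 ∧ 0 < C ∧ 0 < n0 ∧
    ∀ n : ℝ, n0 ≤ n → ∀ (m : ℤ) (D : Finset (ℤ × ℤ)) (p : ℤ × ℤ) (f : ℤ × ℤ → ℝ),
    Geo K m D p → κ * n ≤ m → (∀ v ∈ D, (nm v : ℝ) ≤ R * n) → (∀ z, |f z| ≤ Cf / n ^ 2) →
    tot D f = 0 → Deep (K * (κ * n)) D f → ∀ u : ℤ × ℤ,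
    (∀ z, f z ≠ 0 → (κ + ε) * n ≤ (nm (z - u) : ℝ)) →
    ∃ Y : Cfg → ℝ, Fd Y ∧ (∀ ω ω', (∀ v, ε * n < (nm (v - u) : ℝ) → ω v = ω' v) → Y ω = Y ω') ∧
      (∀ ω, |XD D p f ω| ≤ Y ω) ∧
      (∀ ω, ∀ A ∈ pcs ω D, 2 * |∏ B ∈ (pcs ω D).erase A, wp D B (mass D p f B)| ≤ Y ω) ∧
      ∫ ω, Y ω ^ 4 ∂μ ≤ C := by
  obtain ⟨c, C0, hc, hC0, hem⟩ := em_Sf
  have hKR : (1 : ℝ) ≤ K := by exact_mod_cast hK
  -- the choice of `κ0`
  set κ0 : ℝ := min 1 (min (1 / 5 / (9 * K ^ 2 * Cf)) (c / 8 / (9 * K ^ 2 * Cf))) with hκ0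
  refine ⟨κ0, by positivity, fun κ hκ hκκ r1 hr1 => ?_⟩
  have hκ1 : κ ≤ 1 := hκκ.trans (min_le_left _ _)
  have hκ2 : 9 * (K : ℝ) ^ 2 * Cf * κ ^ 2 ≤ 1 / 5 := by
    have h1 : κ ≤ 1 / 5 / (9 * K ^ 2 * Cf) := hκκ.trans ((min_le_right _ _).trans (min_le_left _ _))
    rw [le_div_iff₀ (by positivity)] at h1
    have h2 : κ ^ 2 ≤ κ := by nlinarith
    calc 9 * (K : ℝ) ^ 2 * Cf * κ ^ 2 ≤ 9 * K ^ 2 * Cf * κ :=
          mul_le_mul_of_nonneg_left h2 (by positivity)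
      _ ≤ 1 / 5 := by linarith
  have hκ3 : 9 * (K : ℝ) ^ 2 * Cf * κ ^ 2 * 8 ≤ c := by
    have h1 : κ ≤ c / 8 / (9 * K ^ 2 * Cf) := hκκ.trans ((min_le_right _ _).trans (min_le_right _ _))
    rw [le_div_iff₀ (by positivity)] at h1
    have h2 : κ ^ 2 ≤ κ := by nlinarith
    have h3 : 9 * (K : ℝ) ^ 2 * Cf * κ ^ 2 ≤ 9 * K ^ 2 * Cf * κ :=
      mul_le_mul_of_nonneg_left h2 (by positivity)
    linarith
  obtain ⟨ε', C1, ρ0, hε', hC1, hρ0, hmac⟩ := H945.macroS κ (R + 1) (Real.log 256) 1 hκ (by linarith)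
  set ε : ℝ := min ε' r1 with hεd
  have hε : 0 < ε := by positivity
  set C2 : ℝ := Real.exp (C0 * (K ^ 2 * Cf * κ * R) ^ 2 * (8 ^ 2 + 8)) with hC2
  refine ⟨ε, 128 * (C1 + C2) * 2, max ρ0 (1 / κ), hε, min_le_right _ _, by positivity, by positivity,
    fun n hn m D p f hG hnm hD hfa htot hdeep u hu => ?_⟩
  have hn0 : ρ0 ≤ n := (le_max_left _ _).trans hn
  have hn1 : 1 ≤ κ * n := by
    have h1 : 1 / κ ≤ n := (le_max_right _ _).trans hn
    rw [div_le_iff₀ hκ] at h1; linarith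
  have hnpos : 0 < n := lt_of_lt_of_le hρ0 hn0
  have hn1' : 1 ≤ n := by nlinarith
  obtain ⟨N, hN1, hN2, hN3⟩ := hmac n hn0 0 (fun _ => u)
  have hsm : 9 * ((K : ℤ) : ℝ) ^ 2 * (Cf / n ^ 2) * (κ * n) ^ 2 ≤ 1 / 5 := by
    have e : 9 * ((K : ℤ) : ℝ) ^ 2 * (Cf / n ^ 2) * (κ * n) ^ 2 = 9 * (K : ℝ) ^ 2 * Cf * κ ^ 2 := by
      push_cast; field_simp
    rw [e]; exact hκ2
  have hdeep' : Deep (((K : ℤ) : ℝ) * (κ * n)) D f := by simpa using hdeep
  have hNb : ∀ ω, Nb D (κ * n) ω ≤ N ω := fun ω => by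
    refine Nb_le (X := R * n) hD ?_
    intro 𝓕 h1 h2 h3
    refine hN2 ω 𝓕 h1 h2 fun γ hγ => ?_
    obtain ⟨⟨e, he, h4⟩, h5⟩ := h3 γ hγ
    refine ⟨⟨e, he, h4.trans ?_⟩, h5⟩
    nlinarith
  have hfN : Fd N := by
    refine ⟨(Finset.Icc (-⌈(R + 1 + κ) * n⌉) ⌈(R + 1 + κ) * n⌉ ×ˢ
      Finset.Icc (-⌈(R + 1 + κ) * n⌉) ⌈(R + 1 + κ) * n⌉), fun ω ω' h => ?_⟩
    refine hN1 ω ω' fun v hv _ => h v ?_
    rw [sub_zero] at hv
    have h1 : nm v ≤ ⌈(R + 1 + κ) * n⌉ := by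
      have : (nm v : ℝ) ≤ ⌈(R + 1 + κ) * n⌉ := hv.trans (Int.le_ceil _)
      exact_mod_cast this
    rw [H45.nm_le, abs_le, abs_le] at h1
    simp only [Finset.coe_product, Finset.coe_Icc, Set.mem_prod, Set.mem_Icc]
    exact h1
  have hfS := fd_Sf D p (fun _ => 0) f (κ * n)
  set S : Cfg → ℝ := Sf D p (fun _ => 0) f (κ * n) with hS
  have hle : ∀ ω, 2 ^ Nb D (κ * n) ω * Real.exp (S ω) ≤ 2 ^ N ω * Real.exp (S ω) := fun ω =>
    mul_le_mul_of_nonneg_right (pow_le_pow_right₀ (by norm_num) (hNb ω)) (Real.exp_pos _).le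
  refine ⟨fun ω => 4 * (2 ^ N ω * Real.exp (S ω)), ?_, ?_, ?_, ?_, ?_⟩
  · exact hfN.comp₂ hfS fun a b => 4 * (2 ^ a * Real.exp b)
  · intro ω ω' h
    have h1 : N ω = N ω' := hN1 ω ω' fun v _ hv => h v (by
      have h0 := hv 0
      have h9 : ε * n ≤ ε' * n := mul_le_mul_of_nonneg_right (min_le_left _ _) hnpos.le
      linarith)
    have h2 : S ω = S ω' := by
      refine Sf_off hG hn1 hnm hdeep' htot fun z hz v hv => h v ?_
      have h3 := hu z hz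
      have h4 : nm (z - u) ≤ nm (z - v) + nm (v - u) := H45.nm_sub_le z v u
      have h5 : (nm (z - u) : ℝ) ≤ nm (z - v) + nm (v - u) := by exact_mod_cast h4
      rw [H45.nm_sub_comm z v] at h5
      nlinarith
    simp only [h1, h2]
  · intro ω
    have h1 := maj_XD hG hn1 hnm hdeep' htot hfa hsm ω
    have h2 := hle ω
    have h3 : 0 ≤ 2 ^ N ω * Real.exp (S ω) := by positivity
    linarith
  · intro ω A hA
    have h1 := maj_erase hG hn1 hnm hdeep' htot hfa hsm hA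
    have h2 := hle ω
    linarith
  · have hb : ∀ ω, (4 * (2 ^ N ω * Real.exp (S ω))) ^ 4 ≤
        128 * (256 ^ N ω + Real.exp (8 * S ω)) := by
      intro ω
      have e1 : (4 * (2 ^ N ω * Real.exp (S ω))) ^ 4 =
          256 * ((16 : ℝ) ^ N ω * Real.exp (4 * S ω)) := by
        rw [mul_pow, mul_pow, ← pow_mul, mul_comm (N ω) 4, pow_mul, ← Real.exp_nat_mul]
        norm_num
      have e2 : (256 : ℝ) ^ N ω = ((16 : ℝ) ^ N ω) ^ 2 := by
        rw [← pow_mul, mul_comm (N ω) 2, pow_mul]; norm_num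
      have e3 : Real.exp (8 * S ω) = Real.exp (4 * S ω) ^ 2 := by
        rw [← Real.exp_nat_mul]; congr 1; push_cast; ring
      rw [e1, e2, e3]
      nlinarith [sq_nonneg ((16 : ℝ) ^ N ω - Real.exp (4 * S ω))]
    have f1 : Fd (fun ω => (256 : ℝ) ^ N ω) := hfN.comp fun k => (256 : ℝ) ^ k
    have f2 : Fd (fun ω => Real.exp (8 * S ω)) := hfS.comp fun x => Real.exp (8 * x)
    have f3 : Fd (fun ω => (4 * (2 ^ N ω * Real.exp (S ω))) ^ 4) :=
      hfN.comp₂ hfS fun a b => (4 * (2 ^ a * Real.exp b)) ^ 4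
    have i1 : ∫ ω, (256 : ℝ) ^ N ω ∂μ ≤ C1 := by
      refine int_of_lint f1 (fun ω => by positivity) hC1.le ?_
      refine le_trans (lintegral_mono fun ω => ENNReal.ofReal_le_ofReal ?_) hN3
      rw [mul_comm (Real.log 256), Real.exp_nat_mul, Real.exp_log (by norm_num)]
    have i2 : ∫ ω, Real.exp (8 * S ω) ∂μ ≤ C2 := by
      refine int_of_lint f2 (fun ω => (Real.exp_pos _).le) (Real.exp_pos _).le ?_
      have h1 := hem K m D p f (Cf / n ^ 2) (κ * n) (R * n) 8 hG hn1 hnm (by nlinarith) hD hdeep'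
        htot hfa hsm (by
          have e : 9 * ((K : ℤ) : ℝ) ^ 2 * (Cf / n ^ 2) * (κ * n) ^ 2 * |(8 : ℝ)| =
              9 * (K : ℝ) ^ 2 * Cf * κ ^ 2 * 8 := by
            rw [abs_of_pos (by norm_num : (0 : ℝ) < 8)]
            push_cast; field_simp
          rw [e]; exact hκ3)
      refine h1.trans (le_of_eq ?_)
      rw [hC2]
      congr 2
      rw [abs_of_pos (by norm_num : (0 : ℝ) < 8)]
      have e : ((K : ℤ) : ℝ) ^ 2 * (Cf / n ^ 2) * (κ * n) * (R * n) = K ^ 2 * Cf * κ * R := by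
        push_cast; field_simp
      rw [e]
    calc ∫ ω, (4 * (2 ^ N ω * Real.exp (S ω))) ^ 4 ∂μ ≤
        ∫ ω, 128 * (256 ^ N ω + Real.exp (8 * S ω)) ∂μ :=
          integral_mono f3.int ((f1.add f2).int.const_mul 128) hb
      _ = 128 * (∫ ω, (256 : ℝ) ^ N ω ∂μ + ∫ ω, Real.exp (8 * S ω) ∂μ) := by
          rw [integral_const_mul, integral_add f1.int f2.int]
      _ ≤ 128 * (C1 + C2) * 2 := by
          have : 0 ≤ C1 + C2 := by positivity
          linarith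

end Vale.Agent.P167.H167
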