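import Vale.Agent.P167.BR.Basic
import Vale.Agent.P167.H945.Seg
import Vale.Agent.P167.H45.Cnt

/-!
# P167, block EQUI: small pieces of a finite domain, geometric hypotheses
-/

namespace Vale.Agent.P167.H167

open Finset
open Vale.Agent.P167.BR

variable {D : Finset (ℤ × ℤ)} {p : ℤ × ℤ} {f : ℤ × ℤ → ℝ} {ω ω' : Cfg} {A : Finset Ed}

/-! ### Paths of sites -/

/-- Neighbouring sites, on the two sides of an edge of `D` with the property `P`. -/
def St (D : Finset (ℤ × ℤ)) (P : Ed → Prop) (a b : ℤ × ℤ) : Prop :=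
  ∃ e ∈ eds D, P e ∧ ((a = ls e ∧ b = rs e) ∨ (a = rs e ∧ b = ls e))

/-- Sites joined through edges of `D` with the property `P`. -/
def Jn (D : Finset (ℤ × ℤ)) (P : Ed → Prop) : ℤ × ℤ → ℤ × ℤ → Prop :=
  Relation.ReflTransGen (St D P)

theorem pot_jn {u : ℤ × ℤ → ℤ} (hu : PotD D A u) {P : Ed → Prop} (hP : ∀ e ∈ A, ¬ P e)
    {z z' : ℤ × ℤ} (h : Jn D P z z') : u z = u z' := by
  induction h with
  | refl => rfl
  | tail _ h ih =>
    obtain ⟨e, he, hPe, h⟩ := h
    have h1 := hu e he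
    rw [if_neg fun hA => hP e hA hPe, add_zero] at h1
    rcases h with ⟨rfl, rfl⟩ | ⟨rfl, rfl⟩
    · rw [ih, h1]
    · rw [ih, h1]

theorem Jn.mono {P Q : Ed → Prop} (h : ∀ e, P e → Q e) {z z' : ℤ × ℤ} (hz : Jn D P z z') :
    Jn D Q z z' := by
  induction hz with
  | refl => exact Relation.ReflTransGen.refl
  | tail _ h1 ih =>
    obtain ⟨e, he, hP, h2⟩ := h1
    exact Relation.ReflTransGen.tail ih ⟨e, he, h e hP, h2⟩

theorem Jn.symm {P : Ed → Prop} {z z' : ℤ × ℤ} (hz : Jn D P z z') : Jn D P z' z := by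
  induction hz with
  | refl => exact Relation.ReflTransGen.refl
  | tail _ h ih =>
    obtain ⟨e, he, hP, h⟩ := h
    exact Relation.ReflTransGen.head ⟨e, he, hP, by tauto⟩ ih

/-- Geometric hypotheses on a domain up to the scale `m`. -/
structure Geo (K m : ℤ) (D : Finset (ℤ × ℤ)) (p : ℤ × ℤ) : Prop where
  one_le : 1 ≤ K
  mpos : 1 ≤ m
  far : ∀ (x : ℤ × ℤ) (s : ℤ), 1 ≤ s → s ≤ m → ∀ z ∈ sites D, ∀ z' ∈ sites D,
    K * s < nm (z - x) → K * s < nm (z' - x) → Jn D (fun e => s < nm (hdv e - x)) z z'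
  near : ∀ z ∈ sites D, ∀ z' ∈ sites D, ∀ r : ℤ, 1 ≤ r → r ≤ m → nm (z - z') ≤ r →
    Jn D (fun e => nm (hdv e - z) ≤ K * r) z z'
  hp : p ∈ sites D
  bd : ∃ q ∈ sites D, 2 * (K * m) < nm (q - p) ∧ Jn D (fun e => hdv e ∉ D ∨ tlv e ∉ D) p q

theorem IsLp.tl (hA : A ∈ pcs ω D) (hl : IsLp D A) {e : Ed} (he : e ∈ A) : tlv e ∈ D := by
  have h := BR.IsLp.isLoop hA hl
  have h1 := h.pv_mem_iff.2 he
  have h2 := hl _ h1
  rwa [← tlv_nx ω, nx_pv] at h2

/-! ### Separation -/

/-- The charge of all sites. -/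
noncomputable def tot (D : Finset (ℤ × ℤ)) (f : ℤ × ℤ → ℝ) : ℝ := ∑ z ∈ sites D, f z

/-- All heads of `A` are within `s` of `x`. -/
def Wi (x : ℤ × ℤ) (s : ℤ) (A : Finset Ed) : Prop := ∀ e ∈ A, nm (hdv e - x) ≤ s

theorem Geo.pot_far {K m : ℤ} (hG : Geo K m D p) {x : ℤ × ℤ} {s : ℤ} (hs : 1 ≤ s) (hsm : s ≤ m)
    (hA : Wi x s A) {u : ℤ × ℤ → ℤ} (hu : PotD D A u) {z z' : ℤ × ℤ} (hz : z ∈ sites D)
    (hz' : z' ∈ sites D) (h1 : K * s < nm (z - x)) (h2 : K * s < nm (z' - x)) : u z = u z' :=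
  pot_jn hu (fun e he => not_lt.2 (hA e he)) (hG.far x s hs hsm z hz z' hz' h1 h2)

/-- A small piece separates a site from `p` in the same way for all far sites. -/
theorem Geo.sep_far {K m : ℤ} (hG : Geo K m D p) {x : ℤ × ℤ} {s : ℤ} (hs : 1 ≤ s) (hsm : s ≤ m)
    (hA : Wi x s A) {z z' : ℤ × ℤ} (hz : z ∈ sites D) (hz' : z' ∈ sites D)
    (h1 : K * s < nm (z - x)) (h2 : K * s < nm (z' - x)) : Sep D A z p → Sep D A z' p := by
  rintro ⟨u, hu, h⟩
  exact ⟨u, hu, by rwa [← hG.pot_far hs hsm hA hu hz hz' h1 h2]⟩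

/-- A small loop does not separate far sites from `p`. -/
theorem Geo.sep_loop {K m : ℤ} (hG : Geo K m D p) {x : ℤ × ℤ} {s : ℤ} (hs : 1 ≤ s) (hsm : s ≤ m)
    (hA : Wi x s A) (hAp : A ∈ pcs ω D) (hl : IsLp D A) {z : ℤ × ℤ} (hz : z ∈ sites D)
    (h1 : K * s < nm (z - x)) : ¬ Sep D A z p := by
  rintro ⟨u, hu, h⟩
  apply h
  by_cases hp : K * s < nm (p - x)
  · exact hG.pot_far hs hsm hA hu hz hG.hp h1 hp
  · obtain ⟨q, hq, hqp, hj⟩ := hG.bd
    have hqx : K * s < nm (q - x) := by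
      have h2 := H45.nm_sub_le q x p
      have h3 := H45.nm_sub_comm x p
      have h4 : K * s ≤ K * m := mul_le_mul_of_nonneg_left hsm (by linarith [hG.one_le])
      push Not at hp
      linarith
    rw [hG.pot_far hs hsm hA hu hz hq h1 hqx]
    refine (pot_jn hu (fun e he => ?_) hj).symm
    push Not
    exact ⟨hl e he, IsLp.tl hAp hl he⟩

/-- Sites near `x`. -/
noncomputable def nr (D : Finset (ℤ × ℤ)) (x : ℤ × ℤ) (R : ℤ) : Finset (ℤ × ℤ) :=
  (sites D).filter (fun z => nm (z - x) ≤ R)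

open Classical in
/-- The mass of a small piece is almost `0` or almost the total charge. -/
theorem Geo.mass_le {K m : ℤ} (hG : Geo K m D p) {x : ℤ × ℤ} {s : ℤ} (hs : 1 ≤ s) (hsm : s ≤ m)
    (hA : Wi x s A) (hAp : A ∈ pcs ω D) (f : ℤ × ℤ → ℝ) :
    ∃ τ : ℝ, (τ = 0 ∨ τ = tot D f ∧ ¬ IsLp D A) ∧
      |mass D p f A - τ| ≤ ∑ z ∈ nr D x (K * s), |f z| := by
  have hsplit : ∀ g : ℤ × ℤ → ℝ, ∑ z ∈ sites D, g z =
      ∑ z ∈ nr D x (K * s), g z + ∑ z ∈ (sites D).filter (fun z => ¬ nm (z - x) ≤ K * s), g z :=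
    fun g => (Finset.sum_filter_add_sum_filter_not (sites D) _ g).symm
  by_cases h : ∃ z ∈ sites D, K * s < nm (z - x) ∧ Sep D A z p
  · obtain ⟨z0, hz0, h0, hs0⟩ := h
    refine ⟨tot D f, Or.inr ⟨rfl, fun hl => hG.sep_loop hs hsm hA hAp hl hz0 h0 hs0⟩, ?_⟩
    unfold mass tot
    rw [← Finset.sum_sub_distrib, hsplit]
    have h2 : ∑ z ∈ (sites D).filter (fun z => ¬ nm (z - x) ≤ K * s),
        ((if Sep D A z p then f z else 0) - f z) = 0 := by
      refine Finset.sum_eq_zero fun z hz => ?_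
      obtain ⟨hz1, hz2⟩ := Finset.mem_filter.1 hz
      rw [if_pos (hG.sep_far hs hsm hA hz0 hz1 h0 (not_le.1 hz2) hs0), sub_self]
    rw [h2, add_zero]
    refine (Finset.abs_sum_le_sum_abs _ _).trans (Finset.sum_le_sum fun z _ => ?_)
    split_ifs
    · simp
    · simp
  · push Not at h
    refine ⟨0, Or.inl rfl, ?_⟩
    unfold mass
    rw [sub_zero, hsplit]
    have h2 : ∑ z ∈ (sites D).filter (fun z => ¬ nm (z - x) ≤ K * s),
        (if Sep D A z p then f z else 0) = 0 := by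
      refine Finset.sum_eq_zero fun z hz => ?_
      obtain ⟨hz1, hz2⟩ := Finset.mem_filter.1 hz
      rw [if_neg (h z hz1 (not_le.1 hz2))]
    rw [h2, add_zero]
    refine (Finset.abs_sum_le_sum_abs _ _).trans (Finset.sum_le_sum fun z _ => ?_)
    split_ifs
    · exact le_rfl
    · simp

theorem nr_card (D : Finset (ℤ × ℤ)) (x : ℤ × ℤ) {R : ℤ} (hR : 0 ≤ R) :
    ((nr D x R).card : ℝ) ≤ (2 * R + 1) ^ 2 := by
  have h1 : nr D x R ⊆ H166.bxx x R := fun z hz => H166.mem_bxx.2 (Finset.mem_filter.1 hz).2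
  have h2 : ((H166.bxx x R).card : ℤ) = (2 * R + 1) ^ 2 := by
    unfold H166.bxx
    rw [Finset.card_product, Int.card_Icc, Int.card_Icc]
    push_cast
    rw [Int.toNat_of_nonneg (by linarith), Int.toNat_of_nonneg (by linarith)]
    ring
  calc ((nr D x R).card : ℝ) ≤ ((H166.bxx x R).card : ℝ) := by
        exact_mod_cast Finset.card_le_card h1
    _ = (((H166.bxx x R).card : ℤ) : ℝ) := by push_cast; rfl
    _ = _ := by rw [h2]; push_cast; ring

/-! ### Weights -/

theorem cos_third : Real.cos (Real.pi / 3) = 1 / 2 := Real.cos_pi_div_three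

theorem wl_zero : wl 0 = 1 := by
  unfold wl
  rw [add_zero, div_self]
  rw [cos_third]; norm_num

theorem ws_zero : ws 0 = 1 := by
  unfold ws
  rw [add_zero, div_self]
  rw [Real.cos_pi_div_six]; positivity

theorem cos_lip (a b : ℝ) : |Real.cos a - Real.cos b| ≤ |a - b| := by
  have h := Real.cos_sub_cos a b
  rw [h]
  have h1 := Real.abs_sin_le_one ((a + b) / 2)
  have h2 : |Real.sin ((a - b) / 2)| ≤ |(a - b) / 2| := Real.abs_sin_le_abs
  rw [abs_mul, abs_mul, abs_neg, abs_two]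
  rw [abs_div, abs_two] at h2
  calc 2 * |Real.sin ((a + b) / 2)| * |Real.sin ((a - b) / 2)|
      ≤ 2 * 1 * (|a - b| / 2) := by
        refine mul_le_mul (mul_le_mul_of_nonneg_left h1 (by norm_num)) h2 (abs_nonneg _) (by norm_num)
    _ = _ := by ring

theorem half_le_cos_six : 1 / 2 ≤ Real.cos (Real.pi / 6) := by
  rw [Real.cos_pi_div_six]
  have : (1 : ℝ) ≤ √3 := by
    rw [show (1 : ℝ) = √1 by simp]
    exact Real.sqrt_le_sqrt (by norm_num)
  linarith

theorem wl_lip (a b : ℝ) : |wl a - wl b| ≤ 2 * |a - b| := by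
  unfold wl
  rw [← sub_div, abs_div, cos_third, abs_of_pos (by norm_num : (0 : ℝ) < 1 / 2)]
  have := cos_lip (Real.pi / 3 + a) (Real.pi / 3 + b)
  rw [add_sub_add_left_eq_sub] at this
  linarith

theorem ws_lip (a b : ℝ) : |ws a - ws b| ≤ 2 * |a - b| := by
  unfold ws
  have h0 := half_le_cos_six
  have h1 : (0 : ℝ) < Real.cos (Real.pi / 6) := by linarith
  rw [← sub_div, abs_div, abs_of_pos h1, div_le_iff₀ h1]
  have := cos_lip (Real.pi / 6 + a) (Real.pi / 6 + b)
  rw [add_sub_add_left_eq_sub] at this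
  nlinarith [abs_nonneg (a - b)]

theorem abs_wl_le (t : ℝ) : |wl t| ≤ 2 := by
  unfold wl
  rw [abs_div, cos_third, abs_of_pos (by norm_num : (0 : ℝ) < 1 / 2)]
  have := Real.abs_cos_le_one (Real.pi / 3 + t)
  linarith

theorem abs_ws_le (t : ℝ) : |ws t| ≤ 2 := by
  unfold ws
  have h0 := half_le_cos_six
  have h1 : (0 : ℝ) < Real.cos (Real.pi / 6) := by linarith
  rw [abs_div, abs_of_pos h1, div_le_iff₀ h1]
  have := Real.abs_cos_le_one (Real.pi / 6 + t)
  linarith

theorem abs_wp_le (D : Finset (ℤ × ℤ)) (A : Finset Ed) (t : ℝ) : |wp D A t| ≤ 2 := by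
  unfold wp
  split_ifs
  · exact abs_wl_le t
  · exact abs_ws_le t

/-- The mass weight of a small piece is almost one. -/
theorem Geo.wp_near {K m : ℤ} (hG : Geo K m D p) (hAp : A ∈ pcs ω D) {d : ℝ} (hd : 1 ≤ d)
    (hdm : d ≤ m) (hA : Small d A) {f : ℤ × ℤ → ℝ} (htot : ws (tot D f) = 1) {a : ℝ}
    (hf : ∀ z, |f z| ≤ a) : |wp D A (mass D p f A) - 1| ≤ 18 * K ^ 2 * a * d ^ 2 := by
  obtain ⟨e0, he0⟩ := pcs_nonempty hAp
  have ha : 0 ≤ a := (abs_nonneg _).trans (hf 0)
  have hW : Wi (hdv e0) ⌊d⌋ A := fun e he => by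
    rw [Int.le_floor]
    exact (hA _ (Finset.mem_image_of_mem _ he) _ (Finset.mem_image_of_mem _ he0)).le
  have hs1 : 1 ≤ ⌊d⌋ := Int.le_floor.2 (by exact_mod_cast hd)
  have hs2 : ⌊d⌋ ≤ m := by
    have : (⌊d⌋ : ℝ) ≤ m := (Int.floor_le d).trans hdm
    exact_mod_cast this
  obtain ⟨τ, hτ, h⟩ := hG.mass_le hs1 hs2 hW hAp f
  have hK : (1 : ℝ) ≤ K := by exact_mod_cast hG.one_le
  have hsd : (⌊d⌋ : ℝ) ≤ d := Int.floor_le d
  have hs0 : (1 : ℝ) ≤ ⌊d⌋ := by exact_mod_cast hs1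
  have h2 : ∑ z ∈ nr D (hdv e0) (K * ⌊d⌋), |f z| ≤ 9 * K ^ 2 * a * d ^ 2 := by
    calc ∑ z ∈ nr D (hdv e0) (K * ⌊d⌋), |f z| ≤ ∑ _z ∈ nr D (hdv e0) (K * ⌊d⌋), a :=
          Finset.sum_le_sum fun z _ => hf z
      _ = ((nr D (hdv e0) (K * ⌊d⌋)).card : ℝ) * a := by rw [Finset.sum_const, nsmul_eq_mul]
      _ ≤ (2 * ((K * ⌊d⌋ : ℤ) : ℝ) + 1) ^ 2 * a :=
          mul_le_mul_of_nonneg_right (nr_card D _ (by nlinarith [hG.one_le])) ha
      _ ≤ (3 * K * d) ^ 2 * a := by
          refine mul_le_mul_of_nonneg_right ?_ ha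
          push_cast
          have h3 : (K : ℝ) * ⌊d⌋ ≤ K * d := mul_le_mul_of_nonneg_left hsd (by linarith)
          have h4 : (1 : ℝ) ≤ K * d := by nlinarith
          have h5 : (0 : ℝ) ≤ K * ⌊d⌋ := by positivity
          refine pow_le_pow_left₀ (by linarith) (by linarith) 2
      _ = _ := by ring
  have h3 : |wp D A (mass D p f A) - 1| ≤ 2 * |mass D p f A - τ| := by
    unfold wp
    rcases hτ with rfl | ⟨rfl, hl⟩
    · split_ifs
      · have := wl_lip (mass D p f A) 0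
        rwa [wl_zero] at this
      · have := ws_lip (mass D p f A) 0
        rwa [ws_zero] at this
    · rw [if_neg hl]
      have := ws_lip (mass D p f A) (tot D f)
      rwa [htot] at this
  calc _ ≤ 2 * |mass D p f A - τ| := h3
    _ ≤ 2 * (9 * K ^ 2 * a * d ^ 2) := by linarith
    _ = _ := by ring

/-! ### Locality -/

/-- A piece is determined by the states of the squares which it visits. -/
theorem mem_pcs_loc (hA : A ∈ pcs ω D) (h : ∀ e ∈ A, ω (hdv e) = ω' (hdv e)) : A ∈ pcs ω' D := by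
  obtain ⟨e0, he0⟩ := pcs_nonempty hA
  have h1 : A = piece ω' D e0 := by
    ext e
    rw [mem_piece]
    constructor
    · intro he
      refine ⟨subset_eds hA he, eqvGen_iff.mpr ?_⟩
      have key : ∀ (k : ℕ) (a b : Ed), a ∈ A → Run ω D a k b → Run ω' D a k b := by
        intro k
        induction k with
        | zero => intro a b _ hr; exact ⟨hr.1, fun j hj => absurd hj (Nat.not_lt_zero _)⟩
        | succ k ih =>
          intro a b ha hr
          have h0 : hdv a ∈ D := hr.2 0 (by omega)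
          have h2 : Run ω D (nx ω a) k b := ⟨by rw [← Function.iterate_succ_apply]; exact hr.1,
            fun j hj => by rw [← Function.iterate_succ_apply]; exact hr.2 _ (by omega)⟩
          have h3 := ih _ _ ((nx_mem_iff hA h0).mp ha) h2
          have h4 : nx ω a = nx ω' a := nx_congr (h a ha)
          rw [h4] at h3
          refine ⟨by rw [Function.iterate_succ_apply]; exact h3.1, fun j hj => ?_⟩
          cases j with
          | zero => exact h0
          | succ j =>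
            rw [Function.iterate_succ_apply]
            exact h3.2 j (by omega)
      obtain ⟨k, hk | hk⟩ := run_of_mem hA he0 he
      · exact ⟨k, Or.inl (key _ _ _ he0 hk)⟩
      · exact ⟨k, Or.inr (key _ _ _ he hk)⟩
    · rintro ⟨_, h2⟩
      obtain ⟨k, hk⟩ := eqvGen_iff.mp h2
      have fw : ∀ (k : ℕ) (a b : Ed), a ∈ A → Run ω' D a k b → b ∈ A := by
        intro k
        induction k with
        | zero =>
          intro a b ha hr
          obtain rfl : a = b := hr.1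
          exact ha
        | succ k ih =>
          intro a b ha hr
          have h0 : hdv a ∈ D := hr.2 0 (by omega)
          have h4 : nx ω a = nx ω' a := nx_congr (h a ha)
          refine ih (nx ω' a) b ?_ ⟨?_, fun j hj => ?_⟩
          · rw [← h4]; exact (nx_mem_iff hA h0).mp ha
          · rw [← Function.iterate_succ_apply, hr.1]
          · rw [← Function.iterate_succ_apply]
            exact hr.2 _ (by omega)
      have bw : ∀ (k : ℕ) (a b : Ed), b ∈ A → Run ω' D a k b → a ∈ A := by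
        intro k
        induction k with
        | zero =>
          intro a b hb hr
          obtain rfl : a = b := hr.1
          exact hb
        | succ k ih =>
          intro a b hb hr
          have hlast := hr.2 k (by omega)
          have hb' : nx ω' ((nx ω')^[k] a) = b := by
            rw [← Function.iterate_succ_apply' (nx ω') k a]
            exact hr.1
          have htl : tlv b = hdv ((nx ω')^[k] a) := by rw [← hb', tlv_nx]
          -- the predecessor of `b` for `ω`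
          have hpv : hdv (pv ω b) = tlv b := by
            conv_rhs => rw [← nx_pv ω b]
            rw [tlv_nx]
          have hpD : hdv (pv ω b) ∈ D := by rw [hpv, htl]; exact hlast
          have hpA : pv ω b ∈ A := (nx_mem_iff hA hpD).mpr (by rw [nx_pv]; exact hb)
          have h5 : nx ω' (pv ω b) = b := by rw [← nx_congr (h _ hpA), nx_pv]
          have h6 : pv ω b = (nx ω')^[k] a := (s_nx ω').1 (by rw [h5, hb'])
          exact ih a ((nx ω')^[k] a) (by rw [← h6]; exact hpA)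
            ⟨rfl, fun j hj => hr.2 j (by omega)⟩
      rcases hk with hk | hk
      · exact fw _ _ _ he0 hk
      · exact bw _ _ _ he0 hk
  rw [h1]
  exact piece_mem_pcs (subset_eds hA he0)

theorem pcs_filter_eq (Q : Finset Ed → Prop) [DecidablePred Q] {S : Set (ℤ × ℤ)}
    (hQ : ∀ A, Q A → ∀ e ∈ A, hdv e ∈ S) (h : ∀ v ∈ S, ω v = ω' v) :
    (pcs ω D).filter Q = (pcs ω' D).filter Q := by
  ext A
  rw [Finset.mem_filter, Finset.mem_filter]
  constructor
  · rintro ⟨h1, h2⟩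
    exact ⟨mem_pcs_loc h1 fun e he => h _ (hQ A h2 e he), h2⟩
  · rintro ⟨h1, h2⟩
    exact ⟨mem_pcs_loc h1 fun e he => (h _ (hQ A h2 e he)).symm, h2⟩

end Vale.Agent.P167.H167
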