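import Vale.Agent.P167.H167.Crs

/-!
# P167, block EQUI: exponential moments of linear statistics of the small pieces

For every finite domain `D`, every centre `x`, every scale `ρ` and every function `φ` of the pieces
with `|φ A| ≤ α (diam A / ρ) ^ 2`: `S = ∑ φ A` over the pieces of `D` which visit the box of radius `R ≤ ρ`
around `x` and are `ρ`-small satisfies `E exp (t (S - E S)) ≤ exp (C α² t²)` for `|t| α ≤ c`.
-/

namespace Vale.Agent.P167.H167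

open Finset MeasureTheory ProbabilityTheory
open Vale.Agent.P167.BR
open Vale.Agent.P167.H166 (bxx mem_bxx)
open Vale.Agent.P167.H562 (LocFun LocSet Em multiscale iIndepFun_of_local)
open Vale.Agent.P167.H45 (zz Bq Bq_fin Bq_disj zz_box box_of_small code code_eq cl cl_spec gp
  grid_fin iInd meas_locfun loc_int bs bs_le small_box)

variable {D : Finset (ℤ × ℤ)} {ω ω' : Cfg} {A : Finset Ed}

/-- A piece visits two squares. -/
theorem not_small_one (hA : A ∈ pcs ω D) {d : ℝ} (hd : d ≤ 1) : ¬ Small d A := by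
  obtain ⟨e, he⟩ := pcs_nonempty hA
  have key : ∀ a b : Ed, a ∈ A → b ∈ A → |(hdv a).1 - (hdv b).1| + |(hdv a).2 - (hdv b).2| = 1 →
      ¬ Small d A := by
    intro a b ha hb h hs
    have h1 := hs _ (Finset.mem_image_of_mem _ ha) _ (Finset.mem_image_of_mem _ hb)
    have h2 : 1 ≤ nm (hdv a - hdv b) := by
      simp only [nm, Prod.fst_sub, Prod.snd_sub, le_max_iff]
      by_contra hcon
      push Not at hcon
      have := abs_nonneg ((hdv a).1 - (hdv b).1)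
      have := abs_nonneg ((hdv a).2 - (hdv b).2)
      omega
    have h3 : (1 : ℝ) ≤ nm (hdv a - hdv b) := by exact_mod_cast h2
    linarith
  rcases mem_eds.mp (subset_eds hA he) with h | h
  · have h1 := (nx_mem_iff hA h).mp he
    have h2 := tlv_adj (nx ω e)
    rw [tlv_nx] at h2
    exact key _ _ he h1 h2
  · have hpv : hdv (pv ω e) = tlv e := by
      conv_rhs => rw [← nx_pv ω e]
      rw [tlv_nx]
    have h1 : pv ω e ∈ A := (nx_mem_iff hA (by rw [hpv]; exact h)).mpr (by rw [nx_pv]; exact he)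
    have h2 := tlv_adj e
    rw [← hpv] at h2
    exact key _ _ h1 he h2

open Classical in
/-- The `ρ`-small pieces which visit the box of radius `R` around `x`. -/
noncomputable def sm (D : Finset (ℤ × ℤ)) (x : ℤ × ℤ) (R : ℤ) (ρ : ℝ) (ω : Cfg) :
    Finset (Finset Ed) :=
  (pcs ω D).filter fun A => (∃ e ∈ A, nm (hdv e - x) ≤ R) ∧ Small ρ A

theorem mem_sm {x : ℤ × ℤ} {R : ℤ} {ρ : ℝ} : A ∈ sm D x R ρ ω ↔
    A ∈ pcs ω D ∧ (∃ e ∈ A, nm (hdv e - x) ≤ R) ∧ Small ρ A := by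
  simp only [sm, Finset.mem_filter]

theorem fd_sm (D : Finset (ℤ × ℤ)) (x : ℤ × ℤ) (R : ℤ) (ρ : ℝ) {β : Type*}
    (g : Finset (Finset Ed) → β) : Fd (fun ω => g (sm D x R ρ ω)) := by
  classical
  exact fd_pcs D fun s => g (s.filter fun A => (∃ e ∈ A, nm (hdv e - x) ≤ R) ∧ Small ρ A)

/-- The class of a small piece. -/
def Qj (x : ℤ × ℤ) (R : ℤ) (ρ : ℝ) (j : ℕ) (z : ℤ × ℤ) (A : Finset Ed) : Prop :=
  (∃ e ∈ A, nm (hdv e - x) ≤ R) ∧ Small (ρ / 2 ^ j) A ∧ ¬ Small (ρ / 2 ^ (j + 1)) A ∧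
    zz ⌈ρ / 2 ^ j⌉ A = z

open Classical in
/-- One scale and one cell. -/
noncomputable def YY (D : Finset (ℤ × ℤ)) (x : ℤ × ℤ) (R : ℤ) (ρ : ℝ) (φ : Finset Ed → ℝ) (j : ℕ)
    (z : ℤ × ℤ) (ω : Cfg) : ℝ := ∑ A ∈ (pcs ω D).filter (Qj x R ρ j z), φ A

theorem YY_loc (D : Finset (ℤ × ℤ)) (x : ℤ × ℤ) (R : ℤ) (ρ : ℝ) (φ : Finset Ed → ℝ) (j : ℕ)
    (z : ℤ × ℤ) : LocFun (Bq ⌈ρ / 2 ^ j⌉ z) (YY D x R ρ φ j z) := by
  classical
  intro ω ω' hw
  unfold YY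
  rw [pcs_filter_eq (Qj x R ρ j z) (S := Bq ⌈ρ / 2 ^ j⌉ z) (fun A hA e he => ?_) hw]
  rw [← hA.2.2.2]
  exact box_of_small hA.2.1 (Finset.mem_image_of_mem _ he)

theorem fd_YY (D : Finset (ℤ × ℤ)) (x : ℤ × ℤ) (R : ℤ) (ρ : ℝ) (φ : Finset Ed → ℝ) (j : ℕ)
    (z : ℤ × ℤ) : Fd (YY D x R ρ φ j z) := by
  classical
  exact fd_pcs D fun s => ∑ A ∈ s.filter (Qj x R ρ j z), φ A

theorem cell_near {x : ℤ × ℤ} {R : ℤ} {ρ : ℝ} {j : ℕ} {z : ℤ × ℤ}
    (h : Qj x R ρ j z A) : (∃ e ∈ A, nm (hdv e - gp ⌈ρ / 2 ^ j⌉ z) ≤ 2 * ⌈ρ / 2 ^ j⌉) ∧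
      nm (gp ⌈ρ / 2 ^ j⌉ z - x) ≤ R + 2 * ⌈ρ / 2 ^ j⌉ := by
  obtain ⟨⟨e, he, h1⟩, h2, -, h4⟩ := h
  have h5 := box_of_small h2 (Finset.mem_image_of_mem hdv he)
  rw [h4] at h5
  obtain ⟨b1, b2, b3, b4⟩ := h5
  have h6 : nm (hdv e - gp ⌈ρ / 2 ^ j⌉ z) ≤ 2 * ⌈ρ / 2 ^ j⌉ := by
    rw [H45.nm_le]
    simp only [gp, Prod.fst_sub, Prod.snd_sub, abs_le]
    refine ⟨⟨?_, ?_⟩, ?_, ?_⟩ <;> linarith
  refine ⟨⟨e, he, h6⟩, ?_⟩
  have h7 := H45.nm_sub_le (gp ⌈ρ / 2 ^ j⌉ z) (hdv e) x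
  rw [H45.nm_sub_comm (gp ⌈ρ / 2 ^ j⌉ z) (hdv e)] at h7
  linarith

/-- The cells which matter. -/
theorem cells (x : ℤ × ℤ) {R : ℤ} {ρ : ℝ} (hR : 0 ≤ R) (hRρ : (R : ℝ) ≤ ρ) : ∃ Ig : ℕ → Finset (ℤ × ℤ),
    ∀ j : ℕ, 1 ≤ ρ / 2 ^ j → ((Ig j).card : ℝ) ≤ 64 * 4 ^ j ∧
      ∀ A z, Qj x R ρ j z A → z ∈ Ig j := by
  classical
  have hex : ∀ j : ℕ, ∃ I : Finset (ℤ × ℤ), 1 ≤ ρ / 2 ^ j → (I.card : ℝ) ≤ 64 * 4 ^ j ∧
      ∀ A z, Qj x R ρ j z A → z ∈ I := by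
    intro j
    by_cases hj : 1 ≤ ρ / 2 ^ j
    · set L : ℤ := ⌈ρ / 2 ^ j⌉ with hL
      have hL1 : 1 ≤ L := Int.one_le_ceil_iff.2 (by linarith)
      have hyL : ρ / 2 ^ j ≤ L := Int.le_ceil _
      have hLR : (1 : ℝ) ≤ L := by exact_mod_cast hL1
      obtain ⟨I, hI1, hI2⟩ := grid_fin x hL1 (P := R + 2 * L) (by linarith)
      refine ⟨I, fun _ => ⟨?_, fun A z h => hI1 z (cell_near h).2⟩⟩
      have h1 : ((I.card : ℤ) : ℝ) ≤ ((2 * (R + 2 * L) / L + 2 : ℤ) : ℝ) ^ 2 := by exact_mod_cast hI2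
      have h2 : ((2 * (R + 2 * L) / L : ℤ) : ℝ) ≤ 2 * (R + 2 * L) / L := by
        rw [le_div_iff₀ (by linarith)]
        exact_mod_cast Int.ediv_mul_le (2 * (R + 2 * L)) (by omega : L ≠ 0)
      have hpow : (1 : ℝ) ≤ 2 ^ j := one_le_pow₀ (by norm_num)
      have h3 : (2 * (R + 2 * L) / L : ℝ) ≤ 2 * 2 ^ j + 4 := by
        rw [div_le_iff₀ (by linarith)]
        have h4 : ρ ≤ 2 ^ j * L := by
          rw [div_le_iff₀ (by positivity)] at hyL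
          linarith
        nlinarith
      have h4 : ((2 * (R + 2 * L) / L + 2 : ℤ) : ℝ) ≤ 8 * 2 ^ j := by
        push_cast at h2 ⊢
        linarith
      have h5 : (0 : ℝ) ≤ ((2 * (R + 2 * L) / L + 2 : ℤ) : ℝ) := by
        have : 0 ≤ 2 * (R + 2 * L) / L := Int.ediv_nonneg (by linarith) (by linarith)
        exact_mod_cast (by linarith : (0 : ℤ) ≤ 2 * (R + 2 * L) / L + 2)
      have h6 : ((I.card : ℤ) : ℝ) = (I.card : ℝ) := by norm_cast
      rw [h6] at h1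
      calc (I.card : ℝ) ≤ ((2 * (R + 2 * L) / L + 2 : ℤ) : ℝ) ^ 2 := h1
        _ ≤ (8 * 2 ^ j) ^ 2 := pow_le_pow_left₀ h5 h4 2
        _ = 64 * 4 ^ j := by
            have : (4 : ℝ) ^ j = (2 ^ j) ^ 2 := by
              rw [← pow_mul, mul_comm, pow_mul]; norm_num
            rw [this]; ring
    · exact ⟨∅, fun h => absurd h hj⟩
  choose Ig hIg using hex
  exact ⟨Ig, hIg⟩

/-- The decomposition into scales and cells. -/
theorem decomp {x : ℤ × ℤ} {R : ℤ} {ρ : ℝ} {J : ℕ} (hJ : ρ / 2 ^ J ≤ 1)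
    (hJ' : ∀ j < J, 1 ≤ ρ / 2 ^ j) {Ig : ℕ → Finset (ℤ × ℤ)}
    (hIg : ∀ j, 1 ≤ ρ / 2 ^ j → ∀ A z, Qj x R ρ j z A → z ∈ Ig j) (φ : Finset Ed → ℝ) (ω : Cfg) :
    ∑ A ∈ sm D x R ρ ω, φ A = ∑ j ∈ Finset.range J, ∑ z ∈ Ig j, YY D x R ρ φ j z ω := by
  classical
  have hcl : ∀ A ∈ sm D x R ρ ω, cl ρ A < J ∧ Small (ρ / 2 ^ (cl ρ A)) A ∧
      ¬ Small (ρ / 2 ^ (cl ρ A + 1)) A := fun A hA => by
    obtain ⟨h1, -, h3⟩ := mem_sm.1 hA
    exact cl_spec h3 (not_small_one h1 hJ)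
  have h1 : ∑ A ∈ sm D x R ρ ω, φ A =
      ∑ j ∈ Finset.range J, ∑ A ∈ (sm D x R ρ ω).filter (fun A => cl ρ A = j), φ A := by
    rw [Finset.sum_fiberwise_of_maps_to]
    intro A hA
    exact Finset.mem_range.2 (hcl A hA).1
  rw [h1]
  refine Finset.sum_congr rfl fun j hj => ?_
  have hj1 := hJ' j (Finset.mem_range.1 hj)
  have hmap : ∀ A ∈ (sm D x R ρ ω).filter (fun A => cl ρ A = j), Qj x R ρ j (zz ⌈ρ / 2 ^ j⌉ A) A := by
    intro A hA
    obtain ⟨h2, h3⟩ := Finset.mem_filter.1 hA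
    obtain ⟨-, h4, h5⟩ := hcl A h2
    rw [h3] at h4 h5
    exact ⟨(mem_sm.1 h2).2.1, h4, h5, rfl⟩
  have h2 : ∑ A ∈ (sm D x R ρ ω).filter (fun A => cl ρ A = j), φ A =
      ∑ z ∈ Ig j, ∑ A ∈ ((sm D x R ρ ω).filter (fun A => cl ρ A = j)).filter
        (fun A => zz ⌈ρ / 2 ^ j⌉ A = z), φ A := by
    rw [Finset.sum_fiberwise_of_maps_to]
    intro A hA
    exact hIg j hj1 A _ (hmap A hA)
  rw [h2]
  refine Finset.sum_congr rfl fun z _ => ?_
  unfold YY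
  refine Finset.sum_congr ?_ fun _ _ => rfl
  ext A
  constructor
  · intro hA
    obtain ⟨h3, h4⟩ := Finset.mem_filter.1 hA
    have h5 := hmap A h3
    rw [h4] at h5
    exact Finset.mem_filter.2 ⟨(mem_sm.1 (Finset.mem_filter.1 h3).1).1, h5⟩
  · intro hA
    obtain ⟨h3, h4, h5, h6, h7⟩ := Finset.mem_filter.1 hA
    rw [Finset.mem_filter]
    have hpow : (1 : ℝ) ≤ 2 ^ j := one_le_pow₀ (by norm_num)
    have hρ0 : 0 ≤ ρ := by
      by_contra hcon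
      push Not at hcon
      have : ρ / 2 ^ j < 0 := div_neg_of_neg_of_pos hcon (by positivity)
      linarith
    have h8 : Small ρ A := H45.Small.mono (div_le_self hρ0 hpow) h5
    have h9 : A ∈ sm D x R ρ ω := mem_sm.2 ⟨h3, h4, h8⟩
    refine ⟨Finset.mem_filter.2 ⟨h9, ?_⟩, h7⟩
    obtain ⟨-, g1, g2⟩ := hcl A h9
    -- uniqueness of the class
    rcases lt_trichotomy (cl ρ A) j with h | h | h
    · exfalso
      apply g2
      refine H45.Small.mono ?_ h5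
      exact div_le_div_of_nonneg_left hρ0 (by positivity) (pow_le_pow_right₀ (by norm_num) (by omega))
    · exact h
    · exfalso
      apply h6
      refine H45.Small.mono ?_ g1
      exact div_le_div_of_nonneg_left hρ0 (by positivity) (pow_le_pow_right₀ (by norm_num) (by omega))

/-- **Linear statistics of the small pieces.** -/
theorem sml : ∃ c C : ℝ, 0 < c ∧ 0 ≤ C ∧ ∀ (D : Finset (ℤ × ℤ)) (x : ℤ × ℤ) (R : ℤ) (ρ : ℝ)
    (φ : Finset Ed → ℝ) (a t : ℝ), 1 ≤ ρ → 0 ≤ R → (R : ℝ) ≤ ρ → 0 ≤ a →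
    (∀ (j : ℕ) (ω : Cfg), 1 ≤ ρ / 2 ^ j → ∀ A ∈ pcs ω D, Small (ρ / 2 ^ j) A →
      |φ A| ≤ a * (1 / 4) ^ j) → a * |t| ≤ c →
    Em μ (fun ω => t * (∑ A ∈ sm D x R ρ ω, φ A - ∫ ω', ∑ A ∈ sm D x R ρ ω', φ A ∂μ)) ≤
      ENNReal.ofReal (Real.exp (C * (a * t) ^ 2)) := by
  classical
  obtain ⟨l, M, hl, hM, hem⟩ := em_Bg 6
  refine ⟨l / 16, 8 * M * Real.exp ((1 + 1) * M) * (4 : ℕ) ^ 2 * (2 / l) ^ 2 * |64|, by positivity,
    by positivity, fun D x R ρ φ a t hρ hR hRρ ha hφ hat => ?_⟩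
  have hρ0 : 0 < ρ := by linarith
  obtain ⟨Ig, hIg⟩ := cells x hR hRρ
  have hex : ∃ J : ℕ, ρ / 2 ^ J ≤ 1 := by
    obtain ⟨J, hJ⟩ := pow_unbounded_of_one_lt ρ (by norm_num : (1 : ℝ) < 2)
    exact ⟨J, by rw [div_le_one (by positivity)]; exact hJ.le⟩
  obtain ⟨J, hJ, hJ'⟩ : ∃ J : ℕ, ρ / 2 ^ J ≤ 1 ∧ ∀ j < J, 1 ≤ ρ / 2 ^ j :=
    ⟨Nat.find hex, Nat.find_spec hex, fun j hj => (not_le.1 (Nat.find_min hex hj)).le⟩
  have hmain := multiscale (μ := μ) J 4 (by norm_num)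
    (fun j k => (Ig j).filter (fun z => code z = k))
    (X := fun j z ω => YY D x R ρ φ j z ω)
    (K := fun j z ω => l / 2 * ((Bg D (gp ⌈ρ / 2 ^ j⌉ z) (2 * ⌈ρ / 2 ^ j⌉)
      (max (ρ / 2 ^ (j + 1)) 1) ω).card : ℝ))
    (fun j _ k z _ => (fd_YY D x R ρ φ j z).meas)
    (fun j _ k z _ => by
      refine Measurable.const_mul ?_ _
      exact (fd_pcs D fun s => (((s.filter fun A => (∃ e ∈ A, nm (hdv e - gp ⌈ρ / 2 ^ j⌉ z) ≤
        2 * ⌈ρ / 2 ^ j⌉) ∧ ¬ Small (max (ρ / 2 ^ (j + 1)) 1) A).card : ℕ) : ℝ)).meas)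
    (fun j _ k => by
      refine iIndepFun_of_local iInd
        (S := fun z : ((Ig j).filter (fun z => code z = k) : Finset (ℤ × ℤ)) =>
          Bq ⌈ρ / 2 ^ j⌉ (z : ℤ × ℤ)) ?_ (fun z => (fd_YY D x R ρ φ j z).meas)
        (fun z => YY_loc D x R ρ φ j z)
      intro z z' hzz
      have h1 : code (z : ℤ × ℤ) = k := (Finset.mem_filter.1 z.2).2
      have h2 : code (z' : ℤ × ℤ) = k := (Finset.mem_filter.1 z'.2).2
      obtain ⟨h3, h4⟩ := code_eq (h1.trans h2.symm)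
      exact Bq_disj (fun h => hzz (Subtype.ext h)) h3 h4)
    (α := 2 * a / l) (β := 64) (s := 1) (t := t) (M := M) (by positivity) zero_le_one hM
    (fun j _ k z _ ω => by positivity)
    (fun j hj k z _ ω => by
      have h1 : |YY D x R ρ φ j z ω| ≤ (((pcs ω D).filter (Qj x R ρ j z)).card : ℝ) *
          (a * (1 / 4) ^ j) := by
        unfold YY
        refine (Finset.abs_sum_le_sum_abs _ _).trans ?_
        calc ∑ A ∈ (pcs ω D).filter (Qj x R ρ j z), |φ A|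
            ≤ ∑ _A ∈ (pcs ω D).filter (Qj x R ρ j z), a * (1 / 4) ^ j :=
              Finset.sum_le_sum fun A hA => by
                obtain ⟨h2, h3⟩ := Finset.mem_filter.1 hA
                exact hφ j ω (hJ' j hj) A h2 h3.2.1
          _ = _ := by rw [Finset.sum_const, nsmul_eq_mul]
      have h2 : ((pcs ω D).filter (Qj x R ρ j z)).card ≤
          (Bg D (gp ⌈ρ / 2 ^ j⌉ z) (2 * ⌈ρ / 2 ^ j⌉) (max (ρ / 2 ^ (j + 1)) 1) ω).card := by
        refine Finset.card_le_card fun A hA => ?_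
        obtain ⟨h2, h3⟩ := Finset.mem_filter.1 hA
        unfold Bg
        rw [Finset.mem_filter]
        refine ⟨h2, (cell_near h3).1, ?_⟩
        rcases max_choice (ρ / 2 ^ (j + 1)) (1 : ℝ) with h | h
        · rw [h]; exact h3.2.2.1
        · rw [h]; exact not_small_one h2 le_rfl
      have h3 : (((pcs ω D).filter (Qj x R ρ j z)).card : ℝ) ≤
          ((Bg D (gp ⌈ρ / 2 ^ j⌉ z) (2 * ⌈ρ / 2 ^ j⌉) (max (ρ / 2 ^ (j + 1)) 1) ω).card : ℝ) := by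
        exact_mod_cast h2
      calc |YY D x R ρ φ j z ω| ≤ (((pcs ω D).filter (Qj x R ρ j z)).card : ℝ) *
            (a * (1 / 4) ^ j) := h1
        _ ≤ ((Bg D (gp ⌈ρ / 2 ^ j⌉ z) (2 * ⌈ρ / 2 ^ j⌉) (max (ρ / 2 ^ (j + 1)) 1) ω).card : ℝ) *
            (a * (1 / 4) ^ j) := mul_le_mul_of_nonneg_right h3 (by positivity)
        _ = _ := by field_simp)
    (fun j hj k => by
      refine le_trans ?_ (hIg j (hJ' j hj)).1
      exact_mod_cast Finset.card_filter_le _ _)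
    (by
      rw [show 2 * ((4 : ℕ) : ℝ) * (2 * a / l) * |t| = 16 * (a * |t|) / l by push_cast; ring]
      rw [div_le_one hl]
      linarith)
    (fun j hj k z _ => by
      have e1 : (fun ω => (1 + 1) * (l / 2 * ((Bg D (gp ⌈ρ / 2 ^ j⌉ z) (2 * ⌈ρ / 2 ^ j⌉)
          (max (ρ / 2 ^ (j + 1)) 1) ω).card : ℝ))) = fun ω => l * ((Bg D (gp ⌈ρ / 2 ^ j⌉ z)
          (2 * ⌈ρ / 2 ^ j⌉) (max (ρ / 2 ^ (j + 1)) 1) ω).card : ℝ) := by
        funext ω; ring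
      rw [e1]
      have h1 : (1 : ℝ) ≤ ρ / 2 ^ j := hJ' j hj
      have h2 : (⌈ρ / 2 ^ j⌉ : ℝ) < ρ / 2 ^ j + 1 := Int.ceil_lt_add_one _
      have h3 : ρ / 2 ^ (j + 1) = ρ / 2 ^ j / 2 := by rw [pow_succ]; field_simp
      have h4 : 1 ≤ ⌈ρ / 2 ^ j⌉ := Int.one_le_ceil_iff.2 (by linarith)
      refine hem D _ _ _ (le_max_right _ _) (by omega) ?_
      push_cast
      rw [h3]
      have h5 := le_max_left (ρ / 2 ^ j / 2) (1 : ℝ)
      have h6 := le_max_right (ρ / 2 ^ j / 2) (1 : ℝ)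
      linarith)
  have hdec := fun ω => decomp (D := D) hJ hJ' (fun j hj => (hIg j hj).2) φ ω
  have hI : ∫ ω', ∑ A ∈ sm D x R ρ ω', φ A ∂μ =
      ∑ j ∈ Finset.range J, ∑ z ∈ Ig j, ∫ ω', YY D x R ρ φ j z ω' ∂μ := by
    simp only [hdec]
    rw [integral_finsetSum _ fun j _ => integrable_finsetSum _ fun z _ => (fd_YY D x R ρ φ j z).int]
    refine Finset.sum_congr rfl fun j _ => ?_
    rw [integral_finsetSum _ fun z _ => (fd_YY D x R ρ φ j z).int]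
  have heq : (fun ω => t * (∑ A ∈ sm D x R ρ ω, φ A - ∫ ω', ∑ A ∈ sm D x R ρ ω', φ A ∂μ)) =
      fun ω => t * ∑ j ∈ Finset.range J, ∑ k : Fin 4, ∑ i ∈ (Ig j).filter (fun z => code z = k),
        (YY D x R ρ φ j i ω - ∫ x_1, YY D x R ρ φ j i x_1 ∂μ) := by
    ext ω
    congr 1
    rw [hI, hdec, ← Finset.sum_sub_distrib]
    refine Finset.sum_congr rfl fun j _ => ?_
    rw [← Finset.sum_sub_distrib]
    exact (Finset.sum_fiberwise (Ig j) code _).symm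
  rw [heq]
  refine hmain.trans (ENNReal.ofReal_le_ofReal (Real.exp_le_exp.2 (le_of_eq ?_)))
  ring

theorem pow_four_le_exp {y : ℝ} (hy : 0 ≤ y) : y ^ 4 ≤ 24 * Real.exp y := by
  have h := Real.pow_div_factorial_le_exp y hy 4
  have h4 : ((Nat.factorial 4 : ℕ) : ℝ) = 24 := by norm_num [Nat.factorial]
  rw [h4, div_le_iff₀ (by norm_num)] at h
  linarith

theorem one_sub_exp_pow {lam y : ℝ} (hlam : 8 ≤ lam) :
    (1 - Real.exp (-y)) ^ 4 ≤ 384 / lam ^ 4 * (Real.exp (lam * y) + Real.exp (-(lam * y))) := by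
  have h0 : 0 < lam := by linarith
  have h1 : |1 - Real.exp (-y)| ≤ |y| * Real.exp |y| := by
    rcases le_total 0 y with hy | hy
    · rw [abs_of_nonneg hy, abs_of_nonneg (by
        have : Real.exp (-y) ≤ 1 := Real.exp_le_one_iff.2 (by linarith)
        linarith)]
      have h2 := Real.add_one_le_exp (-y)
      have h3 : 1 ≤ Real.exp y := Real.one_le_exp hy
      nlinarith
    · rw [abs_of_nonpos hy, abs_of_nonpos (by
        have : 1 ≤ Real.exp (-y) := Real.one_le_exp (by linarith)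
        linarith)]
      have h2 := Real.add_one_le_exp y
      have h3 : Real.exp (-y) * Real.exp y = 1 := by rw [← Real.exp_add]; simp
      have h4 := Real.exp_pos (-y)
      nlinarith
  have h2 : (1 - Real.exp (-y)) ^ 4 ≤ (|y| * Real.exp |y|) ^ 4 := by
    calc (1 - Real.exp (-y)) ^ 4 = |1 - Real.exp (-y)| ^ 4 := by
          rw [show (4 : ℕ) = 2 * 2 by norm_num, pow_mul, pow_mul, sq_abs]
      _ ≤ _ := pow_le_pow_left₀ (abs_nonneg _) h1 4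
  have h3 : |y| ^ 4 ≤ 384 / lam ^ 4 * Real.exp (lam / 2 * |y|) := by
    have h4 := pow_four_le_exp (y := lam / 2 * |y|) (by positivity)
    rw [mul_pow, div_pow] at h4
    rw [div_mul_eq_mul_div, le_div_iff₀ (by positivity)]
    nlinarith
  have h4 : Real.exp |y| ^ 4 ≤ Real.exp (lam / 2 * |y|) := by
    rw [← Real.exp_nat_mul]
    refine Real.exp_le_exp.2 ?_
    push_cast
    nlinarith [abs_nonneg y]
  have h5 : Real.exp (lam * |y|) ≤ Real.exp (lam * y) + Real.exp (-(lam * y)) := by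
    rcases abs_choice y with h | h
    · rw [h]; linarith [Real.exp_pos (-(lam * y))]
    · rw [h, mul_neg]; linarith [Real.exp_pos (lam * y)]
  calc (1 - Real.exp (-y)) ^ 4 ≤ (|y| * Real.exp |y|) ^ 4 := h2
    _ = |y| ^ 4 * Real.exp |y| ^ 4 := mul_pow _ _ _
    _ ≤ (384 / lam ^ 4 * Real.exp (lam / 2 * |y|)) * Real.exp (lam / 2 * |y|) :=
        mul_le_mul h3 h4 (by positivity) (by positivity)
    _ = 384 / lam ^ 4 * Real.exp (lam * |y|) := by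
        rw [mul_assoc, ← Real.exp_add]; congr 2; ring
    _ ≤ _ := mul_le_mul_of_nonneg_left h5 (by positivity)

/-- The exponential of a centred linear statistic with a small constant is close to one. -/
theorem sml_four : ∃ c C : ℝ, 0 < c ∧ 0 ≤ C ∧ ∀ (D : Finset (ℤ × ℤ)) (x : ℤ × ℤ) (R : ℤ) (ρ : ℝ)
    (φ : Finset Ed → ℝ) (a : ℝ), 1 ≤ ρ → 0 ≤ R → (R : ℝ) ≤ ρ → 0 < a → a ≤ c →
    (∀ (j : ℕ) (ω : Cfg), 1 ≤ ρ / 2 ^ j → ∀ A ∈ pcs ω D, Small (ρ / 2 ^ j) A →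
      |φ A| ≤ a * (1 / 4) ^ j) →
    ∫ ω, (1 - Real.exp (-(∑ A ∈ sm D x R ρ ω, φ A - ∫ ω', ∑ A ∈ sm D x R ρ ω', φ A ∂μ))) ^ 4 ∂μ ≤
      C * a ^ 4 := by
  obtain ⟨c, C, hc, hC, h⟩ := sml
  refine ⟨c / 8, 384 / c ^ 4 * (2 * Real.exp (C * c ^ 2)), by positivity, by positivity,
    fun D x R ρ φ a hρ hR hRρ ha hac hφ => ?_⟩
  set S : Cfg → ℝ := fun ω => ∑ A ∈ sm D x R ρ ω, φ A with hS
  have hFd : Fd S := fd_sm D x R ρ fun s => ∑ A ∈ s, φ A
  set m : ℝ := ∫ ω', S ω' ∂μ with hm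
  set lam : ℝ := c / a with hlam
  have hlam0 : 0 < lam := by positivity
  have hlam8 : 8 ≤ lam := by
    rw [hlam, le_div_iff₀ ha]; linarith
  have hal : a * lam = c := by rw [hlam]; field_simp
  have b1 := h D x R ρ φ a lam hρ hR hRρ ha.le hφ (by rw [abs_of_pos hlam0, hal])
  have b2 := h D x R ρ φ a (-lam) hρ hR hRρ ha.le hφ (by rw [abs_neg, abs_of_pos hlam0, hal])
  have e1 : ∀ t : ℝ, ∫ ω, Real.exp (t * (S ω - m)) ∂μ = (Em μ (fun ω => t * (S ω - m))).toReal := by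
    intro t
    unfold Em
    rw [integral_eq_lintegral_of_nonneg_ae (Filter.Eventually.of_forall fun ω =>
      (Real.exp_pos _).le)]
    exact (hFd.comp fun s => Real.exp (t * (s - m))).meas.aestronglyMeasurable
  have b3 : ∫ ω, Real.exp (lam * (S ω - m)) ∂μ ≤ Real.exp (C * c ^ 2) := by
    rw [e1]
    refine ENNReal.toReal_le_of_le_ofReal (Real.exp_pos _).le (b1.trans (le_of_eq ?_))
    rw [hal]
  have b4 : ∫ ω, Real.exp ((-lam) * (S ω - m)) ∂μ ≤ Real.exp (C * c ^ 2) := by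
    rw [e1]
    refine ENNReal.toReal_le_of_le_ofReal (Real.exp_pos _).le (b2.trans (le_of_eq ?_))
    rw [mul_neg, hal, neg_sq]
  have i1 : Integrable (fun ω => Real.exp (lam * (S ω - m))) μ :=
    (hFd.comp fun s => Real.exp (lam * (s - m))).int
  have i2 : Integrable (fun ω => Real.exp ((-lam) * (S ω - m))) μ :=
    (hFd.comp fun s => Real.exp ((-lam) * (s - m))).int
  calc ∫ ω, (1 - Real.exp (-(S ω - m))) ^ 4 ∂μ
      ≤ ∫ ω, 384 / lam ^ 4 * (Real.exp (lam * (S ω - m)) + Real.exp ((-lam) * (S ω - m))) ∂μ := by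
        refine integral_mono (hFd.comp fun s => (1 - Real.exp (-(s - m))) ^ 4).int
          ((i1.add i2).const_mul _) fun ω => ?_
        have := one_sub_exp_pow (y := S ω - m) hlam8
        simpa only [neg_mul] using this
    _ = 384 / lam ^ 4 * (∫ ω, Real.exp (lam * (S ω - m)) ∂μ +
          ∫ ω, Real.exp ((-lam) * (S ω - m)) ∂μ) := by
        rw [integral_const_mul, integral_add i1 i2]
    _ ≤ 384 / lam ^ 4 * (Real.exp (C * c ^ 2) + Real.exp (C * c ^ 2)) :=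
        mul_le_mul_of_nonneg_left (add_le_add b3 b4) (by positivity)
    _ = _ := by
        rw [hlam]
        field_simp
        ring

end Vale.Agent.P167.H167
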