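import Vale.Agent.P167.H167.Lcov
import Vale.Agent.P167.H542.Cx

/-!
# P167, block EQUI: one dyadic scale
-/

namespace Vale.Agent.P167.H167

open Finset MeasureTheory ProbabilityTheory
open Vale.Agent.P167.BR
open Vale.Agent.P167.H166 (bxx mem_bxx)
open Vale.Agent.P167.H562 (LocFun LocSet Em)
open Vale.Agent.P167.H542 (wp' XT)

variable {D : Finset (ℤ × ℤ)} {p : ℤ × ℤ} {f : ℤ × ℤ → ℝ} {ω ω' : Cfg} {A : Finset Ed}

/-! ### Moments of the number of pieces -/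

theorem fd_Bg (D : Finset (ℤ × ℤ)) (x : ℤ × ℤ) (L : ℤ) (d : ℝ) :
    Fd (fun ω => ((Bg D x L d ω).card : ℝ)) := by
  classical
  exact fd_pcs D fun s => (((s.filter fun A => (∃ e ∈ A, nm (hdv e - x) ≤ L) ∧
    ¬ Small d A).card : ℕ) : ℝ)

theorem card_four (Λ : ℕ) : ∃ C : ℝ, 1 ≤ C ∧ ∀ (D : Finset (ℤ × ℤ)) (x : ℤ × ℤ) (L : ℤ)
    (d : ℝ), 1 ≤ d → 0 ≤ L → (L : ℝ) ≤ Λ * d →
    ∫ ω, ((Bg D x L d ω).card : ℝ) ^ 4 ∂μ ≤ C ^ 4 ∧ ∫ ω, ((Bg D x L d ω).card : ℝ) ^ 2 ∂μ ≤ C ^ 2 := by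
  obtain ⟨l, M, hl, hM, h⟩ := em_Bg Λ
  refine ⟨24 * M / l ^ 4 + 1, by
    have : 0 ≤ 24 * M / l ^ 4 := by positivity
    linarith, fun D x L d hd hL0 hL => ?_⟩
  have h1 := h D x L d hd hL0 hL
  have hFd := fd_Bg D x L d
  set C : ℝ := 24 * M / l ^ 4 + 1 with hC
  have hC1 : 1 ≤ C := by
    have : 0 ≤ 24 * M / l ^ 4 := by positivity
    linarith
  have h2 : ∫ ω, ((Bg D x L d ω).card : ℝ) ^ 4 ∂μ ≤ 24 * M / l ^ 4 := by
    have h3 : ∫ ω, Real.exp (l * ((Bg D x L d ω).card : ℝ)) ∂μ ≤ M := by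
      rw [integral_eq_lintegral_of_nonneg_ae (Filter.Eventually.of_forall fun ω =>
        (Real.exp_pos _).le) (hFd.comp fun y => Real.exp (l * y)).meas.aestronglyMeasurable]
      exact ENNReal.toReal_le_of_le_ofReal hM h1
    calc ∫ ω, ((Bg D x L d ω).card : ℝ) ^ 4 ∂μ
        ≤ ∫ ω, 24 / l ^ 4 * Real.exp (l * ((Bg D x L d ω).card : ℝ)) ∂μ := by
          refine integral_mono (hFd.pow 4).int
            ((hFd.comp fun y => Real.exp (l * y)).int.const_mul _) fun ω => ?_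
          have h4 := pow_four_le_exp (y := l * ((Bg D x L d ω).card : ℝ)) (by positivity)
          rw [mul_pow] at h4
          show ((Bg D x L d ω).card : ℝ) ^ 4 ≤ 24 / l ^ 4 * Real.exp (l * ((Bg D x L d ω).card : ℝ))
          rw [div_mul_eq_mul_div, le_div_iff₀ (by positivity)]
          linarith
      _ = 24 / l ^ 4 * ∫ ω, Real.exp (l * ((Bg D x L d ω).card : ℝ)) ∂μ := integral_const_mul _ _
      _ ≤ 24 / l ^ 4 * M := mul_le_mul_of_nonneg_left h3 (by positivity)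
      _ = _ := by ring
  have h3 : 24 * M / l ^ 4 ≤ C ^ 4 := by
    calc 24 * M / l ^ 4 ≤ C := by rw [hC]; linarith
      _ = C ^ 1 := (pow_one C).symm
      _ ≤ C ^ 4 := pow_le_pow_right₀ hC1 (by norm_num)
  refine ⟨h2.trans h3, ?_⟩
  have h4 := int_le (X := fun ω => ((Bg D x L d ω).card : ℝ) ^ 2) (hFd.pow 2) (a := C ^ 2)
    (by positivity) (by
      calc ∫ ω, (((Bg D x L d ω).card : ℝ) ^ 2) ^ 2 ∂μ = ∫ ω, ((Bg D x L d ω).card : ℝ) ^ 4 ∂μ := by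
            refine integral_congr_ae (Filter.Eventually.of_forall fun ω => ?_)
            show (((Bg D x L d ω).card : ℝ) ^ 2) ^ 2 = ((Bg D x L d ω).card : ℝ) ^ 4
            ring
        _ ≤ C ^ 4 := h2.trans h3
        _ = _ := by ring)
  exact (le_abs_self _).trans h4

/-! ### The coefficients -/

theorem abs_wp'_le (D : Finset (ℤ × ℤ)) (A : Finset Ed) (t : ℝ) : |wp' D A t| ≤ 2 := by
  unfold wp'
  split_ifs
  · rw [abs_div, cos_third, abs_of_pos (by norm_num : (0 : ℝ) < 1 / 2)]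
    have := Real.abs_sin_le_one (Real.pi / 3 + t)
    linarith
  · have h0 := half_le_cos_six
    have h1 : (0 : ℝ) < Real.cos (Real.pi / 6) := by linarith
    rw [abs_div, abs_of_pos h1, div_le_iff₀ h1]
    have := Real.abs_sin_le_one (Real.pi / 6 + t)
    linarith

theorem sin_lip (a b : ℝ) : |Real.sin a - Real.sin b| ≤ |a - b| := by
  have h := cos_lip (Real.pi / 2 - a) (Real.pi / 2 - b)
  rw [Real.cos_pi_div_two_sub, Real.cos_pi_div_two_sub] at h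
  rwa [show Real.pi / 2 - a - (Real.pi / 2 - b) = -(a - b) by ring, abs_neg] at h

theorem wp'_lip (D : Finset (ℤ × ℤ)) (A : Finset Ed) (s t : ℝ) :
    |wp' D A s - wp' D A t| ≤ 2 * |s - t| := by
  unfold wp'
  split_ifs
  · rw [← sub_div, abs_div, cos_third, abs_of_pos (by norm_num : (0 : ℝ) < 1 / 2)]
    have := sin_lip (Real.pi / 3 + s) (Real.pi / 3 + t)
    rw [add_sub_add_left_eq_sub] at this
    linarith
  · have h0 := half_le_cos_six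
    have h1 : (0 : ℝ) < Real.cos (Real.pi / 6) := by linarith
    rw [← sub_div, abs_div, abs_of_pos h1, div_le_iff₀ h1]
    have := sin_lip (Real.pi / 6 + s) (Real.pi / 6 + t)
    rw [add_sub_add_left_eq_sub] at this
    nlinarith [abs_nonneg (s - t)]

theorem wp_lip (D : Finset (ℤ × ℤ)) (A : Finset Ed) (s t : ℝ) :
    |wp D A s - wp D A t| ≤ 2 * |s - t| := by
  unfold wp
  split_ifs
  · exact wl_lip s t
  · exact ws_lip s t

theorem wp_zero (D : Finset (ℤ × ℤ)) (A : Finset Ed) : wp D A 0 = 1 := by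
  unfold wp
  split_ifs
  · exact wl_zero
  · exact ws_zero

/-- The tangent of the angle of a piece. -/
noncomputable def bq (D : Finset (ℤ × ℤ)) (A : Finset Ed) (t : ℝ) : ℝ := wp' D A t / wp D A t

theorem abs_bq_le {t : ℝ} (h : |wp D A t - 1| ≤ 1 / 2) : |bq D A t| ≤ 4 := by
  have h1 := (abs_le.1 h).1
  have h2 : 1 / 2 ≤ |wp D A t| := by
    rw [abs_of_pos (by linarith)]; linarith
  unfold bq
  rw [abs_div, div_le_iff₀ (by linarith)]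
  have := abs_wp'_le D A t
  linarith

theorem bq_lip {t : ℝ} (h : |wp D A t - 1| ≤ 1 / 2) : |bq D A t - bq D A 0| ≤ 12 * |t| := by
  have h1 := (abs_le.1 h).1
  have h2 : 1 / 2 ≤ wp D A t := by linarith
  unfold bq
  rw [wp_zero, div_one]
  have h3 : wp' D A t / wp D A t - wp' D A 0 =
      ((wp' D A t - wp' D A 0) + wp' D A 0 * (1 - wp D A t)) / wp D A t := by
    field_simp; ring
  rw [h3, abs_div, div_le_iff₀ (by rw [abs_of_pos] <;> linarith), abs_of_pos (by linarith : 0 < wp D A t)]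
  have h4 := wp'_lip D A t 0
  have h5 := wp_lip D A t 0
  rw [sub_zero] at h4 h5
  rw [wp_zero] at h5
  have h6 := abs_wp'_le D A 0
  have h7 : |wp' D A 0 * (1 - wp D A t)| ≤ 2 * (2 * |t|) := by
    rw [abs_mul, abs_sub_comm]
    exact mul_le_mul h6 h5 (abs_nonneg _) (by norm_num)
  have h8 := abs_add_le (wp' D A t - wp' D A 0) (wp' D A 0 * (1 - wp D A t))
  have h9 := abs_nonneg t
  nlinarith

/-- The mass of a small piece is small if the total charge is zero. -/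
theorem Geo.mass_small {K m : ℤ} (hG : Geo K m D p) (hAp : A ∈ pcs ω D) {d : ℝ} (hd : 1 ≤ d)
    (hdm : d ≤ m) (hA : Small d A) {f : ℤ × ℤ → ℝ} (htot : tot D f = 0) {a : ℝ}
    (hf : ∀ z, |f z| ≤ a) : |mass D p f A| ≤ 9 * K ^ 2 * a * d ^ 2 := by
  obtain ⟨e0, he0⟩ := pcs_nonempty hAp
  have ha : 0 ≤ a := (abs_nonneg _).trans (hf 0)
  have hW : Wi (hdv e0) ⌊d⌋ A := fun e he => by
    rw [Int.le_floor]
    exact (hA _ (Finset.mem_image_of_mem _ he) _ (Finset.mem_image_of_mem _ he0)).le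
  have hs1 : 1 ≤ ⌊d⌋ := Int.le_floor.2 (by exact_mod_cast hd)
  have hs2 : ⌊d⌋ ≤ m := by
    have : (⌊d⌋ : ℝ) ≤ m := (Int.floor_le d).trans hdm
    exact_mod_cast this
  obtain ⟨τ, hτ, h⟩ := hG.mass_le hs1 hs2 hW hAp f
  have hK : (1 : ℝ) ≤ K := by exact_mod_cast hG.one_le
  have hsd : (⌊d⌋ : ℝ) ≤ d := Int.floor_le d
  have hs0 : (1 : ℝ) ≤ ⌊d⌋ := by exact_mod_cast hs1
  have h0 : τ = 0 := by
    rcases hτ with h | ⟨h, -⟩
    · exact h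
    · rw [h, htot]
  rw [h0, sub_zero] at h
  refine h.trans ?_
  calc ∑ z ∈ nr D (hdv e0) (K * ⌊d⌋), |f z| ≤ ∑ _z ∈ nr D (hdv e0) (K * ⌊d⌋), a :=
        Finset.sum_le_sum fun z _ => hf z
    _ = ((nr D (hdv e0) (K * ⌊d⌋)).card : ℝ) * a := by rw [Finset.sum_const, nsmul_eq_mul]
    _ ≤ (2 * ((K * ⌊d⌋ : ℤ) : ℝ) + 1) ^ 2 * a :=
        mul_le_mul_of_nonneg_right (nr_card D _ (by nlinarith [hG.one_le])) ha
    _ ≤ (3 * K * d) ^ 2 * a := by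
        refine mul_le_mul_of_nonneg_right ?_ ha
        push_cast
        have h3 : (K : ℝ) * ⌊d⌋ ≤ K * d := mul_le_mul_of_nonneg_left hsd (by linarith)
        have h4 : (1 : ℝ) ≤ K * d := by nlinarith
        have h5 : (0 : ℝ) ≤ K * ⌊d⌋ := by positivity
        refine pow_le_pow_left₀ (by linarith) (by linarith) 2
    _ = _ := by ring

/-! ### One scale -/

open Classical in
/-- A linear statistic of the pieces with the property `Q`. -/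
noncomputable def NQ (D : Finset (ℤ × ℤ)) (p : ℤ × ℤ) (f : ℤ × ℤ → ℝ) (Q : Finset Ed → Prop)
    (τ : Finset Ed → ℝ) (ω : Cfg) : ℝ :=
  ∑ A ∈ (pcs ω D).filter Q, τ A * bq D A (mass D p f A)

theorem fd_NQ (Q : Finset Ed → Prop) (τ : Finset Ed → ℝ) : Fd (NQ D p f Q τ) := by
  classical
  exact fd_pcs D fun s => ∑ A ∈ s.filter Q, τ A * bq D A (mass D p f A)

theorem NQ_loc {x : ℤ × ℤ} {L : ℤ} {Q : Finset Ed → Prop} {τ : Finset Ed → ℝ}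
    (hQ : ∀ A, Q A → ∀ e ∈ A, nm (hdv e - x) ≤ L) :
    LocFun {v : ℤ × ℤ | nm (v - x) ≤ L} (NQ D p f Q τ) := by
  classical
  intro o o' h
  unfold NQ
  rw [pcs_filter_eq Q (S := {v : ℤ × ℤ | nm (v - x) ≤ L}) hQ h]

theorem mass_zero (D : Finset (ℤ × ℤ)) (p : ℤ × ℤ) (A : Finset Ed) : mass D p 0 A = 0 := by
  unfold mass
  simp

/-- Choice of the outer radius. -/
theorem exists_R {L T : ℤ} (hL : 1 ≤ L) (hLT : 4 * L ≤ T) : ∃ R : ℤ, L < R ∧ R ≤ T ∧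
    (L : ℝ) / R ≤ Real.sqrt ((L : ℝ) / T) ∧ (R : ℝ) ^ 2 ≤ 4 * (L * T) := by
  have hL1 : (1 : ℝ) ≤ L := by exact_mod_cast hL
  have hT4 : (4 : ℝ) * L ≤ T := by exact_mod_cast hLT
  set s : ℝ := Real.sqrt (L * T) with hs
  have hs2 : s ^ 2 = L * T := Real.sq_sqrt (by nlinarith)
  have hs0 : 0 ≤ s := Real.sqrt_nonneg _
  have hsL : 2 * L ≤ s := by
    refine le_of_sq_le_sq ?_ hs0
    rw [hs2]; nlinarith
  have hsT : 2 * s ≤ T := by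
    refine le_of_sq_le_sq ?_ (by linarith)
    rw [mul_pow, hs2]; nlinarith
  refine ⟨⌊s⌋ + 1, ?_, ?_, ?_, ?_⟩
  · have : L ≤ ⌊s⌋ := Int.le_floor.2 (by linarith)
    omega
  · have h1 : ((⌊s⌋ + 1 : ℤ) : ℝ) ≤ T := by
      push_cast
      have := Int.floor_le s
      linarith
    exact_mod_cast h1
  · have h1 : s < ⌊s⌋ + 1 := Int.lt_floor_add_one s
    have h2 : (L : ℝ) / T = (L / s) ^ 2 := by
      rw [div_pow, hs2, pow_two]
      have : (L : ℝ) ≠ 0 := by linarith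
      have : (T : ℝ) ≠ 0 := by linarith
      field_simp
    rw [h2, Real.sqrt_sq (by positivity)]
    push_cast
    exact div_le_div_of_nonneg_left (by linarith) (by linarith) h1.le
  · have h1 : ((⌊s⌋ + 1 : ℤ) : ℝ) ≤ 2 * s := by
      push_cast
      have := Int.floor_le s
      linarith
    have h2 : (0 : ℝ) ≤ ((⌊s⌋ + 1 : ℤ) : ℝ) := by
      have : 0 ≤ ⌊s⌋ := Int.floor_nonneg.2 hs0
      exact_mod_cast (by omega : 0 ≤ ⌊s⌋ + 1)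
    calc ((⌊s⌋ + 1 : ℤ) : ℝ) ^ 2 ≤ (2 * s) ^ 2 := pow_le_pow_left₀ h2 h1 2
      _ = 4 * (L * T) := by rw [mul_pow, hs2]; norm_num

/-- The setting: everything is small up to the scale `T`. -/
structure Sc (K : ℕ) (m T : ℤ) (D : Finset (ℤ × ℤ)) (p : ℤ × ℤ) (f : ℤ × ℤ → ℝ) (a c : ℝ) :
    Prop where
  geo : Geo K m D p
  hTm : 2 * T ≤ m
  hf : ∀ z, |f z| ≤ a
  htot : tot D f = 0
  hc : a * K ^ 2 * T ^ 2 ≤ c

theorem Sc.ha {K : ℕ} {m T : ℤ} {a c : ℝ} (h : Sc K m T D p f a c) : 0 ≤ a :=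
  (abs_nonneg _).trans (h.hf 0)

theorem Sc.mono {K : ℕ} {m T : ℤ} {a c c' : ℝ} (h : Sc K m T D p f a c) (hc : c ≤ c') :
    Sc K m T D p f a c' := ⟨h.geo, h.hTm, h.hf, h.htot, h.hc.trans hc⟩

/-- The pieces of one scale near `x`. -/
def QS (K : ℕ) (j : ℕ) (x : ℤ × ℤ) (Q : Finset Ed → Prop) : Prop :=
  ∀ A, Q A → (∀ e ∈ A, nm (hdv e - x) ≤ ((K : ℤ) + 1) * 2 ^ (j + 1)) ∧
      Small (2 ^ (j + 1)) A ∧ ¬ Small (2 ^ j) A

theorem two_pow_le {K : ℕ} {T : ℤ} {j : ℕ} (hj : 8 * ((K : ℤ) + 1) * 2 ^ j ≤ T) :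
    (2 : ℝ) ^ (j + 1) ≤ T := by
  have h2j : (1 : ℤ) ≤ 2 ^ j := one_le_pow₀ (by norm_num)
  have h1 : (2 : ℤ) ^ (j + 1) ≤ T := by
    rw [pow_succ]
    have : (0 : ℤ) ≤ K := Int.natCast_nonneg _
    nlinarith
  exact_mod_cast h1

theorem T_pos {K : ℕ} {T : ℤ} {j : ℕ} (hj : 8 * ((K : ℤ) + 1) * 2 ^ j ≤ T) : (0 : ℝ) < T :=
  lt_of_lt_of_le (by positivity) (two_pow_le hj)

theorem Sc.mass_le {K : ℕ} {m T : ℤ} {a c : ℝ} (h : Sc K m T D p f a c) {j : ℕ}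
    (hj : 8 * ((K : ℤ) + 1) * 2 ^ j ≤ T) (hA : A ∈ pcs ω D) (hs : Small (2 ^ (j + 1)) A) :
    |mass D p f A| ≤ 9 * c * ((2 : ℝ) ^ (j + 1) / T) ^ 2 := by
  have hT0 := T_pos hj
  have hdT := two_pow_le hj
  have hdm : (2 : ℝ) ^ (j + 1) ≤ m := by
    have h1 : (2 : ℝ) * T ≤ m := by exact_mod_cast h.hTm
    linarith
  have h1 := h.geo.mass_small hA (one_le_pow₀ (by norm_num)) hdm hs h.htot h.hf
  calc |mass D p f A| ≤ 9 * ((K : ℤ) : ℝ) ^ 2 * a * (2 ^ (j + 1)) ^ 2 := h1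
    _ = 9 * (a * K ^ 2 * T ^ 2) * ((2 : ℝ) ^ (j + 1) / T) ^ 2 := by push_cast; field_simp
    _ ≤ _ := by
        refine mul_le_mul_of_nonneg_right ?_ (by positivity)
        linarith [h.hc]

theorem Sc.wp_le {K : ℕ} {m T : ℤ} {a c : ℝ} (h : Sc K m T D p f a c) (hc : c ≤ 1 / 72) {j : ℕ}
    (hj : 8 * ((K : ℤ) + 1) * 2 ^ j ≤ T) (hA : A ∈ pcs ω D) (hs : Small (2 ^ (j + 1)) A) :
    |wp D A (mass D p f A) - 1| ≤ 1 / 2 := by
  have hT0 := T_pos hj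
  have h1 := wp_lip D A (mass D p f A) 0
  rw [wp_zero, sub_zero] at h1
  have h2 := h.mass_le hj hA hs
  have hx1 : (2 : ℝ) ^ (j + 1) / T ≤ 1 := by rw [div_le_one hT0]; exact two_pow_le hj
  have hx0 : 0 ≤ (2 : ℝ) ^ (j + 1) / T := by positivity
  have h3 : ((2 : ℝ) ^ (j + 1) / T) ^ 2 ≤ 1 := pow_le_one₀ hx0 hx1
  have h4 : 0 ≤ ((2 : ℝ) ^ (j + 1) / T) ^ 2 := by positivity
  have h5 : 0 ≤ c := by
    have := h.hc
    have h6 := h.ha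
    have : 0 ≤ a * K ^ 2 * T ^ 2 := by positivity
    linarith [h.hc]
  nlinarith

/-- The number of the pieces of one scale. -/
noncomputable def cn (K : ℕ) (D : Finset (ℤ × ℤ)) (x : ℤ × ℤ) (j : ℕ) (ω : Cfg) : ℝ :=
  ((Bg D x (((K : ℤ) + 1) * 2 ^ (j + 1)) (2 ^ j) ω).card : ℝ)

theorem fd_cn (K : ℕ) (D : Finset (ℤ × ℤ)) (x : ℤ × ℤ) (j : ℕ) : Fd (cn K D x j) := fd_Bg D x _ _

theorem cn_nonneg (K : ℕ) (D : Finset (ℤ × ℤ)) (x : ℤ × ℤ) (j : ℕ) (ω : Cfg) :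
    0 ≤ cn K D x j ω := Nat.cast_nonneg _

open Classical in
theorem card_le_cn {K : ℕ} {j : ℕ} {x : ℤ × ℤ} {Q : Finset Ed → Prop} (hQ : QS K j x Q) (ω : Cfg) :
    (((pcs ω D).filter Q).card : ℝ) ≤ cn K D x j ω := by
  unfold cn
  have : (pcs ω D).filter Q ⊆ Bg D x (((K : ℤ) + 1) * 2 ^ (j + 1)) (2 ^ j) ω := by
    intro A hA
    obtain ⟨h1, h2⟩ := Finset.mem_filter.1 hA
    obtain ⟨h3, -, h5⟩ := hQ A h2
    unfold Bg
    rw [Finset.mem_filter]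
    obtain ⟨e, he⟩ := pcs_nonempty h1
    exact ⟨h1, ⟨e, he, h3 e he⟩, h5⟩
  exact_mod_cast Finset.card_le_card this

theorem cn_sq (K : ℕ) : ∃ C : ℝ, 1 ≤ C ∧ ∀ (D : Finset (ℤ × ℤ)) (x : ℤ × ℤ) (j : ℕ),
    ∫ ω, cn K D x j ω ^ 2 ∂μ ≤ C ^ 2 := by
  obtain ⟨C4, hC4, hcard⟩ := card_four (2 * (K + 1))
  refine ⟨C4, hC4, fun D x j => ?_⟩
  refine (hcard D x _ (2 ^ j) (one_le_pow₀ (by norm_num)) (by positivity) ?_).2
  push_cast
  rw [pow_succ]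
  linarith

/-- Second moment. -/
theorem NQ_sq {K : ℕ} {m T : ℤ} {a c : ℝ} (h : Sc K m T D p f a c) (hc : c ≤ 1 / 72) {j : ℕ}
    (hj : 8 * ((K : ℤ) + 1) * 2 ^ j ≤ T) {x : ℤ × ℤ} {Q : Finset Ed → Prop} (hQ : QS K j x Q)
    {τ : Finset Ed → ℝ} (hτ : ∀ A, |τ A| ≤ 1) {C : ℝ} (hC : ∫ ω, cn K D x j ω ^ 2 ∂μ ≤ C ^ 2) :
    ∫ ω, NQ D p f Q τ ω ^ 2 ∂μ ≤ (4 * C) ^ 2 := by
  classical
  have hNpt : ∀ ω, |NQ D p f Q τ ω| ≤ 4 * cn K D x j ω := by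
    intro ω
    unfold NQ
    refine (Finset.abs_sum_le_sum_abs _ _).trans ?_
    calc ∑ A ∈ (pcs ω D).filter Q, |τ A * bq D A (mass D p f A)|
        ≤ ∑ _A ∈ (pcs ω D).filter Q, (4 : ℝ) := Finset.sum_le_sum fun A hA => by
          obtain ⟨h1, h2⟩ := Finset.mem_filter.1 hA
          have h3 := abs_bq_le (h.wp_le hc hj h1 (hQ A h2).2.1)
          rw [abs_mul]
          calc |τ A| * |bq D A (mass D p f A)| ≤ 1 * 4 :=
                mul_le_mul (hτ A) h3 (abs_nonneg _) zero_le_one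
            _ = 4 := one_mul 4
      _ = (((pcs ω D).filter Q).card : ℝ) * 4 := by rw [Finset.sum_const, nsmul_eq_mul]
      _ ≤ _ := by have := card_le_cn (D := D) hQ ω; linarith
  calc ∫ ω, NQ D p f Q τ ω ^ 2 ∂μ
      ≤ ∫ ω, 16 * cn K D x j ω ^ 2 ∂μ := by
        refine integral_mono ((fd_NQ Q τ).pow 2).int (((fd_cn K D x j).pow 2).int.const_mul _)
          fun ω => ?_
        show NQ D p f Q τ ω ^ 2 ≤ 16 * cn K D x j ω ^ 2
        have h1 := hNpt ω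
        calc NQ D p f Q τ ω ^ 2 = |NQ D p f Q τ ω| ^ 2 := (sq_abs _).symm
          _ ≤ (4 * cn K D x j ω) ^ 2 := pow_le_pow_left₀ (abs_nonneg _) h1 2
          _ = _ := by ring
    _ = 16 * ∫ ω, cn K D x j ω ^ 2 ∂μ := integral_const_mul _ _
    _ ≤ 16 * C ^ 2 := mul_le_mul_of_nonneg_left hC (by norm_num)
    _ = _ := by ring

/-- Dependence of the mean on the charge. -/
theorem NQ_diff {K : ℕ} {m T : ℤ} {a c : ℝ} (h : Sc K m T D p f a c) (hc : c ≤ 1 / 72) {j : ℕ}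
    (hj : 8 * ((K : ℤ) + 1) * 2 ^ j ≤ T) {x : ℤ × ℤ} {Q : Finset Ed → Prop} (hQ : QS K j x Q)
    {τ : Finset Ed → ℝ} (hτ : ∀ A, |τ A| ≤ 1) {C : ℝ} (hC0 : 0 ≤ C)
    (hC : ∫ ω, cn K D x j ω ^ 2 ∂μ ≤ C ^ 2) :
    |∫ ω, NQ D p f Q τ ω ∂μ - ∫ ω, NQ D p 0 Q τ ω ∂μ| ≤ C * 432 * ((2 : ℝ) ^ j / T) := by
  classical
  have hT0 := T_pos hj
  have hy0 : 0 ≤ (2 : ℝ) ^ j / T := by positivity
  have hy1 : (2 : ℝ) ^ j / T ≤ 1 := by
    rw [div_le_one hT0]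
    exact (pow_le_pow_right₀ (by norm_num) (Nat.le_succ j)).trans (two_pow_le hj)
  have hterm : ∀ ω, ∀ A ∈ (pcs ω D).filter Q,
      |τ A * bq D A (mass D p f A) - τ A * bq D A (mass D p 0 A)| ≤ 432 * ((2 : ℝ) ^ j / T) := by
    intro ω A hA
    obtain ⟨g1, g2⟩ := Finset.mem_filter.1 hA
    rw [mass_zero, ← mul_sub, abs_mul]
    have g3 := bq_lip (h.wp_le hc hj g1 (hQ A g2).2.1)
    have g4 := h.mass_le hj g1 (hQ A g2).2.1
    have g5 : ((2 : ℝ) ^ (j + 1) / T) ^ 2 ≤ 4 * ((2 : ℝ) ^ j / T) := by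
      have e1 : (2 : ℝ) ^ (j + 1) / T = 2 * ((2 : ℝ) ^ j / T) := by rw [pow_succ]; ring
      rw [e1]
      nlinarith
    have g8 : 0 ≤ ((2 : ℝ) ^ (j + 1) / T) ^ 2 := by positivity
    have g7 : |mass D p f A| ≤ 36 * ((2 : ℝ) ^ j / T) := by
      refine g4.trans ?_
      nlinarith
    calc |τ A| * |bq D A (mass D p f A) - bq D A 0| ≤ 1 * (12 * |mass D p f A|) :=
          mul_le_mul (hτ A) g3 (abs_nonneg _) zero_le_one
      _ ≤ _ := by linarith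
  have h3 : ∀ ω, |NQ D p f Q τ ω - NQ D p 0 Q τ ω| ≤ 432 * ((2 : ℝ) ^ j / T) * cn K D x j ω := by
    intro ω
    unfold NQ
    rw [← Finset.sum_sub_distrib]
    refine (Finset.abs_sum_le_sum_abs _ _).trans ?_
    calc ∑ A ∈ (pcs ω D).filter Q, |τ A * bq D A (mass D p f A) - τ A * bq D A (mass D p 0 A)|
        ≤ ∑ _A ∈ (pcs ω D).filter Q, 432 * ((2 : ℝ) ^ j / T) :=
          Finset.sum_le_sum fun A hA => hterm ω A hA
      _ = (((pcs ω D).filter Q).card : ℝ) * (432 * ((2 : ℝ) ^ j / T)) := by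
          rw [Finset.sum_const, nsmul_eq_mul]
      _ ≤ _ := by
          rw [mul_comm]
          exact mul_le_mul_of_nonneg_left (card_le_cn (D := D) hQ ω) (by positivity)
  have h4 : |∫ ω, cn K D x j ω ∂μ| ≤ C := int_le (fd_cn K D x j) hC0 hC
  rw [← integral_sub (fd_NQ Q τ).int (fd_NQ Q τ).int]
  calc |∫ ω, (NQ D p f Q τ ω - NQ D p 0 Q τ ω) ∂μ|
      ≤ ∫ ω, |NQ D p f Q τ ω - NQ D p 0 Q τ ω| ∂μ := abs_integral_le_integral_abs
    _ ≤ ∫ ω, 432 * ((2 : ℝ) ^ j / T) * cn K D x j ω ∂μ :=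
        integral_mono ((fd_NQ Q τ).sub (fd_NQ Q τ)).abs.int ((fd_cn K D x j).int.const_mul _) h3
    _ = 432 * ((2 : ℝ) ^ j / T) * ∫ ω, cn K D x j ω ∂μ := integral_const_mul _ _
    _ ≤ 432 * ((2 : ℝ) ^ j / T) * C :=
        mul_le_mul_of_nonneg_left ((le_abs_self _).trans h4) (by positivity)
    _ = _ := by ring

theorem abs_VD_le {B : ℝ} (hB : 0 ≤ B) {X : Cfg → ℝ} (hX : Fd X)
    (hXB : ∫ ω, X ω ^ 4 ∂μ ≤ B ^ 4) : ∫ ω, X ω ^ 2 ∂μ ≤ B ^ 2 ∧ |∫ ω, X ω ∂μ| ≤ B := by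
  have h2 := int_le (X := fun ω => X ω ^ 2) (hX.pow 2) (a := B ^ 2)
    (by positivity) (by
      calc ∫ ω, (X ω ^ 2) ^ 2 ∂μ = ∫ ω, X ω ^ 4 ∂μ := by
            refine integral_congr_ae (Filter.Eventually.of_forall fun ω => ?_)
            show (X ω ^ 2) ^ 2 = X ω ^ 4
            ring
        _ ≤ B ^ 4 := hXB
        _ = _ := by ring)
  have h3 := (le_abs_self _).trans h2
  exact ⟨h3, int_le hX hB h3⟩

/-- The powers. -/
theorem pow_bound {β k1 c0 y l r q : ℝ} (hβ : 0 < β) (hβ1 : β ≤ 1) (hk1 : 1 ≤ k1) (hc0 : 0 ≤ c0)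
    (hy : 0 < y) (hy1 : y ≤ 1) (hl : l = k1 * y) (hr0 : 0 ≤ r) (hr : r ≤ Real.sqrt l)
    (hq : q ≤ 4 * c0 * l) :
    r ^ β + q ≤ (k1 + 4 * c0 * k1) * y ^ (β / 2) ∧ y ≤ y ^ (β / 2) := by
  have hpow : y ≤ y ^ (β / 2) := by
    calc y = y ^ (1 : ℝ) := (Real.rpow_one _).symm
      _ ≤ _ := Real.rpow_le_rpow_of_exponent_ge hy hy1 (by linarith)
  refine ⟨?_, hpow⟩
  have hl0 : 0 ≤ l := by rw [hl]; positivity
  have hpow2 : r ^ β ≤ k1 * y ^ (β / 2) := by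
    calc r ^ β ≤ (Real.sqrt l) ^ β := Real.rpow_le_rpow hr0 hr hβ.le
      _ = l ^ (β / 2) := by
          rw [Real.sqrt_eq_rpow, ← Real.rpow_mul hl0]
          congr 1; ring
      _ = k1 ^ (β / 2) * y ^ (β / 2) := by
          rw [hl, Real.mul_rpow (by linarith) hy.le]
      _ ≤ k1 * y ^ (β / 2) := by
          refine mul_le_mul_of_nonneg_right ?_ (Real.rpow_nonneg hy.le _)
          calc k1 ^ (β / 2) ≤ k1 ^ (1 : ℝ) :=
                Real.rpow_le_rpow_of_exponent_le hk1 (by linarith)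
            _ = k1 := Real.rpow_one _
  have h6 : 4 * c0 * l ≤ 4 * c0 * (k1 * y ^ (β / 2)) := by
    rw [hl]
    exact mul_le_mul_of_nonneg_left (mul_le_mul_of_nonneg_left hpow (by linarith)) (by linarith)
  linarith

/-- **One scale.** -/
theorem per_scale (K : ℕ) : ∃ c C β : ℝ, 0 < c ∧ 0 < C ∧ 0 < β ∧ β ≤ 1 ∧
    ∀ (m T : ℤ) (D : Finset (ℤ × ℤ)) (p : ℤ × ℤ) (f : ℤ × ℤ → ℝ) (a : ℝ), Sc K m T D p f a c →
    ∀ B : ℝ, 0 ≤ B → ∫ ω, XD D p f ω ^ 4 ∂μ ≤ B ^ 4 → ∀ (j : ℕ) (x : ℤ × ℤ),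
    8 * ((K : ℤ) + 1) * 2 ^ j ≤ T → ∀ (Q : Finset Ed → Prop) (τ : Finset Ed → ℝ),
    QS K j x Q → (∀ A, |τ A| ≤ 1) →
    |∫ ω, XD D p f ω * NQ D p f Q τ ω ∂μ - (∫ ω, XD D p f ω ∂μ) * ∫ ω, NQ D p 0 Q τ ω ∂μ| ≤
      C * B * ((2 : ℝ) ^ j / T) ^ β := by
  obtain ⟨c0, C0, β, hc0, hC0, hβ, hβ1, hcov⟩ := local_cov
  obtain ⟨C4, hC4, hcard⟩ := cn_sq K
  set k1 : ℝ := 2 * ((K : ℝ) + 1) with hk1
  have hk1p : 2 ≤ k1 := by
    have : (0 : ℝ) ≤ K := Nat.cast_nonneg _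
    rw [hk1]; linarith
  refine ⟨min c0 (1 / 72), C0 * (4 * C4) * (k1 + 4 * c0 * k1) + C4 * 432, β / 2,
    by positivity, by positivity, by positivity, by linarith,
    fun m T D p f a h B hB hXB j x hj Q τ hQ hτ => ?_⟩
  have ha : 0 ≤ a := h.ha
  have hc1 : a * K ^ 2 * T ^ 2 ≤ c0 := h.hc.trans (min_le_left _ _)
  have hT0 := T_pos hj
  have hws : ws (tot D f) = 1 := by rw [h.htot]; exact ws_zero
  set L : ℤ := ((K : ℤ) + 1) * 2 ^ (j + 1) with hL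
  have hL1 : 1 ≤ L := by
    have h2j : (1 : ℤ) ≤ 2 ^ j := one_le_pow₀ (by norm_num)
    rw [hL, pow_succ]; nlinarith [h.geo.one_le]
  have hLT : 4 * L ≤ T := by
    rw [hL, pow_succ]; linarith
  have hLR : (L : ℝ) / T = k1 * ((2 : ℝ) ^ j / T) := by
    rw [hL, hk1]; push_cast; rw [pow_succ]; ring
  obtain ⟨R, hR1, hR2, hR3, hR4⟩ := exists_R hL1 hLT
  have hR0 : (0 : ℝ) ≤ R := by exact_mod_cast (by omega : (0 : ℤ) ≤ R)
  have hRq : a * K ^ 2 * R ^ 2 ≤ 4 * c0 * ((L : ℝ) / T) := by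
    calc a * K ^ 2 * R ^ 2 ≤ a * K ^ 2 * (4 * (L * T)) :=
          mul_le_mul_of_nonneg_left hR4 (by positivity)
      _ = 4 * (a * K ^ 2 * T ^ 2) * ((L : ℝ) / T) := by field_simp
      _ ≤ 4 * c0 * ((L : ℝ) / T) := by
          have : (0 : ℝ) ≤ (L : ℝ) / T := by rw [hLR]; positivity
          exact mul_le_mul_of_nonneg_right (by linarith) this
  have hRc : a * ((K : ℤ) : ℝ) ^ 2 * R ^ 2 ≤ c0 := by
    have hRT : (R : ℝ) ≤ T := by exact_mod_cast hR2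
    have h1 : (R : ℝ) ^ 2 ≤ (T : ℝ) ^ 2 := pow_le_pow_left₀ hR0 hRT 2
    push_cast
    calc a * (K : ℝ) ^ 2 * R ^ 2 ≤ a * (K : ℝ) ^ 2 * T ^ 2 :=
          mul_le_mul_of_nonneg_left h1 (by positivity)
      _ ≤ c0 := hc1
  have hN2 := NQ_sq h (min_le_right _ _) hj hQ hτ (hcard D x j)
  have h1 := hcov K m D p h.geo f a h.hf hws x L R hL1 hR1 (by linarith [h.hTm]) hRc
    (NQ D p f Q τ) (fd_NQ Q τ) (NQ_loc fun A hA => (hQ A hA).1) B (4 * C4) hB (by positivity)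
    hXB hN2
  push_cast at h1
  have hV := (abs_VD_le hB (fd_XD D p f) hXB).2
  have hdiff := NQ_diff h (min_le_right _ _) hj hQ hτ (by linarith) (hcard D x j)
  have hy0 : 0 < (2 : ℝ) ^ j / T := by positivity
  have hy1 : (2 : ℝ) ^ j / T ≤ 1 := by
    rw [div_le_one hT0]
    exact (pow_le_pow_right₀ (by norm_num) (Nat.le_succ j)).trans (two_pow_le hj)
  have hL1R : (0 : ℝ) ≤ L := by exact_mod_cast (by omega : (0 : ℤ) ≤ L)
  obtain ⟨h5, hpow⟩ := pow_bound (r := (L : ℝ) / R) hβ hβ1 (by linarith) hc0.le hy0 hy1 hLR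
    (by positivity) hR3 hRq
  set y : ℝ := ((2 : ℝ) ^ j / T) ^ (β / 2) with hy
  calc |∫ ω, XD D p f ω * NQ D p f Q τ ω ∂μ - (∫ ω, XD D p f ω ∂μ) * ∫ ω, NQ D p 0 Q τ ω ∂μ|
      = |(∫ ω, XD D p f ω * NQ D p f Q τ ω ∂μ - (∫ ω, XD D p f ω ∂μ) * ∫ ω, NQ D p f Q τ ω ∂μ) +
          (∫ ω, XD D p f ω ∂μ) * (∫ ω, NQ D p f Q τ ω ∂μ - ∫ ω, NQ D p 0 Q τ ω ∂μ)| := by
        congr 1; ring
    _ ≤ |∫ ω, XD D p f ω * NQ D p f Q τ ω ∂μ - (∫ ω, XD D p f ω ∂μ) * ∫ ω, NQ D p f Q τ ω ∂μ| +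
          |(∫ ω, XD D p f ω ∂μ) * (∫ ω, NQ D p f Q τ ω ∂μ - ∫ ω, NQ D p 0 Q τ ω ∂μ)| :=
        abs_add_le _ _
    _ ≤ C0 * B * (4 * C4) * ((k1 + 4 * c0 * k1) * y) + B * (C4 * 432 * y) := by
        refine add_le_add (h1.trans ?_) ?_
        · exact mul_le_mul_of_nonneg_left h5 (by positivity)
        · rw [abs_mul]
          refine mul_le_mul hV (hdiff.trans ?_) (abs_nonneg _) hB
          exact mul_le_mul_of_nonneg_left hpow (by positivity)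
    _ = _ := by ring

end Vale.Agent.P167.H167
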